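import Vale.Agent.P226.Outer

/-!
# From the certificate to the bound for obtuse fixed points
-/

open MeasureTheory ProbabilityTheory Set Filter Topology

namespace Vale.Agent.P226

variable {d k : ℕ}

section pair
variable {Z : Fin k → Euc d} {i : Fin k} (hZ : ObtuseFP Z) (hne : (Finset.univ.erase i).Nonempty)
include hZ

/-- Pythagoras for the vector `β v`. -/
lemma cb_mul_norm_cv_sq {l : Fin k} (hl : l ≠ i) :
    (cb Z i l * ‖cv Z i l‖) ^ 2 = ‖Z l‖ ^ 2 - (inner ℝ (Z l) (cu Z i)) ^ 2 := by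
  have h1 : ‖cb Z i l • cv Z i l‖ = cb Z i l * ‖cv Z i l‖ := by
    rw [norm_smul, Real.norm_eq_abs, abs_of_pos (cb_pos hZ hl)]
  rw [← h1, cb_smul_cv hZ hl]
  have hu := norm_cu hZ hl
  rw [@norm_sub_sq_real, norm_smul, hu, real_inner_smul_right, Real.norm_eq_abs]
  have : |inner ℝ (Z l) (cu Z i)| ^ 2 = (inner ℝ (Z l) (cu Z i)) ^ 2 := sq_abs _
  rw [mul_one, this]
  ring

lemma cb_eq {l : Fin k} (hl : l ≠ i) : cb Z i l = ‖Z i‖ + (-inner ℝ (Z l) (cu Z i)) := by
  unfold cb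
  rw [inner_sub_left, inner_Z_cu hZ hl]
  ring

/-- The facet integral in terms of the parameters of the pair inequality. -/
theorem facet_le_pair [NeZero k] {Kr f0 f1 f2 tp tm : ℝ} (hKr : 0 < Kr) (hKk : Kr ≤ k)
    {l : Fin k} (hl : l ≠ i)
    (hp : ∀ t, 0 ≤ t → t ≤ 1 → PairProp Kr f0 f1 f2 tp tm ‖Z i‖ ‖Z l‖ t) :
    ∫ x in regionR Z i hne l, inner ℝ x (cv Z i l) * phi (zeta Z i hne x) ∂(stdGaussian (Euc d)) ≤
      f0 + f1 * ‖Z l‖ - f2 * ‖Z l‖ ^ 2 + (tp - tm) * (-inner ℝ (Z l) (cu Z i)) := by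
  set x := ‖Z i‖ with hx
  set y := ‖Z l‖ with hy
  set g := -inner ℝ (Z l) (cu Z i) with hg
  set β := cb Z i l with hβ
  set b := ‖cv Z i l‖ with hb
  have hkpos : (0 : ℝ) < k := hKr.trans_le hKk
  have hxpos : 0 < x := norm_pos' hZ hl
  have hgpos : 0 < g := by
    have := inner_other_cu_neg hZ hl
    rw [hg]; linarith
  have hβeq : β = x + g := cb_eq hZ hl
  have hβpos : 0 < β := cb_pos hZ hl
  have hb0 : 0 ≤ b := norm_nonneg _
  set z := β * b with hz
  have hz0 : 0 ≤ z := by positivity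
  have hzsq : z ^ 2 = y ^ 2 - g ^ 2 := by
    rw [hz, cb_mul_norm_cv_sq hZ hl, hg]
    ring
  have hypos : 0 < y := by
    have h1 : g ^ 2 ≤ y ^ 2 := by nlinarith [sq_nonneg z]
    have h2 : 0 ≤ y := norm_nonneg _
    have h3 : 0 < g ^ 2 := by positivity
    by_contra hneg
    have h4 : y = 0 := le_antisymm (not_lt.1 hneg) h2
    rw [h4] at h1
    nlinarith
  have hgy : g ≤ y := by
    refine abs_le_of_sq_le_sq' ?_ hypos.le |>.2
    nlinarith [sq_nonneg z]
  have hyg : 0 < y + g := by positivity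
  set t := z / (y + g) with ht
  have ht0 : 0 ≤ t := by positivity
  have hzle : z ≤ y + g := by
    refine abs_le_of_sq_le_sq' ?_ hyg.le |>.2
    nlinarith
  have ht1 : t ≤ 1 := by
    rw [ht, div_le_one hyg]; exact hzle
  have h1t : 1 + t ^ 2 = 2 * y / (y + g) := by
    rw [ht]
    field_simp
    nlinarith
  have hsin : sinT t = z / y := by
    unfold sinT
    rw [h1t, ht]
    field_simp
  have hcos : cosT t = g / y := by
    unfold cosT
    rw [h1t, ht]
    field_simp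
    nlinarith
  have hysin : y * sinT t = z := by
    rw [hsin]; field_simp
  have hycos : y * cosT t = g := by
    rw [hcos]; field_simp
  have hD : pairD2 x y t = β ^ 2 + z ^ 2 := by
    unfold pairD2
    have : 2 * x * y * cosT t = 2 * x * (y * cosT t) := by ring
    rw [this, hycos, hβeq, hzsq]
    ring
  have hDpos : 0 < pairD2 x y t := by
    rw [hD]; positivity
  obtain ⟨s, hs0, hs⟩ := hp t ht0 ht1
  have hfb := facet_bound hZ hne hl s
  rw [← hb] at hfb
  set r := Real.sqrt (1 + b ^ 2) with hr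
  have hrpos : 0 < r := Real.sqrt_pos.2 (by positivity)
  have hr2 : r ^ 2 = 1 + b ^ 2 := Real.sq_sqrt (by positivity)
  have hsq : Real.sqrt (pairD2 x y t) = β * r := by
    rw [hD]
    have : β ^ 2 + z ^ 2 = (β * r) ^ 2 := by
      have e : (β * r) ^ 2 = β ^ 2 * r ^ 2 := by ring
      rw [e, hr2, hz]; ring
    rw [this, Real.sqrt_sq (by positivity)]
  have hD2 : pairD2 x y t = (β * r) ^ 2 := by
    rw [← hsq, Real.sq_sqrt hDpos.le]
  have hpsi := psiHat_nonneg s
  have hlhs : y * sinT t * (x + y * cosT t) * (s / Kr * Real.sqrt (pairD2 x y t) + phi0 * psiHat s) /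
      pairD2 x y t = s * (b * r⁻¹) * (β / Kr) + phi0 * (b * r⁻¹ ^ 2) * psiHat s := by
    rw [hsq, hD2, hysin, hycos, ← hβeq, hz]
    field_simp
  have hrhs : f0 + y * (f1 - f2 * y + (tp - tm) * cosT t) = f0 + f1 * y - f2 * y ^ 2 + (tp - tm) * g := by
    rw [← hycos]
    ring
  rw [hlhs, hrhs] at hs
  have hk : s * (b * r⁻¹) * (β / k) ≤ s * (b * r⁻¹) * (β / Kr) := by
    apply mul_le_mul_of_nonneg_left _ (by positivity)
    exact div_le_div_of_nonneg_left hβpos.le hKr hKk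
  linarith

/-- Bound for the moment from the pair inequality. -/
theorem cellM_le_pair [NeZero k] {Kr f0 f1 f2 tp tm Kc : ℝ} (hKr : 0 < Kr) (hKk : Kr ≤ k)
    (hKc : (k : ℝ) - 1 ≤ Kc) (hf0 : 0 ≤ f0)
    (hp : ∀ l, l ≠ i → ∀ t, 0 ≤ t → t ≤ 1 → PairProp Kr f0 f1 f2 tp tm ‖Z i‖ ‖Z l‖ t) :
    cellM Z i hne ≤ Kc * f0 + f1 * (∑ j, ‖Z j‖ - ‖Z i‖) - f2 * (∑ j, ‖Z j‖ ^ 2 - ‖Z i‖ ^ 2) +
      (tp - tm) * ‖Z i‖ := by
  obtain ⟨j0, hj0⟩ := exists_ne hne
  rw [cellM_eq_sum hZ hne, ← Finset.add_sum_erase _ _ (Finset.mem_univ i)]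
  have hself : regionR Z i hne i = ∅ := by
    ext x; simp [regionR]
  rw [hself]
  simp only [Measure.restrict_empty, integral_zero_measure, zero_add]
  refine (Finset.sum_le_sum fun l hl => facet_le_pair hZ hne hKr hKk (Finset.mem_erase.1 hl).1
    (hp l (Finset.mem_erase.1 hl).1)).trans ?_
  rw [Finset.sum_add_distrib, Finset.sum_sub_distrib, Finset.sum_add_distrib, Finset.sum_const,
    ← Finset.mul_sum, ← Finset.mul_sum, ← Finset.mul_sum]
  have h1 : ∑ l ∈ Finset.univ.erase i, ‖Z l‖ = ∑ j, ‖Z j‖ - ‖Z i‖ := by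
    rw [← Finset.add_sum_erase _ _ (Finset.mem_univ i)]; ring
  have h2 : ∑ l ∈ Finset.univ.erase i, ‖Z l‖ ^ 2 = ∑ j, ‖Z j‖ ^ 2 - ‖Z i‖ ^ 2 := by
    rw [← Finset.add_sum_erase _ _ (Finset.mem_univ i)]; ring
  have h3 : ∑ l ∈ Finset.univ.erase i, -inner ℝ (Z l) (cu Z i) = ‖Z i‖ := by
    have h4 : ∑ x, inner ℝ (Z x) (cu Z i) = 0 := by
      rw [← sum_inner, sum_Z_eq_zero hZ, inner_zero_left]
    rw [← Finset.add_sum_erase _ _ (Finset.mem_univ i), inner_Z_cu hZ hj0] at h4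
    rw [Finset.sum_neg_distrib]
    linarith
  rw [h1, h2, h3]
  have hcard : (((Finset.univ.erase i).card : ℕ) : ℝ) = k - 1 := by
    rw [Finset.card_erase_of_mem (Finset.mem_univ i), Finset.card_univ, Fintype.card_fin,
      Nat.cast_pred (Nat.pos_of_ne_zero (NeZero.ne k))]
  rw [nsmul_eq_mul, hcard]
  have := mul_le_mul_of_nonneg_right hKc hf0
  linarith

end pair

/-- The checks of a certificate. -/
def Cert.check (C : Cert) : Bool :=
  stripsOK C 0 C.strips && Nat.ble fone (C.invK * C.K) && Nat.ble 2 C.K &&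
    decide (phi0Up ≤ fq C.Y) && decide (phi0Up ≤ fq C.Xtop) &&
    decide (phi0Up ≤ fq C.o.phiU) &&
    decide (fq C.o.F0 * 8 * (314159265358979323847 / 100000000000000000000) ≤ 9) &&
    Nat.ble (mulU C.o.L1 C.Smax) C.o.L0 && Nat.ble (mulU C.o.L1 C.Smin) C.o.L0 &&
    Nat.blt (fone + C.Kmax * C.o.e0)
      (mulD C.o.mu C.Smin + mulD (C.o.L0 - mulU C.o.L1 C.Smin) C.o.F0) &&
    Nat.blt (fone + C.Kmax * C.o.e0)
      (mulD C.o.mu C.Smax + mulD (C.o.L0 - mulU C.o.L1 C.Smax) C.o.F0)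

lemma val_nat_mul (a b : ℕ) : val (a * b) = (a : ℝ) * val b := by
  unfold val; push_cast; ring

lemma phi0_le_of_fq {n : ℕ} (h : phi0Up ≤ fq n) : phi0 ≤ val n := by
  rw [← fq_cast]
  refine phi0_le_up.trans ?_
  exact_mod_cast h

/-- End point bound in the final sum. -/
lemma end_bound {mu L0 L1 F0 Sx A : ℕ} (hL : mulU L1 Sx ≤ L0)
    (h : A < mulD mu Sx + mulD (L0 - mulU L1 Sx) F0) :
    val A < val mu * val Sx + (val L0 - val L1 * val Sx) * val F0 := by
  have h1 := val_lt_val h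
  rw [val_add] at h1
  have h2 := val_mulD mu Sx
  have h3 := val_mulD (L0 - mulU L1 Sx) F0
  rw [val_sub hL] at h3
  have h4 := val_mulU L1 Sx
  have h5 := mul_le_mul_of_nonneg_right h4 (val_nonneg F0)
  nlinarith

/-- **Theorem A from a certificate**, for the values of `S = ∑ |z_i|` in the range of the
certificate. -/
theorem obtuse_of_cert (C : Cert) (hC : C.check = true) (hk1 : C.K ≤ k)
    (hk2 : k ≤ C.Kmax) (hk3 : k ≤ C.o.Kc + 1) {Z : Fin k → Euc d} (hZ : ObtuseFP Z)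
    (hS1 : val C.Smin ≤ ∑ i, ‖Z i‖) (hS2 : ∑ i, ‖Z i‖ ≤ val C.Smax) :
    ∑ i, ‖Z i‖ ^ 2 ≤ 9 / (8 * Real.pi) := by
  simp only [Cert.check, Bool.and_eq_true, Nat.ble_eq, Nat.blt_eq, decide_eq_true_eq] at hC
  obtain ⟨⟨⟨⟨⟨⟨⟨⟨⟨⟨hstr, hinv⟩, hKpos⟩, hY⟩, hX⟩, hφ⟩, hF0⟩, hL⟩, hLmin⟩, hs1⟩, hs2⟩ := hC
  by_contra hcon
  push Not at hcon
  have hk2' : 2 ≤ k := hKpos.trans hk1
  have hk0 : NeZero k := ⟨by omega⟩
  have hne : ∀ i : Fin k, (Finset.univ.erase i).Nonempty := by
    intro i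
    rw [← Finset.card_pos, Finset.card_erase_of_mem (Finset.mem_univ i), Finset.card_univ,
      Fintype.card_fin]
    omega
  set S := ∑ j, ‖Z j‖ with hSdef
  set F := ∑ j, ‖Z j‖ ^ 2 with hFdef
  have hasum : ∑ i, (stdGaussian (Euc d)).real (argCell Z i) = 1 :=
    sum_measureReal_partition (isMeasPartition_argCell Z)
  have hKr : (0 : ℝ) < (C.K : ℝ) := by
    have : 0 < C.K := by omega
    exact_mod_cast this
  have hKk : (C.K : ℝ) ≤ k := by exact_mod_cast hk1
  have hinv' : 1 / (C.K : ℝ) ≤ val C.invK := by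
    rw [div_le_iff₀ hKr]
    have h1 := val_le_val hinv
    rw [val_fone] at h1
    have h2 : val (C.invK * C.K) = val C.invK * (C.K : ℝ) := by
      unfold val; push_cast; ring
    rw [h2] at h1
    exact h1
  have hF0' : val C.o.F0 < F := by
    refine lt_of_le_of_lt ?_ hcon
    have hcast := (Rat.cast_le (K := ℝ)).2 hF0
    push_cast at hcast
    rw [fq_cast] at hcast
    rw [le_div_iff₀ (by positivity)]
    have hpi := Real.pi_lt_d20
    have h0 := val_nonneg C.o.F0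
    nlinarith
  have hkR : (k : ℝ) ≤ C.Kmax := by exact_mod_cast hk2
  have hSle : S ≤ val C.Smax := hS2
  have hLS : val C.o.L1 * S ≤ val C.o.L0 := by
    have h1 := val_le_val hL
    have h2 := val_mulU C.o.L1 C.Smax
    have h3 := mul_le_mul_of_nonneg_left hSle (val_nonneg C.o.L1)
    linarith
  have hL0 : 0 ≤ val C.o.L0 - val C.o.L1 * S := by linarith
  have hφ' := phi0_le_of_fq hφ
  have hY' := phi0_le_of_fq hY
  have hX' := phi0_le_of_fq hX
  have hKc : (k : ℝ) - 1 ≤ (C.o.Kc : ℝ) := by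
    have : (k : ℝ) ≤ (C.o.Kc : ℝ) + 1 := by exact_mod_cast hk3
    linarith
  -- the cell inequality
  have hcell : ∀ i : Fin k, target C.o ‖Z i‖ S ≤ (stdGaussian (Euc d)).real (argCell Z i) := by
    intro i
    have hc : CellHyp (C.K : ℝ) (C.o.Kc : ℝ) (val C.Y) ‖Z i‖
        ((stdGaussian (Euc d)).real (argCell Z i)) S F (cellM Z i (hne i)) := by
      refine ⟨norm_nonneg _, ?_, ?_, fun s => cell_iso hZ (hne i) s, ?_, ?_⟩
      · exact Finset.single_le_sum (f := fun j => ‖Z j‖) (fun _ _ => norm_nonneg _)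
          (Finset.mem_univ i)
      · have h1 : F - ‖Z i‖ ^ 2 = ∑ l ∈ Finset.univ.erase i, ‖Z l‖ ^ 2 := by
          rw [hFdef, ← Finset.add_sum_erase _ _ (Finset.mem_univ i)]; ring
        have h2 : S - ‖Z i‖ = ∑ l ∈ Finset.univ.erase i, ‖Z l‖ := by
          rw [hSdef, ← Finset.add_sum_erase _ _ (Finset.mem_univ i)]; ring
        have h3 : ∑ l ∈ Finset.univ.erase i, ‖Z l‖ ^ 2 ≤ phi0 * ∑ l ∈ Finset.univ.erase i, ‖Z l‖ := by
          rw [Finset.mul_sum]
          refine Finset.sum_le_sum fun l _ => ?_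
          have := norm_le_phi0 hZ (hne l)
          have h5 := norm_nonneg (Z l)
          nlinarith
        rw [← h1, ← h2] at h3
        linarith
      · intro τ ρ hτ h1 h2 h3
        exact cell_tangent hZ (hne i) hτ h1 h2 h3
      · intro f0 f1 f2 tp tm hf0 hp
        refine cellM_le_pair hZ (hne i) hKr hKk hKc hf0 fun l _ t ht0 ht1 => ?_
        exact hp _ t (norm_nonneg _) ((norm_le_phi0 hZ (hne l)).trans hY') ht0 ht1
    exact stripsOK_sound hKr hinv' hc hF0'
      ((norm_le_phi0 hZ (hne i)).trans hX') hS1 hSle hLS hφ' hstr (by rw [val_zero]; exact norm_nonneg _)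
  -- summing
  have hsum := Finset.sum_le_sum fun i (_ : i ∈ (Finset.univ : Finset (Fin k))) => hcell i
  rw [hasum] at hsum
  have hsum2 : ∑ i, target C.o ‖Z i‖ S = val C.o.mu * S + (val C.o.L0 - val C.o.L1 * S) * F -
      (k : ℝ) * val C.o.e0 := by
    unfold target
    rw [Finset.sum_sub_distrib, Finset.sum_add_distrib, ← Finset.mul_sum, ← Finset.mul_sum,
      Finset.sum_const, Finset.card_univ, Fintype.card_fin, nsmul_eq_mul]
  rw [hsum2] at hsum
  have he0 : (k : ℝ) * val C.o.e0 ≤ (C.Kmax : ℝ) * val C.o.e0 :=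
    mul_le_mul_of_nonneg_right hkR (val_nonneg _)
  have hFL : (val C.o.L0 - val C.o.L1 * S) * val C.o.F0 ≤ (val C.o.L0 - val C.o.L1 * S) * F :=
    mul_le_mul_of_nonneg_left hF0'.le hL0
  have hfinal : val C.o.mu * S + (val C.o.L0 - val C.o.L1 * S) * val C.o.F0 -
      (C.Kmax : ℝ) * val C.o.e0 ≤ 1 := by linarith
  -- the two ends
  have h0 := end_bound hLmin hs1
  have hSm' := end_bound hL hs2
  rw [val_add, val_fone, val_nat_mul] at h0 hSm'
  rcases le_total 0 (val C.o.mu - val C.o.L1 * val C.o.F0) with hb | hb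
  · have := mul_nonneg hb (by linarith : 0 ≤ S - val C.Smin)
    nlinarith
  · have := mul_nonneg_of_nonpos_of_nonpos hb (by linarith : S - val C.Smax ≤ 0)
    nlinarith

/-- The top of the range of `S`: every obtuse fixed point has `S ≤ s + k ψ` when `ψ̂(s) ≤ ψ`. -/
theorem sum_norm_le {s ψ : ℕ} (hiso : isoCheck (s, ψ) = true) (hk : 2 ≤ k) {Z : Fin k → Euc d}
    (hZ : ObtuseFP Z) : ∑ i, ‖Z i‖ ≤ val s + (k : ℝ) * val ψ := by
  have hψ0 := isoCheck_sound hiso
  simp only at hψ0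
  have hk0 : NeZero k := ⟨by omega⟩
  have hne : ∀ i : Fin k, (Finset.univ.erase i).Nonempty := by
    intro i
    rw [← Finset.card_pos, Finset.card_erase_of_mem (Finset.mem_univ i), Finset.card_univ,
      Fintype.card_fin]
    omega
  have hasum : ∑ i, (stdGaussian (Euc d)).real (argCell Z i) = 1 :=
    sum_measureReal_partition (isMeasPartition_argCell Z)
  have h1 : ∀ i ∈ (Finset.univ : Finset (Fin k)),
      ‖Z i‖ ≤ val s * (stdGaussian (Euc d)).real (argCell Z i) + val ψ := by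
    intro i _
    have := cell_iso hZ (hne i) (val s)
    linarith
  have h2 := Finset.sum_le_sum h1
  rw [Finset.sum_add_distrib, ← Finset.mul_sum, hasum, Finset.sum_const, Finset.card_univ,
    Fintype.card_fin, nsmul_eq_mul, mul_one] at h2
  exact h2

/-- A chain of certificates covers the values of `S` from `cur` upwards. -/
def certsOK (Top kmin kmax : ℕ) : ℕ → List Cert → Bool
  | cur, [] => Nat.blt Top cur
  | cur, C :: r => C.check && Nat.ble C.Smin cur && Nat.ble C.K kmin && Nat.ble kmax C.Kmax &&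
      Nat.ble kmax (C.o.Kc + 1) && certsOK Top kmin kmax C.Smax r

/-- One step of a chain of certificates, with the check of the certificate given separately. -/
theorem certsOK_cons {Top kmin kmax cur : ℕ} {C : Cert} {r : List Cert} (h : C.check = true)
    (h2 : (Nat.ble C.Smin cur && Nat.ble C.K kmin && Nat.ble kmax C.Kmax &&
      Nat.ble kmax (C.o.Kc + 1)) = true)
    (h3 : certsOK Top kmin kmax C.Smax r = true) :
    certsOK Top kmin kmax cur (C :: r) = true := by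
  simp only [certsOK, Bool.and_eq_true] at h2 ⊢
  exact ⟨⟨⟨⟨⟨h, h2.1.1.1⟩, h2.1.1.2⟩, h2.1.2⟩, h2.2⟩, h3⟩

/-- Theorem A from a chain of certificates. -/
theorem obtuse_of_certs {Top kmin kmax : ℕ} (hk1 : kmin ≤ k) (hk2 : k ≤ kmax)
    {Z : Fin k → Euc d} (hZ : ObtuseFP Z) (hTop : ∑ i, ‖Z i‖ ≤ val Top) :
    ∀ {cur : ℕ} {l : List Cert}, certsOK Top kmin kmax cur l = true →
    val cur ≤ ∑ i, ‖Z i‖ → ∑ i, ‖Z i‖ ^ 2 ≤ 9 / (8 * Real.pi) := by
  intro cur l
  induction l generalizing cur with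
  | nil =>
    intro h hc
    simp only [certsOK, Nat.blt_eq] at h
    have := val_lt_val h
    linarith
  | cons C r ih =>
    intro h hc
    simp only [certsOK, Bool.and_eq_true, Nat.ble_eq] at h
    obtain ⟨⟨⟨⟨⟨h1, h2⟩, h3⟩, h4⟩, h5⟩, h6⟩ := h
    rcases le_total (∑ i, ‖Z i‖) (val C.Smax) with hle | hle
    · exact obtuse_of_cert C h1 (h3.trans hk1) (hk2.trans h4) (hk2.trans h5) hZ
        ((val_le_val h2).trans hc) hle
    · exact ih h6 hle

/-- The bound for `S` used at the top of the chains: `s = 5` and `ψ̂(5) ≤ ψ`. -/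
def topS : ℕ := 21474836480

/-- Upper bound for `ψ̂(5)`. -/
def topP : ℕ := 237

/-- The value at the top of the chains. -/
def topV : ℕ := 21513492480

lemma isoCheck_top : isoCheck (topS, topP) = true := by decide +kernel

/-- Theorem A from a chain of certificates covering `S ≤ 5.009`, for at most `14000` cells. -/
theorem obtuse_of_chain {kmin kmax : ℕ} (hkm : kmax ≤ 14000) (hk2' : 2 ≤ kmin) (hk1 : kmin ≤ k)
    (hk2 : k ≤ kmax) {l : List Cert} (h : certsOK topV kmin kmax 0 l = true)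
    {Z : Fin k → Euc d} (hZ : ObtuseFP Z) : ∑ i, ‖Z i‖ ^ 2 ≤ 9 / (8 * Real.pi) := by
  have h1 := sum_norm_le isoCheck_top (hk2'.trans hk1) hZ
  have hk : (k : ℝ) ≤ 14000 := by
    have : k ≤ 14000 := hk2.trans hkm
    exact_mod_cast this
  have hTop : ∑ i, ‖Z i‖ ≤ val topV := by
    refine h1.trans ?_
    have h2 : (k : ℝ) * val topP ≤ 14000 * val topP := mul_le_mul_of_nonneg_right hk (val_nonneg _)
    have h3 : val topS + 14000 * val topP ≤ val topV := by
      norm_num [val, topS, topP, topV]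
    linarith
  refine obtuse_of_certs hk1 hk2 hZ hTop h ?_
  rw [val_zero]
  exact Finset.sum_nonneg fun _ _ => norm_nonneg _

end Vale.Agent.P226
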