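import Vale.Agent.P226.Zeta

/-!
# Regions of the height function and the balance identity `p_j = β_j / k`
-/

open MeasureTheory ProbabilityTheory Set Filter Topology

namespace Vale.Agent.P226

variable {d k : ℕ}

/-- The region where the `j`-th affine piece realises the height function; empty for `j = i`. -/
def regionR (Z : Fin k → Euc d) (i : Fin k) (hne : (Finset.univ.erase i).Nonempty) (j : Fin k) :
    Set (Euc d) :=
  {x | j ≠ i ∧ inner ℝ x (cv Z i j) = zeta Z i hne x ∧
    ∀ l, l ≠ i → l < j → inner ℝ x (cv Z i l) < zeta Z i hne x}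

section
variable {Z : Fin k → Euc d} {i : Fin k} (hne : (Finset.univ.erase i).Nonempty)

lemma measurableSet_regionR (j : Fin k) : MeasurableSet (regionR Z i hne j) := by
  by_cases hj : j = i
  · have : regionR Z i hne j = ∅ := by
      ext x; simp [regionR, hj]
    rw [this]; exact MeasurableSet.empty
  · have hz := measurable_zeta (Z := Z) hne
    have : regionR Z i hne j = {x | inner ℝ x (cv Z i j) = zeta Z i hne x} ∩
        ⋂ l, {x | l ≠ i → l < j → inner ℝ x (cv Z i l) < zeta Z i hne x} := by
      ext x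
      simp [regionR, hj]
    rw [this]
    refine MeasurableSet.inter (measurableSet_eq_fun (by fun_prop) hz) ?_
    refine MeasurableSet.iInter fun l => ?_
    by_cases h : l ≠ i ∧ l < j
    · have : {x | l ≠ i → l < j → inner ℝ x (cv Z i l) < zeta Z i hne x} =
          {x | inner ℝ x (cv Z i l) < zeta Z i hne x} := by
        ext x; simp [h.1, h.2]
      rw [this]
      exact measurableSet_lt (by fun_prop) hz
    · have : {x | l ≠ i → l < j → inner ℝ x (cv Z i l) < zeta Z i hne x} = univ := by
        ext x
        simp only [mem_ofPred_eq, mem_univ, iff_true]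
        intro h1 h2
        exact absurd ⟨h1, h2⟩ h
      rw [this]
      exact MeasurableSet.univ

lemma isMeasPartition_regionR : IsMeasPartition (regionR Z i hne) where
  measurable := measurableSet_regionR hne
  disjoint := by
    have key : ∀ a b : Fin k, b < a → Disjoint (regionR Z i hne a) (regionR Z i hne b) := by
      intro a b hba
      rw [Set.disjoint_left]
      intro x ha hb
      have h1 := ha.2.2 b hb.1 hba
      have h2 := hb.2.1
      linarith
    intro a b hab
    rcases lt_or_gt_of_ne hab with h | h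
    · exact (key b a h).symm
    · exact key a b h
  cover := by
    ext x
    simp only [mem_iUnion, mem_univ, iff_true]
    obtain ⟨j0, hj0, h0⟩ := exists_zeta_eq (Z := Z) hne x
    let S : Finset (Fin k) := Finset.univ.filter
      fun j => j ≠ i ∧ inner ℝ x (cv Z i j) = zeta Z i hne x
    have hS : S.Nonempty := ⟨j0, by simp [S, hj0, h0]⟩
    refine ⟨S.min' hS, ?_⟩
    have hm := S.min'_mem hS
    simp only [S, Finset.mem_filter, Finset.mem_univ, true_and] at hm
    refine ⟨hm.1, hm.2, fun l hl hlt => ?_⟩
    refine lt_of_le_of_ne (le_zeta hne x hl) fun heq => ?_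
    have : l ∈ S := by simp [S, hl, heq]
    exact absurd (S.min'_le l this) (not_le.2 hlt)

/-- The facet masses `p_j = ∫_{R_j} φ(ζ)`. -/
noncomputable def facetP (Z : Fin k → Euc d) (i : Fin k) (hne : (Finset.univ.erase i).Nonempty)
    (j : Fin k) : ℝ :=
  ∫ x in regionR Z i hne j, phi (zeta Z i hne x) ∂(stdGaussian (Euc d))

lemma facetP_nonneg (j : Fin k) : 0 ≤ facetP Z i hne j :=
  integral_nonneg fun _ => (phi_pos _).le

lemma facetP_self : facetP Z i hne i = 0 := by
  have : regionR Z i hne i = ∅ := by
    ext x; simp [regionR]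
  simp [facetP, this]

/-- Slope of the active piece in direction `e`. -/
noncomputable def slopeC (Z : Fin k → Euc d) (i : Fin k) (hne : (Finset.univ.erase i).Nonempty)
    (e : Euc d) (x : Euc d) : ℝ :=
  ∑ l, (regionR Z i hne l).indicator (fun _ => inner ℝ (cv Z i l) e) x

lemma measurable_slopeC (e : Euc d) : Measurable (slopeC Z i hne e) := by
  unfold slopeC
  refine Finset.measurable_sum _ fun l _ => ?_
  exact measurable_const.indicator (measurableSet_regionR hne l)

lemma slopeC_eq (e : Euc d) {x : Euc d} {l : Fin k} (hx : x ∈ regionR Z i hne l) :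
    slopeC Z i hne e x = inner ℝ (cv Z i l) e := by
  unfold slopeC
  rw [Finset.sum_eq_single l]
  · exact indicator_of_mem hx _
  · intro b _ hb
    apply indicator_of_notMem
    intro hb2
    exact Set.disjoint_left.1 ((isMeasPartition_regionR hne).disjoint hb) hb2 hx
  · simp

lemma exists_region (x : Euc d) : ∃ l, x ∈ regionR Z i hne l := by
  have hx : x ∈ ⋃ m, regionR Z i hne m := by
    rw [(isMeasPartition_regionR hne).cover]; trivial
  exact mem_iUnion.1 hx

lemma abs_slopeC_le (e : Euc d) (x : Euc d) :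
    |slopeC Z i hne e x| ≤ ∑ l, |inner ℝ (cv Z i l) e| := by
  obtain ⟨l, hl⟩ := exists_region (Z := Z) hne x
  rw [slopeC_eq hne e hl]
  exact Finset.single_le_sum (f := fun l => |inner ℝ (cv Z i l) e|)
    (fun _ _ => abs_nonneg _) (Finset.mem_univ l)

end

section
variable {Z : Fin k → Euc d} {i : Fin k} (hZ : ObtuseFP Z) (hne : (Finset.univ.erase i).Nonempty)
include hZ

/-- Balance in a fixed unit direction orthogonal to `u`. -/
theorem balance_dir [NeZero k] (e : Euc d) (he : ‖e‖ = 1) (heu : inner ℝ e (cu Z i) = 0) :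
    ∑ l, facetP Z i hne l * inner ℝ (cv Z i l) e = 0 := by
  have hzm := measurable_zeta (Z := Z) hne
  have hcm := measurable_slopeC (Z := Z) (i := i) hne e
  set Cc := ∑ l, |inner ℝ (cv Z i l) e| with hCc
  have hCc0 : 0 ≤ Cc := Finset.sum_nonneg fun _ _ => abs_nonneg _
  have hibp := gauss_ibp e he (fun x => Qf (zeta Z i hne x))
    (fun x => -(phi (zeta Z i hne x) * slopeC Z i hne e x))
    (fun h x => Qf (zeta Z i hne x + h * slopeC Z i hne e x) - Qf (zeta Z i hne x))
    1 (phi0 * Cc) (phi0 * Cc)
    (measurable_Qf.comp hzm)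
    (fun x => by rw [abs_of_nonneg (Qf_nonneg _)]; exact Qf_le_one _)
    (((measurable_phi.comp hzm).mul hcm).neg)
    (fun x => by
      rw [abs_neg, abs_mul, abs_of_pos (phi_pos _)]
      exact mul_le_mul (phi_le_phi0 _) (abs_slopeC_le hne e x) (abs_nonneg _) phi0_pos.le)
    (fun h => (measurable_Qf.comp (hzm.add (hcm.const_mul h))).sub (measurable_Qf.comp hzm))
    ?_ ?_ ?_
  · rw [cell_ortho hZ hne e heu] at hibp
    have h2 : ∫ x, phi (zeta Z i hne x) * slopeC Z i hne e x ∂(stdGaussian (Euc d)) =
        ∑ l, facetP Z i hne l * inner ℝ (cv Z i l) e := by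
      have hint : Integrable (fun x => phi (zeta Z i hne x) * slopeC Z i hne e x)
          (stdGaussian (Euc d)) := by
        refine Integrable.of_bound ((measurable_phi.comp hzm).mul hcm).aestronglyMeasurable
          (phi0 * Cc) ?_
        filter_upwards with x
        rw [Real.norm_eq_abs, abs_mul, abs_of_pos (phi_pos _)]
        exact mul_le_mul (phi_le_phi0 _) (abs_slopeC_le hne e x) (abs_nonneg _) phi0_pos.le
      rw [← sum_setIntegral_partition (isMeasPartition_regionR hne) hint]
      refine Finset.sum_congr rfl fun l _ => ?_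
      unfold facetP
      rw [← integral_mul_const]
      refine setIntegral_congr_fun (measurableSet_regionR hne l) fun x hx => ?_
      rw [slopeC_eq hne e hx]
    rw [integral_neg, h2] at hibp
    linarith
  · -- sandwich
    intro h x
    obtain ⟨l, hl⟩ := exists_region (Z := Z) hne x
    rw [slopeC_eq hne e hl]
    have hl' : l ≠ i := hl.1
    have h1 : zeta Z i hne x + h * inner ℝ (cv Z i l) e ≤ zeta Z i hne (x + h • e) := by
      refine le_trans (le_of_eq ?_) (le_zeta hne (x + h • e) hl')
      rw [inner_add_left, real_inner_smul_left, hl.2.1, real_inner_comm e]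
    have := Qf_antitone h1
    linarith
  · intro h x
    refine (abs_Qf_sub_le _ _).trans ?_
    have : zeta Z i hne x + h * slopeC Z i hne e x - zeta Z i hne x =
        h * slopeC Z i hne e x := by ring
    rw [this, abs_mul]
    have h1 := abs_slopeC_le (Z := Z) hne e x
    have h2 : |h| * |slopeC Z i hne e x| ≤ |h| * Cc :=
      mul_le_mul_of_nonneg_left h1 (abs_nonneg _)
    nlinarith [phi0_pos]
  · intro x
    set z0 := zeta Z i hne x
    set c := slopeC Z i hne e x
    have h1 : HasDerivAt (fun h : ℝ => z0 + h * c) c 0 := by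
      have := ((hasDerivAt_id (0 : ℝ)).mul_const c).const_add z0
      simpa using this
    have h0 : z0 + (0 : ℝ) * c = z0 := by ring
    have h2 : HasDerivAt (fun h : ℝ => Qf (z0 + h * c)) (-phi z0 * c) 0 := by
      have h3 := hasDerivAt_Qf (z0 + (0 : ℝ) * c)
      rw [h0] at h3
      have h3' : HasDerivAt Qf (-phi z0) ((fun h : ℝ => z0 + h * c) 0) := by
        simpa using h3
      exact h3'.comp (0 : ℝ) h1
    have h4 := hasDerivAt_iff_tendsto_slope.1 h2
    have h5 : -(phi z0 * c) = -phi z0 * c := by ring
    rw [h5]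
    refine h4.congr fun h => ?_
    simp only [slope_def_field, zero_mul, add_zero, sub_zero]

/-- Balance: the vector identity `∑ p_l v_l = 0`. -/
theorem balance_vec [NeZero k] : ∑ l ∈ Finset.univ.erase i, facetP Z i hne l • cv Z i l = 0 := by
  obtain ⟨j0, hj0⟩ := exists_ne hne
  set V := ∑ l ∈ Finset.univ.erase i, facetP Z i hne l • cv Z i l with hV
  by_contra hne0
  have hpos : 0 < ‖V‖ := norm_pos_iff.2 hne0
  set e := (‖V‖)⁻¹ • V with he
  have hen : ‖e‖ = 1 := by
    rw [he, norm_smul, norm_inv, norm_norm]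
    field_simp
  have hVu : inner ℝ V (cu Z i) = 0 := by
    rw [hV, sum_inner]
    refine Finset.sum_eq_zero fun l hl => ?_
    rw [real_inner_smul_left, inner_cv_cu hZ (Finset.mem_erase.1 hl).1, mul_zero]
  have heu : inner ℝ e (cu Z i) = 0 := by
    rw [he, real_inner_smul_left, hVu, mul_zero]
  have hbal := balance_dir hZ hne e hen heu
  have h1 : ∑ l, facetP Z i hne l * inner ℝ (cv Z i l) e = inner ℝ V e := by
    rw [← Finset.add_sum_erase _ _ (Finset.mem_univ i), facetP_self, zero_mul, zero_add, hV,
      sum_inner]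
    refine Finset.sum_congr rfl fun l _ => ?_
    rw [real_inner_smul_left]
  rw [h1] at hbal
  have h2 : inner ℝ V e = ‖V‖ := by
    rw [he, real_inner_smul_right, real_inner_self_eq_norm_sq]
    field_simp
  rw [h2] at hbal
  exact hpos.ne' hbal

lemma sum_facetP [NeZero k] : ∑ l ∈ Finset.univ.erase i, facetP Z i hne l = ‖Z i‖ := by
  have h1 : ∑ l, facetP Z i hne l = ‖Z i‖ := by
    unfold facetP
    rw [sum_setIntegral_partition (isMeasPartition_regionR hne) (integrable_phi_zeta hne),
      ← cell_first hZ hne]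
  rw [← Finset.add_sum_erase _ _ (Finset.mem_univ i), facetP_self, zero_add] at h1
  exact h1

/-- **Balance**: the facet masses are proportional to the coefficients, `p_l = β_l / k`. -/
theorem facetP_eq [NeZero k] {l : Fin k} (hl : l ≠ i) : facetP Z i hne l = cb Z i l / k := by
  obtain ⟨j0, hj0⟩ := exists_ne hne
  have hk : (0 : ℝ) < k := by
    have : 0 < k := Nat.pos_of_ne_zero (NeZero.ne k)
    exact_mod_cast this
  set S := Finset.univ.erase i with hS
  have hxpos := norm_pos' hZ hj0
  let lam : Fin k → ℝ := fun j => facetP Z i hne j - cb Z i j / k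
  let mu : Fin k → ℝ := fun j => lam j / cb Z i j
  have hlamsum : ∑ j ∈ S, lam j = 0 := by
    simp only [lam]
    rw [Finset.sum_sub_distrib, sum_facetP hZ hne, ← Finset.sum_div, sum_cb hZ hj0]
    field_simp
    ring
  have hlamv : ∑ j ∈ S, lam j • cv Z i j = 0 := by
    simp only [lam, sub_smul]
    rw [Finset.sum_sub_distrib, balance_vec hZ hne, zero_sub, neg_eq_zero]
    have : ∀ j ∈ S, (cb Z i j / k) • cv Z i j = (k : ℝ)⁻¹ • (cb Z i j • cv Z i j) := by
      intro j _
      rw [smul_smul]
      congr 1
      ring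
    rw [Finset.sum_congr rfl this, ← Finset.smul_sum, sum_cb_smul_cv hZ hj0, smul_zero]
  -- rewrite in terms of `Z`
  set m := ∑ j ∈ S, mu j with hm
  have hterm : ∀ j ∈ S, lam j • cv Z i j = lam j • cu Z i - mu j • (Z i - Z j) := by
    intro j _
    simp only [cv, smul_sub, smul_smul, mu, div_eq_mul_inv]
  have h1 : ∑ j ∈ S, mu j • (Z i - Z j) = 0 := by
    rw [Finset.sum_congr rfl hterm, Finset.sum_sub_distrib, ← Finset.sum_smul, hlamsum, zero_smul,
      zero_sub, neg_eq_zero] at hlamv
    exact hlamv
  have hZi : Z i = -∑ j ∈ S, Z j := by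
    have := sum_Z_eq_zero hZ
    rw [← Finset.add_sum_erase _ _ (Finset.mem_univ i)] at this
    exact eq_neg_of_add_eq_zero_left this
  have h2 : ∑ j ∈ S, (m + mu j) • Z j = 0 := by
    have h3 : ∑ j ∈ S, mu j • (Z i - Z j) = m • Z i - ∑ j ∈ S, mu j • Z j := by
      simp only [smul_sub]
      rw [Finset.sum_sub_distrib, ← Finset.sum_smul]
    rw [h3] at h1
    have h4 : ∑ j ∈ S, (m + mu j) • Z j = m • ∑ j ∈ S, Z j + ∑ j ∈ S, mu j • Z j := by
      simp only [add_smul]
      rw [Finset.sum_add_distrib, Finset.smul_sum]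
    rw [h4]
    have h5 : ∑ j ∈ S, Z j = -Z i := by rw [hZi]; simp
    rw [h5, smul_neg]
    have h6 : m • Z i = ∑ j ∈ S, mu j • Z j := sub_eq_zero.1 h1
    rw [h6]
    simp
  have h3 := indep_of_neg hZ (fun j => m + mu j) h2
  have hcard : ((S.card : ℕ) : ℝ) = k - 1 := by
    rw [hS, Finset.card_erase_of_mem (Finset.mem_univ i), Finset.card_univ, Fintype.card_fin,
      Nat.cast_pred (Nat.pos_of_ne_zero (NeZero.ne k))]
  have h4 : ∑ j ∈ S, (m + mu j) = 0 := Finset.sum_eq_zero h3
  rw [Finset.sum_add_distrib, Finset.sum_const, nsmul_eq_mul, hcard, ← hm] at h4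
  have hm0 : m = 0 := by
    have : (k : ℝ) * m = 0 := by linarith
    exact (mul_eq_zero.1 this).resolve_left hk.ne'
  have hlS : l ∈ S := Finset.mem_erase.2 ⟨hl, Finset.mem_univ l⟩
  have h5 := h3 l hlS
  rw [hm0, zero_add] at h5
  have hb := (cb_pos hZ hl).ne'
  have h6 : lam l = 0 := by
    have : lam l / cb Z i l = 0 := h5
    rcases div_eq_zero_iff.1 this with h | h
    · exact h
    · exact absurd h hb
  simp only [lam] at h6
  linarith

end

end Vale.Agent.P226
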