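import Vale.Agent.P226.Partition

/-!
# Cell coordinates for an obtuse fixed point
-/

open MeasureTheory ProbabilityTheory Set Filter Topology

namespace Vale.Agent.P226

variable {d k : ℕ}

/-- A fixed point of the argmax map whose vectors are pairwise obtuse. -/
structure ObtuseFP (Z : Fin k → Euc d) : Prop where
  fp : ∀ i, gaussMoment (argCell Z i) = Z i
  neg : ∀ i j, i ≠ j → inner ℝ (Z i) (Z j) < 0

/-- unit vector along `Z i`. -/
noncomputable def cu (Z : Fin k → Euc d) (i : Fin k) : Euc d := (‖Z i‖)⁻¹ • Z i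

/-- The coefficient `β_j = <Z i - Z j, u>`. -/
noncomputable def cb (Z : Fin k → Euc d) (i j : Fin k) : ℝ := inner ℝ (Z i - Z j) (cu Z i)

/-- The vector `v_j`, with `Z i - Z j = β_j (u - v_j)`. -/
noncomputable def cv (Z : Fin k → Euc d) (i j : Fin k) : Euc d :=
  cu Z i - (cb Z i j)⁻¹ • (Z i - Z j)

section
variable {Z : Fin k → Euc d} {i : Fin k}

lemma sum_Z_eq_zero [NeZero k] (hZ : ObtuseFP Z) : ∑ j, Z j = 0 := by
  have := sum_gaussMoment_eq_zero (isMeasPartition_argCell Z)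
  simpa [hZ.fp] using this

lemma Zne (hZ : ObtuseFP Z) {j : Fin k} (hj : j ≠ i) : Z i ≠ 0 := by
  intro h
  have := hZ.neg i j hj.symm
  rw [h] at this
  simp at this

lemma norm_pos' (hZ : ObtuseFP Z) {j : Fin k} (hj : j ≠ i) : 0 < ‖Z i‖ :=
  norm_pos_iff.2 (Zne hZ hj)

lemma norm_cu (hZ : ObtuseFP Z) {j : Fin k} (hj : j ≠ i) : ‖cu Z i‖ = 1 := by
  have := norm_pos' hZ hj
  unfold cu
  rw [norm_smul, norm_inv, norm_norm]
  field_simp

lemma inner_cu_self (hZ : ObtuseFP Z) {j : Fin k} (hj : j ≠ i) : inner ℝ (cu Z i) (cu Z i) = 1 := by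
  rw [real_inner_self_eq_norm_sq, norm_cu hZ hj]; norm_num

lemma Z_eq_smul_cu (hZ : ObtuseFP Z) {j : Fin k} (hj : j ≠ i) : Z i = ‖Z i‖ • cu Z i := by
  have := norm_pos' hZ hj
  unfold cu
  rw [smul_smul, mul_inv_cancel₀ this.ne', one_smul]

lemma inner_Z_cu (hZ : ObtuseFP Z) {j : Fin k} (hj : j ≠ i) : inner ℝ (Z i) (cu Z i) = ‖Z i‖ := by
  conv_lhs => rw [Z_eq_smul_cu hZ hj]
  rw [real_inner_smul_left, inner_cu_self hZ hj, mul_one]

lemma inner_other_cu_neg (hZ : ObtuseFP Z) {j : Fin k} (hj : j ≠ i) :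
    inner ℝ (Z j) (cu Z i) < 0 := by
  have hpos := norm_pos' hZ hj
  unfold cu
  rw [real_inner_smul_right]
  have h := hZ.neg j i hj
  have : 0 < ‖Z i‖⁻¹ := inv_pos.2 hpos
  exact mul_neg_of_pos_of_neg this h

lemma cb_ge (hZ : ObtuseFP Z) {j : Fin k} (hj : j ≠ i) : ‖Z i‖ < cb Z i j := by
  unfold cb
  rw [inner_sub_left, inner_Z_cu hZ hj]
  linarith [inner_other_cu_neg hZ hj]

lemma cb_pos (hZ : ObtuseFP Z) {j : Fin k} (hj : j ≠ i) : 0 < cb Z i j :=
  (norm_pos' hZ hj).trans (cb_ge hZ hj)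

lemma inner_cv_cu (hZ : ObtuseFP Z) {j : Fin k} (hj : j ≠ i) :
    inner ℝ (cv Z i j) (cu Z i) = 0 := by
  unfold cv
  rw [inner_sub_left, real_inner_smul_left, inner_cu_self hZ hj]
  change 1 - (cb Z i j)⁻¹ * cb Z i j = 0
  rw [inv_mul_cancel₀ (cb_pos hZ hj).ne']
  norm_num

lemma cb_smul_cv (hZ : ObtuseFP Z) {j : Fin k} (hj : j ≠ i) :
    cb Z i j • cv Z i j = Z j - inner ℝ (Z j) (cu Z i) • cu Z i := by
  unfold cv
  rw [smul_sub, smul_smul, mul_inv_cancel₀ (cb_pos hZ hj).ne', one_smul]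
  have h : cb Z i j = ‖Z i‖ - inner ℝ (Z j) (cu Z i) := by
    unfold cb
    rw [inner_sub_left, inner_Z_cu hZ hj]
  rw [h, sub_smul, ← Z_eq_smul_cu hZ hj]
  abel

lemma norm_cb_smul_cv_le (hZ : ObtuseFP Z) {j : Fin k} (hj : j ≠ i) :
    cb Z i j * ‖cv Z i j‖ ≤ ‖Z j‖ := by
  have h1 : ‖cb Z i j • cv Z i j‖ = cb Z i j * ‖cv Z i j‖ := by
    rw [norm_smul, Real.norm_eq_abs, abs_of_pos (cb_pos hZ hj)]
  rw [← h1, cb_smul_cv hZ hj]
  -- Pythagoras
  have hu := norm_cu hZ hj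
  have : ‖Z j - inner ℝ (Z j) (cu Z i) • cu Z i‖ ^ 2 = ‖Z j‖ ^ 2 - (inner ℝ (Z j) (cu Z i)) ^ 2 := by
    rw [@norm_sub_sq_real, norm_smul, hu, real_inner_smul_right, Real.norm_eq_abs]
    have : |inner ℝ (Z j) (cu Z i)| ^ 2 = (inner ℝ (Z j) (cu Z i)) ^ 2 := sq_abs _
    rw [mul_one, this]
    ring
  have h2 : ‖Z j - inner ℝ (Z j) (cu Z i) • cu Z i‖ ^ 2 ≤ ‖Z j‖ ^ 2 := by
    rw [this]; nlinarith [sq_nonneg (inner ℝ (Z j) (cu Z i))]
  exact abs_le_of_sq_le_sq' h2 (norm_nonneg _) |>.2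

/-- Sum of the `β`s. -/
lemma sum_cb [NeZero k] (hZ : ObtuseFP Z) {j0 : Fin k} (hj0 : j0 ≠ i) :
    ∑ j ∈ Finset.univ.erase i, cb Z i j = k * ‖Z i‖ := by
  have h0 : cb Z i i = 0 := by simp [cb]
  have h1 : ∑ j ∈ Finset.univ.erase i, cb Z i j = ∑ j, cb Z i j := by
    rw [← Finset.add_sum_erase _ _ (Finset.mem_univ i), h0, zero_add]
  rw [h1]
  unfold cb
  simp_rw [inner_sub_left]
  have h2 : ∑ x, inner ℝ (Z x) (cu Z i) = 0 := by
    rw [← sum_inner, sum_Z_eq_zero hZ, inner_zero_left]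
  rw [Finset.sum_sub_distrib, h2, sub_zero, Finset.sum_const, inner_Z_cu hZ hj0]
  simp

/-- The linear relation between the `v`s. -/
lemma sum_cb_smul_cv [NeZero k] (hZ : ObtuseFP Z) {j0 : Fin k} (hj0 : j0 ≠ i) :
    ∑ j ∈ Finset.univ.erase i, cb Z i j • cv Z i j = 0 := by
  have h1 : ∀ j ∈ Finset.univ.erase i, cb Z i j • cv Z i j =
      cb Z i j • cu Z i - (Z i - Z j) := by
    intro j hj
    have hj' : j ≠ i := (Finset.mem_erase.1 hj).1
    unfold cv
    rw [smul_sub, smul_smul, mul_inv_cancel₀ (cb_pos hZ hj').ne', one_smul]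
  rw [Finset.sum_congr rfl h1, Finset.sum_sub_distrib, ← Finset.sum_smul, sum_cb hZ hj0]
  have h2 : ∑ j ∈ Finset.univ.erase i, (Z i - Z j) = ∑ j, (Z i - Z j) := by
    rw [← Finset.add_sum_erase _ _ (Finset.mem_univ i)]
    simp
  rw [h2, Finset.sum_sub_distrib, sum_Z_eq_zero hZ, Finset.sum_const]
  have h3 := Z_eq_smul_cu hZ hj0
  simp only [Finset.card_univ, Fintype.card_fin, sub_zero]
  rw [mul_smul, ← h3, Nat.cast_smul_eq_nsmul, sub_self]

/-- Independence: any relation among the `Z j`, `j ≠ i`, is trivial. -/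
lemma indep_of_neg [NeZero k] (hZ : ObtuseFP Z) (c : Fin k → ℝ)
    (hc : ∑ j ∈ Finset.univ.erase i, c j • Z j = 0) :
    ∀ j ∈ Finset.univ.erase i, c j = 0 := by
  set S := Finset.univ.erase i with hS
  set cp : Fin k → ℝ := fun j => max (c j) 0 with hcp
  set cn : Fin k → ℝ := fun j => max (-c j) 0 with hcn
  have hcpn : ∀ j, c j = cp j - cn j := by
    intro j
    simp only [hcp, hcn]
    rcases le_total (c j) 0 with h | h
    · rw [max_eq_right h, max_eq_left (by linarith)]; ring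
    · rw [max_eq_left h, max_eq_right (by linarith)]; ring
  have hcp0 : ∀ j, 0 ≤ cp j := fun j => le_max_right _ _
  have hcn0 : ∀ j, 0 ≤ cn j := fun j => le_max_right _ _
  have hprod : ∀ j, cp j * cn j = 0 := by
    intro j
    simp only [hcp, hcn]
    rcases le_total (c j) 0 with h | h
    · rw [max_eq_right h]; ring
    · rw [max_eq_right (by linarith : -c j ≤ 0)]; ring
  set y := ∑ j ∈ S, cp j • Z j with hy
  set y' := ∑ j ∈ S, cn j • Z j with hy'
  have hyy : y = y' := by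
    have : y - y' = ∑ j ∈ S, c j • Z j := by
      rw [hy, hy', ← Finset.sum_sub_distrib]
      refine Finset.sum_congr rfl fun j _ => ?_
      rw [hcpn j, sub_smul]
    rw [hc] at this
    exact sub_eq_zero.1 this
  have hinner : inner ℝ y y' ≤ 0 := by
    rw [hy, hy', sum_inner]
    refine Finset.sum_nonpos fun a _ => ?_
    rw [inner_sum]
    refine Finset.sum_nonpos fun b _ => ?_
    rw [real_inner_smul_left, real_inner_smul_right]
    by_cases hab : a = b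
    · subst hab
      have : cp a * (cn a * inner ℝ (Z a) (Z a)) = (cp a * cn a) * inner ℝ (Z a) (Z a) := by ring
      rw [this, hprod]; simp
    · have := hZ.neg a b hab
      have h1 : 0 ≤ cp a * cn b := mul_nonneg (hcp0 a) (hcn0 b)
      nlinarith
  have hy0 : y = 0 := by
    have : ‖y‖ ^ 2 ≤ 0 := by
      rw [← real_inner_self_eq_norm_sq]
      nth_rewrite 2 [hyy]
      exact hinner
    have h2 : ‖y‖ = 0 := by nlinarith [norm_nonneg y]
    exact norm_eq_zero.1 h2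
  have hy0' : y' = 0 := hyy ▸ hy0
  have hterm : ∀ (e : Fin k → ℝ), (∀ j, 0 ≤ e j) → ∑ j ∈ S, e j • Z j = 0 →
      ∀ j ∈ S, e j = 0 := by
    intro e he hsum j hj
    have h1 : inner ℝ (Z i) (∑ j ∈ S, e j • Z j) = 0 := by rw [hsum]; simp
    rw [inner_sum] at h1
    simp_rw [real_inner_smul_right] at h1
    have hnp : ∀ l ∈ S, e l * inner ℝ (Z i) (Z l) ≤ 0 := by
      intro l hl
      have hl' : l ≠ i := (Finset.mem_erase.1 hl).1
      have := hZ.neg i l hl'.symm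
      nlinarith [he l]
    have h2 := (Finset.sum_eq_zero_iff_of_nonpos hnp).1 h1 j hj
    have hj' : j ≠ i := (Finset.mem_erase.1 hj).1
    have h3 := hZ.neg i j hj'.symm
    rcases mul_eq_zero.1 h2 with h4 | h4
    · exact h4
    · linarith
  intro j hj
  rw [hcpn j, hterm cp hcp0 hy0 j hj, hterm cn hcn0 hy0' j hj]
  simp

end

end Vale.Agent.P226
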