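import Vale.Agent.P226.Moment

/-!
# The elementary chain: large `k` forces small value
-/

open MeasureTheory ProbabilityTheory Set Filter Topology

namespace Vale.Agent.P226

/-- Numerical inequality behind the choice of `K`. -/
lemma numeric_log {k : ℕ} (hk : 14000 ≤ k) :
    25.14 * (1 + 6.4 * (Real.sqrt (Real.log k) * (Real.sqrt (Real.log k) + 2) ^ 2)) ≤ (k : ℝ) := by
  have hkR : (14000 : ℝ) ≤ k := by exact_mod_cast hk
  have hkpos : (0 : ℝ) < k := by linarith
  set T := Real.log k with hT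
  set y := T - Real.log 14000 with hy
  have hlog14 : Real.log 14000 ≤ 10 := by
    rw [Real.log_le_iff_le_exp (by norm_num)]
    have h1 : Real.exp 10 = Real.exp 1 ^ 10 := by
      rw [← Real.exp_nat_mul]; norm_num
    rw [h1]
    have h2 := Real.exp_one_gt_d9
    calc (14000 : ℝ) ≤ 2.7182818283 ^ 10 := by norm_num
      _ ≤ _ := pow_le_pow_left₀ (by norm_num) h2.le 10
  have hy0 : 0 ≤ y := by
    have := Real.log_le_log (by norm_num : (0 : ℝ) < 14000) hkR
    rw [hy]; linarith
  have hexp := Real.quadratic_le_exp_of_nonneg hy0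
  have hexpy : Real.exp y = k / 14000 := by
    rw [hy, Real.exp_sub, hT, Real.exp_log hkpos, Real.exp_log (by norm_num)]
  rw [hexpy] at hexp
  have hk2 : 14000 * (1 + y + y ^ 2 / 2) ≤ (k : ℝ) := by
    rw [le_div_iff₀ (by norm_num)] at hexp
    linarith
  have hT0 : 0 ≤ T := Real.log_natCast_nonneg k
  set t := Real.sqrt T with ht
  have ht0 : 0 ≤ t := Real.sqrt_nonneg _
  have htsq : t ^ 2 = T := Real.sq_sqrt hT0
  have hTle : T ≤ 10 + y := by rw [hy]; linarith
  have htle : 6.32 * t ≤ 20 + y := by nlinarith [sq_nonneg (t - 3.16)]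
  -- cubic bound
  have hc : t * (t + 2) ^ 2 ≤ (20 + y) * (10 + y) / 6.32 + 4 * (10 + y) + 4 * ((20 + y) / 6.32) := by
    have e : t * (t + 2) ^ 2 = t * T + 4 * T + 4 * t := by rw [← htsq]; ring
    rw [e]
    have h1 : t ≤ (20 + y) / 6.32 := by
      rw [le_div_iff₀ (by norm_num)]; linarith
    have h2 : t * T ≤ ((20 + y) / 6.32) * (10 + y) :=
      mul_le_mul h1 hTle hT0 (by positivity)
    have h3 : ((20 + y) / 6.32) * (10 + y) = (20 + y) * (10 + y) / 6.32 := by ring
    linarith
  have hy2 : 0 ≤ y ^ 2 := sq_nonneg y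
  have hfinal : 25.14 * (1 + 6.4 * ((20 + y) * (10 + y) / 6.32 + 4 * (10 + y) +
      4 * ((20 + y) / 6.32))) ≤ 14000 * (1 + y + y ^ 2 / 2) := by
    have e : (20 + y) * (10 + y) = 200 + 30 * y + y ^ 2 := by ring
    rw [e]
    norm_num
    nlinarith
  calc _ ≤ 25.14 * (1 + 6.4 * ((20 + y) * (10 + y) / 6.32 + 4 * (10 + y) +
      4 * ((20 + y) / 6.32))) := by
        apply mul_le_mul_of_nonneg_left _ (by norm_num)
        linarith
    _ ≤ _ := hfinal.trans hk2

/-- The real-variable chain. -/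
theorem chain_real {k : ℕ} (hk : 14000 ≤ k) (x a M : Fin k → ℝ)
    (hx0 : ∀ i, 0 ≤ x i) (hxφ : ∀ i, x i ≤ phi0) (ha0 : ∀ i, 0 ≤ a i) (hasum : ∑ i, a i = 1)
    (hCS : ∀ i, x i ^ 2 ≤ a i * (a i + M i))
    (hL : ∀ i, Real.sqrt (Real.pi / 2) * x i ≤ a i + M i)
    (hMle : ∀ i, 1 / (k : ℝ) ≤ x i →
      M i ≤ (2 * Real.sqrt (Real.log k)) / k * ∑ j, x j) :
    ∑ i, x i ^ 2 ≤ 9 / (8 * Real.pi) := by
  have hkR : (14000 : ℝ) ≤ k := by exact_mod_cast hk
  have hkpos : (0 : ℝ) < k := by linarith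
  have hk1 : (1 : ℝ) < k := by linarith
  have hT : 0 < Real.log k := Real.log_pos hk1
  set t := Real.sqrt (Real.log k) with ht
  have htpos : 0 < t := Real.sqrt_pos.2 hT
  set lam := 2 * t with hlam
  have hlampos : 0 < lam := by positivity
  set S := ∑ j, x j with hS
  have hS0 : 0 ≤ S := Finset.sum_nonneg fun j _ => hx0 j
  set ε := lam / k * S with hε
  have hε0 : 0 ≤ ε := by positivity
  have hinv : (0 : ℝ) < 1 / k := by positivity
  -- first step
  have hstep1 : ∀ i, x i ≤ a i + (a i * lam + ε / lam) / 2 + 1 / k := by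
    intro i
    have hw0 : 0 ≤ (a i * lam + ε / lam) / 2 := by
      have := ha0 i
      positivity
    by_cases hbig : 1 / (k : ℝ) ≤ x i
    · have hM := hMle i hbig
      have h1 : x i ^ 2 ≤ a i * (a i + ε) := (hCS i).trans
        (mul_le_mul_of_nonneg_left (by linarith) (ha0 i))
      have h2 : x i ≤ a i + (a i * lam + ε / lam) / 2 := by
        set w := (a i * lam + ε / lam) / 2 with hw
        have h3 : a i * ε ≤ w ^ 2 := by
          have e : a i * ε = (a i * lam) * (ε / lam) := by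
            field_simp
          rw [e, hw]
          nlinarith [sq_nonneg (a i * lam - ε / lam)]
        have h4 : x i ^ 2 ≤ (a i + w) ^ 2 := by
          have := ha0 i
          nlinarith [mul_nonneg this hw0]
        exact abs_le_of_sq_le_sq' h4 (by linarith [ha0 i]) |>.2
      linarith
    · push Not at hbig
      have := ha0 i
      have h5 : 0 ≤ a i := this
      linarith
  have hsum1 : S ≤ ∑ i, (a i + (a i * lam + ε / lam) / 2 + 1 / k) :=
    Finset.sum_le_sum fun i _ => hstep1 i
  have hcalc1 : ∑ i, (a i + (a i * lam + ε / lam) / 2 + 1 / (k : ℝ)) = 2 + lam / 2 + S / 2 := by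
    have e1 : ∀ i, a i + (a i * lam + ε / lam) / 2 + 1 / (k : ℝ) =
        a i * (1 + lam / 2) + (ε / lam / 2 + 1 / k) := by
      intro i; ring
    simp_rw [e1]
    rw [Finset.sum_add_distrib, ← Finset.sum_mul, hasum, Finset.sum_const, Finset.card_univ,
      Fintype.card_fin, nsmul_eq_mul]
    have e2 : (k : ℝ) * (ε / lam / 2 + 1 / k) = S / 2 + 1 := by
      rw [hε]
      field_simp
    rw [e2]
    ring
  rw [hcalc1] at hsum1
  have hSle : S ≤ 4 + lam := by linarith
  -- second step
  set c := Real.sqrt (Real.pi / 2) with hc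
  have hcpos : 0 < c := by positivity
  have hcsq : c ^ 2 = Real.pi / 2 := Real.sq_sqrt (by positivity)
  have hstep2 : ∀ i, x i ^ 2 ≤ c⁻¹ * (phi0 * a i + ε * x i) + 1 / (k : ℝ) ^ 2 := by
    intro i
    have hinv2 : (0 : ℝ) < 1 / (k : ℝ) ^ 2 := by positivity
    by_cases hbig : 1 / (k : ℝ) ≤ x i
    · have hM := hMle i hbig
      have h1 : c * x i ≤ a i + ε := (hL i).trans (by linarith)
      have h2 : x i ≤ c⁻¹ * (a i + ε) := by
        rw [inv_mul_eq_div, le_div_iff₀ hcpos]; linarith
      have h3 : x i ^ 2 ≤ c⁻¹ * (x i * (a i + ε)) := by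
        calc x i ^ 2 = x i * x i := sq _
          _ ≤ x i * (c⁻¹ * (a i + ε)) := mul_le_mul_of_nonneg_left h2 (hx0 i)
          _ = _ := by ring
      have h4 : x i * (a i + ε) ≤ phi0 * a i + ε * x i := by
        have := mul_le_mul_of_nonneg_right (hxφ i) (ha0 i)
        linarith
      have h5 := mul_le_mul_of_nonneg_left h4 (inv_pos.2 hcpos).le
      linarith
    · push Not at hbig
      have h1 : x i ^ 2 ≤ (1 / (k : ℝ)) ^ 2 := pow_le_pow_left₀ (hx0 i) hbig.le 2
      have h2 : 0 ≤ c⁻¹ * (phi0 * a i + ε * x i) := by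
        have := ha0 i
        have := hx0 i
        have := phi0_pos
        positivity
      have h3 : (1 / (k : ℝ)) ^ 2 = 1 / (k : ℝ) ^ 2 := by ring
      linarith
  have hsum2 : ∑ i, x i ^ 2 ≤ ∑ i, (c⁻¹ * (phi0 * a i + ε * x i) + 1 / (k : ℝ) ^ 2) :=
    Finset.sum_le_sum fun i _ => hstep2 i
  have hcalc2 : ∑ i, (c⁻¹ * (phi0 * a i + ε * x i) + 1 / (k : ℝ) ^ 2) =
      c⁻¹ * (phi0 + ε * S) + 1 / k := by
    rw [Finset.sum_add_distrib, ← Finset.mul_sum, Finset.sum_add_distrib, ← Finset.mul_sum,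
      ← Finset.mul_sum, hasum, Finset.sum_const, Finset.card_univ, Fintype.card_fin, nsmul_eq_mul,
      ← hS]
    field_simp
  rw [hcalc2] at hsum2
  -- constants
  have hcφ : c⁻¹ * phi0 = 1 / Real.pi := by
    have h := sqrt_mul_phi0
    rw [← hc] at h
    have h2 : phi0 = 1 / (2 * c) := by
      field_simp
      linarith
    rw [h2]
    have hpi : Real.pi = 2 * c ^ 2 := by rw [hcsq]; ring
    rw [hpi]
    field_simp
  have hcinv : c⁻¹ ≤ 0.8 := by
    rw [inv_le_comm₀ hcpos (by norm_num)]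
    have h1 : (0.8 : ℝ)⁻¹ ^ 2 ≤ c ^ 2 := by
      rw [hcsq]
      have := Real.pi_gt_d2
      norm_num
      linarith
    exact abs_le_of_sq_le_sq' h1 hcpos.le |>.2
  have hpi := Real.pi_lt_d4
  have hpi0 := Real.pi_pos
  -- error term
  have herr : c⁻¹ * (ε * S) + 1 / k ≤ 1 / (8 * Real.pi) := by
    have hnum := numeric_log hk
    rw [← ht] at hnum
    have h1 : ε * S ≤ lam * (4 + lam) ^ 2 / k := by
      rw [hε]
      have : S ^ 2 ≤ (4 + lam) ^ 2 := pow_le_pow_left₀ hS0 hSle 2
      calc lam / k * S * S = lam / k * S ^ 2 := by ring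
        _ ≤ lam / k * (4 + lam) ^ 2 := mul_le_mul_of_nonneg_left this (by positivity)
        _ = _ := by ring
    have h2 : c⁻¹ * (ε * S) ≤ 0.8 * (lam * (4 + lam) ^ 2 / k) :=
      mul_le_mul hcinv h1 (by positivity) (by norm_num)
    have h3 : lam * (4 + lam) ^ 2 = 8 * (t * (t + 2) ^ 2) := by
      rw [hlam]; ring
    rw [h3] at h2
    have h4 : 0.8 * (8 * (t * (t + 2) ^ 2) / k) + 1 / (k : ℝ) ≤ 1 / 25.14 := by
      have : 0.8 * (8 * (t * (t + 2) ^ 2) / k) + 1 / (k : ℝ) =
          (1 + 6.4 * (t * (t + 2) ^ 2)) / k := by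
        field_simp
        ring
      rw [this, div_le_div_iff₀ hkpos (by norm_num)]
      linarith
    have h5 : (1 : ℝ) / 25.14 ≤ 1 / (8 * Real.pi) :=
      one_div_le_one_div_of_le (by positivity) (by linarith)
    linarith
  have hfin : (9 : ℝ) / (8 * Real.pi) = 1 / Real.pi + 1 / (8 * Real.pi) := by
    field_simp
    ring
  rw [hfin]
  have : c⁻¹ * (phi0 + ε * S) + 1 / k = c⁻¹ * phi0 + (c⁻¹ * (ε * S) + 1 / k) := by ring
  rw [this, hcφ] at hsum2
  linarith

variable {d k : ℕ}

/-- **Theorem A** for many cells: an obtuse fixed point with at least `14000` cells has value at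
most `9/(8π)`. -/
theorem obtuse_bound (hk : 14000 ≤ k) {Z : Fin k → Euc d} (hZ : ObtuseFP Z) :
    ∑ i, ‖Z i‖ ^ 2 ≤ 9 / (8 * Real.pi) := by
  have hk0 : NeZero k := ⟨by omega⟩
  have hne : ∀ i : Fin k, (Finset.univ.erase i).Nonempty := by
    intro i
    rw [← Finset.card_pos, Finset.card_erase_of_mem (Finset.mem_univ i), Finset.card_univ,
      Fintype.card_fin]
    omega
  have hpart := isMeasPartition_argCell Z
  refine chain_real hk (fun i => ‖Z i‖) (fun i => (stdGaussian (Euc d)).real (argCell Z i))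
    (fun i => cellM Z i (hne i)) (fun i => norm_nonneg _) (fun i => norm_le_phi0 hZ (hne i))
    (fun i => measureReal_nonneg) (sum_measureReal_partition hpart)
    (fun i => cell_CS hZ (hne i)) (fun i => cell_lower hZ (hne i)) ?_
  intro i hbig
  have hkR : (14000 : ℝ) ≤ k := by exact_mod_cast hk
  have hkpos : (0 : ℝ) < k := by linarith
  have hT : 0 < Real.log k := Real.log_pos (by linarith)
  have hle : ∑ l ∈ Finset.univ.erase i, ‖Z l‖ ≤ ∑ l, ‖Z l‖ :=
    Finset.sum_le_sum_of_subset_of_nonneg (Finset.erase_subset _ _) (fun _ _ _ => norm_nonneg _)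
  have hlam : 0 < 2 * Real.sqrt (Real.log k) := by
    have := Real.sqrt_pos.2 hT
    positivity
  refine (cellM_le hZ (hne i) _ hlam ?_).trans
    (mul_le_mul_of_nonneg_left hle (by positivity))
  intro l hl
  have hb := cb_ge hZ hl
  have hbpos := cb_pos hZ hl
  have hsq : (2 * Real.sqrt (Real.log k)) ^ 2 / 2 = 2 * Real.log k := by
    rw [mul_pow, Real.sq_sqrt hT.le]; ring
  rw [hsq]
  have hφ : phi0 ≤ 1 := by
    unfold phi0
    have h2pi : 1 ≤ Real.sqrt (2 * Real.pi) := by
      rw [Real.one_le_sqrt]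
      have := Real.pi_gt_three
      linarith
    exact inv_le_one_of_one_le₀ h2pi
  have h1 : phi0 / (cb Z i l / k) ≤ (k : ℝ) ^ 2 := by
    have h2 : 1 / (k : ℝ) ≤ cb Z i l := hbig.trans hb.le
    rw [div_le_iff₀ (by positivity)]
    have h3 : (k : ℝ) ^ 2 * (cb Z i l / k) = k * cb Z i l := by
      field_simp
    rw [h3]
    have h4 : (k : ℝ) * (1 / k) ≤ k * cb Z i l := mul_le_mul_of_nonneg_left h2 hkpos.le
    have h5 : (k : ℝ) * (1 / k) = 1 := by field_simp
    linarith
  have h2 : 0 < phi0 / (cb Z i l / k) := by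
    have := phi0_pos
    positivity
  calc Real.log (phi0 / (cb Z i l / k)) ≤ Real.log ((k : ℝ) ^ 2) := Real.log_le_log h2 h1
    _ = 2 * Real.log k := by rw [Real.log_pow]; norm_num

/-- Induction step: passing from `n` to `n + 1` cells. -/
theorem step_cells {n : ℕ} (hn : 14000 ≤ n + 1) {C : ℝ} (hC : 9 / (8 * Real.pi) ≤ C)
    (hyp : ∀ (d : ℕ) (A : Fin n → Set (Euc d)), IsMeasPartition A → propF A ≤ C)
    (d : ℕ) (A : Fin (n + 1) → Set (Euc d)) (hA : IsMeasPartition A) : propF A ≤ C := by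
  obtain ⟨Z, hfp, hmax⟩ := exists_fixedPoint (k := n + 1) d
  refine (hmax A hA).trans ?_
  by_cases hneg : ∀ i j, i ≠ j → inner ℝ (Z i) (Z j) < 0
  · exact (obtuse_bound hn ⟨hfp, hneg⟩).trans hC
  · push Not at hneg
    obtain ⟨i, j, hij, hpos⟩ := hneg
    obtain ⟨B, hB, hval⟩ := merge_cells (isMeasPartition_argCell Z) hij
    have h1 := hyp d B hB
    rw [hval] at h1
    simp only [hfp] at h1
    have h2 : propF (argCell Z) = ∑ i, ‖Z i‖ ^ 2 := by
      unfold propF
      simp only [hfp]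
    rw [h2] at h1
    linarith

/-- Adding an empty cell. -/
theorem drop_cell {n : ℕ} {C : ℝ} (d : ℕ)
    (hyp : ∀ (A : Fin (n + 1) → Set (Euc d)), IsMeasPartition A → propF A ≤ C)
    (A : Fin n → Set (Euc d)) (hA : IsMeasPartition A) : propF A ≤ C := by
  have hB : IsMeasPartition (Fin.cons ∅ A : Fin (n + 1) → Set (Euc d)) := by
    refine ⟨?_, ?_, ?_⟩
    · intro i
      refine Fin.cases ?_ (fun j => ?_) i
      · simp
      · simpa using hA.measurable j
    · intro a b hab
      refine Fin.cases ?_ (fun a' => ?_) a hab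
      · intro _
        simp
      · intro hab'
        refine Fin.cases ?_ (fun b' => ?_) b hab'
        · intro _
          simp
        · intro hab''
          simp only [Fin.cons_succ]
          exact hA.disjoint fun h => hab'' (by rw [h])
    · ext x
      simp only [mem_iUnion, mem_univ, iff_true]
      have hx : x ∈ ⋃ m, A m := by rw [hA.cover]; trivial
      obtain ⟨m, hm⟩ := mem_iUnion.1 hx
      exact ⟨m.succ, by simpa using hm⟩
  have := hyp _ hB
  unfold propF at this ⊢
  rw [Fin.sum_univ_succ] at this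
  simpa [gaussMoment] using this

/-- **Finite reduction**: if the propeller bound holds for partitions into `14000` cells in every
dimension, then it holds for all finite partitions. -/
theorem finite_reduction {C : ℝ} (hC : 9 / (8 * Real.pi) ≤ C)
    (hyp : ∀ (d : ℕ) (A : Fin 14000 → Set (Euc d)), IsMeasPartition A → propF A ≤ C)
    (d k : ℕ) (A : Fin k → Set (Euc d)) (hA : IsMeasPartition A) : propF A ≤ C := by
  have hup : ∀ m, 14000 ≤ m → ∀ (d : ℕ) (A : Fin m → Set (Euc d)), IsMeasPartition A →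
      propF A ≤ C := by
    intro m hm
    induction m, hm using Nat.le_induction with
    | base => exact hyp
    | succ n hn ih =>
      exact step_cells (by omega) hC ih
  have hdown : ∀ j k, k + j = 14000 → ∀ (A : Fin k → Set (Euc d)), IsMeasPartition A →
      propF A ≤ C := by
    intro j
    induction j with
    | zero =>
      intro k hk
      simp only [add_zero] at hk
      subst hk
      exact hyp d
    | succ j ih =>
      intro k hk A hA
      exact drop_cell d (fun A' hA' => ih (k + 1) (by omega) A' hA') A hA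
  by_cases hk : 14000 ≤ k
  · exact hup k hk d A hA
  · exact hdown (14000 - k) k (by omega) A hA

end Vale.Agent.P226
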