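import Vale.Agent.P226.Assemble

/-!
# Numerical certificate 1 of the case K10
-/

namespace Vale.Agent.P226

/-- Certificate number 1. -/
def cert_K10_1 : Cert :=
  { o := { mu := 944892805, L0 := 11994069045, L1 := 2638638559, e0 := 629, F0 := 1538021827, Kc := 9, phiU := 1713444048 },
    K := 10, cK := 1076588647, invK := 429496730, Y := 1713477203, Smin := 3650722201, Smax := 4294967296, Xtop := 1713444132, Kmax := 10,
    strips := [
  { x2 := 893776, f0 := 0, f1 := 0, f2 := 0, tp := 0, tm := 0, fuel := 0, hasPair := false,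
    rects := [(4294968296, RectKind.iso 190)] },
  { x2 := 1340664, f0 := 0, f1 := 0, f2 := 0, tp := 0, tm := 0, fuel := 0, hasPair := false,
    rects := [(4294968296, RectKind.iso 184)] },
  { x2 := 2010996, f0 := 0, f1 := 0, f2 := 0, tp := 0, tm := 0, fuel := 0, hasPair := false,
    rects := [(4294968296, RectKind.iso 177)] },
  { x2 := 3016493, f0 := 0, f1 := 0, f2 := 0, tp := 0, tm := 0, fuel := 0, hasPair := false,
    rects := [(4294968296, RectKind.iso 172)] },
  { x2 := 4524740, f0 := 0, f1 := 0, f2 := 0, tp := 0, tm := 0, fuel := 0, hasPair := false,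
    rects := [(4294968296, RectKind.iso 166)] },
  { x2 := 6787109, f0 := 0, f1 := 0, f2 := 0, tp := 0, tm := 0, fuel := 0, hasPair := false,
    rects := [(4294968296, RectKind.iso 162)] },
  { x2 := 10180664, f0 := 0, f1 := 0, f2 := 0, tp := 0, tm := 0, fuel := 0, hasPair := false,
    rects := [(4294968296, RectKind.iso 156)] },
  { x2 := 15270995, f0 := 0, f1 := 0, f2 := 0, tp := 0, tm := 0, fuel := 0, hasPair := false,
    rects := [(4294968296, RectKind.iso 151)] },
  { x2 := 22906493, f0 := 0, f1 := 0, f2 := 0, tp := 0, tm := 0, fuel := 0, hasPair := false,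
    rects := [(4294968296, RectKind.iso 145)] },
  { x2 := 34359739, f0 := 0, f1 := 0, f2 := 0, tp := 0, tm := 0, fuel := 0, hasPair := false,
    rects := [(4294968296, RectKind.iso 139)] },
  { x2 := 51539608, f0 := 0, f1 := 0, f2 := 0, tp := 0, tm := 0, fuel := 0, hasPair := false,
    rects := [(4294968296, RectKind.iso 133)] },
  { x2 := 55662777, f0 := 0, f1 := 0, f2 := 0, tp := 0, tm := 0, fuel := 0, hasPair := false,
    rects := [(4294968296, RectKind.iso 123)] },
  { x2 := 60115799, f0 := 0, f1 := 0, f2 := 0, tp := 0, tm := 0, fuel := 0, hasPair := false,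
    rects := [(4294968296, RectKind.iso 121)] },
  { x2 := 64925063, f0 := 0, f1 := 0, f2 := 0, tp := 0, tm := 0, fuel := 0, hasPair := false,
    rects := [(4294968296, RectKind.iso 119)] },
  { x2 := 70119068, f0 := 0, f1 := 0, f2 := 0, tp := 0, tm := 0, fuel := 0, hasPair := false,
    rects := [(4294968296, RectKind.iso 117)] },
  { x2 := 75728593, f0 := 0, f1 := 0, f2 := 0, tp := 0, tm := 0, fuel := 0, hasPair := false,
    rects := [(4294968296, RectKind.iso 116)] },
  { x2 := 81786880, f0 := 0, f1 := 0, f2 := 0, tp := 0, tm := 0, fuel := 0, hasPair := false,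
    rects := [(4294968296, RectKind.iso 114)] },
  { x2 := 88329831, f0 := 0, f1 := 0, f2 := 0, tp := 0, tm := 0, fuel := 0, hasPair := false,
    rects := [(4294968296, RectKind.iso 112)] },
  { x2 := 95396217, f0 := 0, f1 := 0, f2 := 0, tp := 0, tm := 0, fuel := 0, hasPair := false,
    rects := [(4294968296, RectKind.iso 110)] },
  { x2 := 103027914, f0 := 0, f1 := 0, f2 := 0, tp := 0, tm := 0, fuel := 0, hasPair := false,
    rects := [(4294968296, RectKind.iso 108)] },
  { x2 := 111270148, f0 := 0, f1 := 0, f2 := 0, tp := 0, tm := 0, fuel := 0, hasPair := false,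
    rects := [(4294968296, RectKind.iso 106)] },
  { x2 := 120171759, f0 := 0, f1 := 0, f2 := 0, tp := 0, tm := 0, fuel := 0, hasPair := false,
    rects := [(4294968296, RectKind.iso 104)] },
  { x2 := 129785500, f0 := 0, f1 := 0, f2 := 0, tp := 0, tm := 0, fuel := 0, hasPair := false,
    rects := [(4294968296, RectKind.iso 102)] },
  { x2 := 140168340, f0 := 0, f1 := 0, f2 := 0, tp := 0, tm := 0, fuel := 0, hasPair := false,
    rects := [(4294968296, RectKind.iso 100)] },
  { x2 := 151381807, f0 := 0, f1 := 0, f2 := 0, tp := 0, tm := 0, fuel := 0, hasPair := false,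
    rects := [(4294968296, RectKind.iso 98)] },
  { x2 := 163492352, f0 := 0, f1 := 0, f2 := 0, tp := 0, tm := 0, fuel := 0, hasPair := false,
    rects := [(4294968296, RectKind.iso 96)] },
  { x2 := 176571740, f0 := 0, f1 := 0, f2 := 0, tp := 0, tm := 0, fuel := 0, hasPair := false,
    rects := [(4294968296, RectKind.iso 94)] },
  { x2 := 190697479, f0 := 0, f1 := 0, f2 := 0, tp := 0, tm := 0, fuel := 0, hasPair := false,
    rects := [(4294968296, RectKind.iso 93)] },
  { x2 := 205953277, f0 := 0, f1 := 0, f2 := 0, tp := 0, tm := 0, fuel := 0, hasPair := false,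
    rects := [(4294968296, RectKind.iso 91)] },
  { x2 := 222429539, f0 := 0, f1 := 0, f2 := 0, tp := 0, tm := 0, fuel := 0, hasPair := false,
    rects := [(4294968296, RectKind.iso 89)] },
  { x2 := 240223903, f0 := 0, f1 := 0, f2 := 0, tp := 0, tm := 0, fuel := 0, hasPair := false,
    rects := [(4294968296, RectKind.iso 87)] },
  { x2 := 259441815, f0 := 0, f1 := 0, f2 := 0, tp := 0, tm := 0, fuel := 0, hasPair := false,
    rects := [(4294968296, RectKind.iso 85)] },
  { x2 := 280197160, f0 := 0, f1 := 0, f2 := 0, tp := 0, tm := 0, fuel := 0, hasPair := false,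
    rects := [(4294968296, RectKind.iso 83)] },
  { x2 := 302612933, f0 := 0, f1 := 0, f2 := 0, tp := 0, tm := 0, fuel := 0, hasPair := false,
    rects := [(4294968296, RectKind.iso 82)] },
  { x2 := 326821967, f0 := 0, f1 := 0, f2 := 0, tp := 0, tm := 0, fuel := 0, hasPair := false,
    rects := [(4294968296, RectKind.iso 80)] },
  { x2 := 352967724, f0 := 0, f1 := 0, f2 := 0, tp := 0, tm := 0, fuel := 0, hasPair := false,
    rects := [(4294968296, RectKind.iso 78)] },
  { x2 := 381205142, f0 := 0, f1 := 0, f2 := 0, tp := 0, tm := 0, fuel := 0, hasPair := false,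
    rects := [(4294968296, RectKind.iso 77)] },
  { x2 := 411701554, f0 := 0, f1 := 0, f2 := 0, tp := 0, tm := 0, fuel := 0, hasPair := false,
    rects := [(4294968296, RectKind.iso 76)] },
  { x2 := 444637678, f0 := 0, f1 := 0, f2 := 0, tp := 0, tm := 0, fuel := 0, hasPair := false,
    rects := [(4294968296, RectKind.iso 74)] },
  { x2 := 480208692, f0 := 0, f1 := 0, f2 := 0, tp := 0, tm := 0, fuel := 0, hasPair := false,
    rects := [(4294968296, RectKind.iso 73)] },
  { x2 := 518625387, f0 := 0, f1 := 0, f2 := 0, tp := 0, tm := 0, fuel := 0, hasPair := false,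
    rects := [(4294968296, RectKind.iso 74)] },
  { x2 := 560115418, f0 := 0, f1 := 0, f2 := 0, tp := 0, tm := 0, fuel := 0, hasPair := false,
    rects := [(4294968296, RectKind.iso 78)] },
  { x2 := 604924652, f0 := 0, f1 := 0, f2 := 0, tp := 0, tm := 0, fuel := 0, hasPair := false,
    rects := [(3972845248, RectKind.inf), (4133906772, RectKind.inf), (4214437534, RectKind.inf), (4294968296, RectKind.iso 75)] },
  { x2 := 653318624, f0 := 0, f1 := 1170176484, f2 := 2101871177, tp := 522099006, tm := 0, fuel := 40, hasPair := true,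
    rects := [(4294968296, RectKind.tan 20)] },
  { x2 := 705584114, f0 := 0, f1 := 1157471741, f2 := 2017573330, tp := 491366489, tm := 0, fuel := 40, hasPair := true,
    rects := [(4294968296, RectKind.tan 19)] },
  { x2 := 762030843, f0 := 0, f1 := 1143255221, f2 := 1899643048, tp := 402220338, tm := 0, fuel := 40, hasPair := true,
    rects := [(4294968296, RectKind.tan 18)] },
  { x2 := 822993310, f0 := 0, f1 := 1130099788, f2 := 1811690644, tp := 368134004, tm := 0, fuel := 40, hasPair := true,
    rects := [(4294968296, RectKind.tan 17)] },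
  { x2 := 888832775, f0 := 0, f1 := 1114322262, f2 := 1680042328, tp := 274479546, tm := 0, fuel := 40, hasPair := true,
    rects := [(4294968296, RectKind.tan 16)] },
  { x2 := 959939397, f0 := 0, f1 := 1100333795, f2 := 1589816532, tp := 238921595, tm := 0, fuel := 40, hasPair := true,
    rects := [(4294968296, RectKind.tan 15)] },
  { x2 := 1036734549, f0 := 0, f1 := 1082486112, f2 := 1446289695, tp := 144061509, tm := 0, fuel := 40, hasPair := true,
    rects := [(4294968296, RectKind.tan 14)] },
  { x2 := 1119673313, f0 := 0, f1 := 1067288984, f2 := 1355804047, tp := 109165417, tm := 0, fuel := 40, hasPair := true,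
    rects := [(4294968296, RectKind.tan 12)] },
  { x2 := 1209247178, f0 := 0, f1 := 1046459734, f2 := 1201720215, tp := 16010907, tm := 0, fuel := 40, hasPair := true,
    rects := [(4294968296, RectKind.tan 11)] },
  { x2 := 1305986952, f0 := 0, f1 := 1024624324, f2 := 1040127224, tp := 0, tm := 76430069, fuel := 40, hasPair := true,
    rects := [(4294968296, RectKind.tan 9)] },
  { x2 := 1410465908, f0 := 0, f1 := 1010612491, f2 := 893064799, tp := 0, tm := 168214109, fuel := 40, hasPair := true,
    rects := [(4294968296, RectKind.tan 7)] },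
  { x2 := 1523303181, f0 := 0, f1 := 1018232428, f2 := 717841282, tp := 0, tm := 315178905, fuel := 40, hasPair := true,
    rects := [(4294968296, RectKind.tan 5)] },
  { x2 := 1645167435, f0 := 0, f1 := 1032485027, f2 := 603907464, tp := 0, tm := 416318128, fuel := 40, hasPair := true,
    rects := [(4294968296, RectKind.tan 3)] },
  { x2 := 1713477203, f0 := 0, f1 := 1064310259, f2 := 428362401, tp := 0, tm := 606714517, fuel := 40, hasPair := true,
    rects := [(4294968296, RectKind.tan 1)] }] }

theorem cert_K10_1_ok : cert_K10_1.check = true := by decide +kernel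

end Vale.Agent.P226
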