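import Vale.Agent.P226.Assemble

/-!
# Numerical certificate 2 of the case K10
-/

namespace Vale.Agent.P226

/-- Certificate number 2. -/
def cert_K10_2 : Cert :=
  { o := { mu := 1202590842, L0 := 11995723932, L1 := 3358267256, e0 := 59890, F0 := 1538021827, Kc := 9, phiU := 1713444048 },
    K := 10, cK := 1076588647, invK := 429496730, Y := 1713477203, Smin := 4294967296, Smax := 4939212391, Xtop := 1713444132, Kmax := 10,
    strips := [
  { x2 := 893776, f0 := 0, f1 := 0, f2 := 0, tp := 0, tm := 0, fuel := 0, hasPair := false,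
    rects := [(4939213391, RectKind.iso 183)] },
  { x2 := 1340664, f0 := 0, f1 := 0, f2 := 0, tp := 0, tm := 0, fuel := 0, hasPair := false,
    rects := [(4939213391, RectKind.iso 183)] },
  { x2 := 2010996, f0 := 0, f1 := 0, f2 := 0, tp := 0, tm := 0, fuel := 0, hasPair := false,
    rects := [(4939213391, RectKind.iso 182)] },
  { x2 := 3016493, f0 := 0, f1 := 0, f2 := 0, tp := 0, tm := 0, fuel := 0, hasPair := false,
    rects := [(4939213391, RectKind.iso 182)] },
  { x2 := 4524740, f0 := 0, f1 := 0, f2 := 0, tp := 0, tm := 0, fuel := 0, hasPair := false,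
    rects := [(4939213391, RectKind.iso 179)] },
  { x2 := 6787109, f0 := 0, f1 := 0, f2 := 0, tp := 0, tm := 0, fuel := 0, hasPair := false,
    rects := [(4939213391, RectKind.iso 174)] },
  { x2 := 10180664, f0 := 0, f1 := 0, f2 := 0, tp := 0, tm := 0, fuel := 0, hasPair := false,
    rects := [(4939213391, RectKind.iso 167)] },
  { x2 := 15270995, f0 := 0, f1 := 0, f2 := 0, tp := 0, tm := 0, fuel := 0, hasPair := false,
    rects := [(4939213391, RectKind.iso 161)] },
  { x2 := 22906493, f0 := 0, f1 := 0, f2 := 0, tp := 0, tm := 0, fuel := 0, hasPair := false,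
    rects := [(4939213391, RectKind.iso 153)] },
  { x2 := 34359739, f0 := 0, f1 := 0, f2 := 0, tp := 0, tm := 0, fuel := 0, hasPair := false,
    rects := [(4939213391, RectKind.iso 147)] },
  { x2 := 51539608, f0 := 0, f1 := 0, f2 := 0, tp := 0, tm := 0, fuel := 0, hasPair := false,
    rects := [(4939213391, RectKind.iso 140)] },
  { x2 := 55662777, f0 := 0, f1 := 0, f2 := 0, tp := 0, tm := 0, fuel := 0, hasPair := false,
    rects := [(4939213391, RectKind.iso 133)] },
  { x2 := 60115799, f0 := 0, f1 := 0, f2 := 0, tp := 0, tm := 0, fuel := 0, hasPair := false,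
    rects := [(4939213391, RectKind.iso 131)] },
  { x2 := 64925063, f0 := 0, f1 := 0, f2 := 0, tp := 0, tm := 0, fuel := 0, hasPair := false,
    rects := [(4939213391, RectKind.iso 129)] },
  { x2 := 70119068, f0 := 0, f1 := 0, f2 := 0, tp := 0, tm := 0, fuel := 0, hasPair := false,
    rects := [(4939213391, RectKind.iso 127)] },
  { x2 := 75728593, f0 := 0, f1 := 0, f2 := 0, tp := 0, tm := 0, fuel := 0, hasPair := false,
    rects := [(4939213391, RectKind.iso 125)] },
  { x2 := 81786880, f0 := 0, f1 := 0, f2 := 0, tp := 0, tm := 0, fuel := 0, hasPair := false,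
    rects := [(4939213391, RectKind.iso 123)] },
  { x2 := 88329831, f0 := 0, f1 := 0, f2 := 0, tp := 0, tm := 0, fuel := 0, hasPair := false,
    rects := [(4939213391, RectKind.iso 121)] },
  { x2 := 95396217, f0 := 0, f1 := 0, f2 := 0, tp := 0, tm := 0, fuel := 0, hasPair := false,
    rects := [(4939213391, RectKind.iso 119)] },
  { x2 := 103027914, f0 := 0, f1 := 0, f2 := 0, tp := 0, tm := 0, fuel := 0, hasPair := false,
    rects := [(4939213391, RectKind.iso 117)] },
  { x2 := 111270148, f0 := 0, f1 := 0, f2 := 0, tp := 0, tm := 0, fuel := 0, hasPair := false,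
    rects := [(4939213391, RectKind.iso 114)] },
  { x2 := 120171759, f0 := 0, f1 := 0, f2 := 0, tp := 0, tm := 0, fuel := 0, hasPair := false,
    rects := [(4939213391, RectKind.iso 112)] },
  { x2 := 129785500, f0 := 0, f1 := 0, f2 := 0, tp := 0, tm := 0, fuel := 0, hasPair := false,
    rects := [(4939213391, RectKind.iso 110)] },
  { x2 := 140168340, f0 := 0, f1 := 0, f2 := 0, tp := 0, tm := 0, fuel := 0, hasPair := false,
    rects := [(4939213391, RectKind.iso 108)] },
  { x2 := 151381807, f0 := 0, f1 := 0, f2 := 0, tp := 0, tm := 0, fuel := 0, hasPair := false,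
    rects := [(4939213391, RectKind.iso 106)] },
  { x2 := 163492352, f0 := 0, f1 := 0, f2 := 0, tp := 0, tm := 0, fuel := 0, hasPair := false,
    rects := [(4939213391, RectKind.iso 104)] },
  { x2 := 176571740, f0 := 0, f1 := 0, f2 := 0, tp := 0, tm := 0, fuel := 0, hasPair := false,
    rects := [(4939213391, RectKind.iso 103)] },
  { x2 := 190697479, f0 := 0, f1 := 0, f2 := 0, tp := 0, tm := 0, fuel := 0, hasPair := false,
    rects := [(4939213391, RectKind.iso 101)] },
  { x2 := 205953277, f0 := 0, f1 := 0, f2 := 0, tp := 0, tm := 0, fuel := 0, hasPair := false,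
    rects := [(4939213391, RectKind.iso 99)] },
  { x2 := 222429539, f0 := 0, f1 := 0, f2 := 0, tp := 0, tm := 0, fuel := 0, hasPair := false,
    rects := [(4939213391, RectKind.iso 97)] },
  { x2 := 240223903, f0 := 0, f1 := 0, f2 := 0, tp := 0, tm := 0, fuel := 0, hasPair := false,
    rects := [(4939213391, RectKind.iso 95)] },
  { x2 := 259441815, f0 := 0, f1 := 0, f2 := 0, tp := 0, tm := 0, fuel := 0, hasPair := false,
    rects := [(4939213391, RectKind.iso 93)] },
  { x2 := 280197160, f0 := 0, f1 := 0, f2 := 0, tp := 0, tm := 0, fuel := 0, hasPair := false,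
    rects := [(4939213391, RectKind.iso 92)] },
  { x2 := 302612933, f0 := 0, f1 := 0, f2 := 0, tp := 0, tm := 0, fuel := 0, hasPair := false,
    rects := [(4939213391, RectKind.iso 90)] },
  { x2 := 326821967, f0 := 0, f1 := 0, f2 := 0, tp := 0, tm := 0, fuel := 0, hasPair := false,
    rects := [(4939213391, RectKind.iso 89)] },
  { x2 := 352967724, f0 := 0, f1 := 0, f2 := 0, tp := 0, tm := 0, fuel := 0, hasPair := false,
    rects := [(4939213391, RectKind.iso 87)] },
  { x2 := 381205142, f0 := 0, f1 := 0, f2 := 0, tp := 0, tm := 0, fuel := 0, hasPair := false,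
    rects := [(4939213391, RectKind.iso 87)] },
  { x2 := 411701554, f0 := 0, f1 := 0, f2 := 0, tp := 0, tm := 0, fuel := 0, hasPair := false,
    rects := [(4939213391, RectKind.iso 87)] },
  { x2 := 444637678, f0 := 0, f1 := 1233690265, f2 := 2511778795, tp := 695124523, tm := 0, fuel := 40, hasPair := true,
    rects := [(4939213391, RectKind.tan 51)] },
  { x2 := 480208692, f0 := 0, f1 := 1221056572, f2 := 2438455091, tp := 675235385, tm := 0, fuel := 40, hasPair := true,
    rects := [(4939213391, RectKind.tan 48)] },
  { x2 := 518625387, f0 := 0, f1 := 1208490296, f2 := 2363000181, tp := 653403315, tm := 0, fuel := 40, hasPair := true,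
    rects := [(4939213391, RectKind.tan 45)] },
  { x2 := 560115418, f0 := 0, f1 := 1195982475, f2 := 2285428404, tp := 629523784, tm := 0, fuel := 40, hasPair := true,
    rects := [(4939213391, RectKind.tan 43)] },
  { x2 := 604924652, f0 := 0, f1 := 1182814149, f2 := 2184213090, tp := 550842660, tm := 0, fuel := 40, hasPair := true,
    rects := [(4939213391, RectKind.tan 40)] },
  { x2 := 653318624, f0 := 0, f1 := 1170176484, f2 := 2101871177, tp := 522099006, tm := 0, fuel := 40, hasPair := true,
    rects := [(4939213391, RectKind.tan 38)] },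
  { x2 := 705584114, f0 := 0, f1 := 1157471741, f2 := 2017573330, tp := 491366489, tm := 0, fuel := 40, hasPair := true,
    rects := [(4939213391, RectKind.tan 36)] },
  { x2 := 762030843, f0 := 0, f1 := 1143255221, f2 := 1899643048, tp := 402220338, tm := 0, fuel := 40, hasPair := true,
    rects := [(4939213391, RectKind.tan 33)] },
  { x2 := 822993310, f0 := 0, f1 := 1130099788, f2 := 1811690644, tp := 368134004, tm := 0, fuel := 40, hasPair := true,
    rects := [(4939213391, RectKind.tan 31)] },
  { x2 := 888832775, f0 := 0, f1 := 1114322262, f2 := 1680042328, tp := 274479546, tm := 0, fuel := 40, hasPair := true,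
    rects := [(4939213391, RectKind.tan 29)] },
  { x2 := 959939397, f0 := 0, f1 := 1100333795, f2 := 1589816532, tp := 238921595, tm := 0, fuel := 40, hasPair := true,
    rects := [(4939213391, RectKind.tan 26)] },
  { x2 := 1036734549, f0 := 0, f1 := 1082486112, f2 := 1446289695, tp := 144061509, tm := 0, fuel := 40, hasPair := true,
    rects := [(4939213391, RectKind.tan 24)] },
  { x2 := 1119673313, f0 := 0, f1 := 1067288984, f2 := 1355804047, tp := 109165417, tm := 0, fuel := 40, hasPair := true,
    rects := [(4939213391, RectKind.tan 22)] },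
  { x2 := 1209247178, f0 := 0, f1 := 1046459734, f2 := 1201720215, tp := 16010907, tm := 0, fuel := 40, hasPair := true,
    rects := [(4939213391, RectKind.tan 19)] },
  { x2 := 1305986952, f0 := 0, f1 := 1024624324, f2 := 1040127224, tp := 0, tm := 76430069, fuel := 40, hasPair := true,
    rects := [(4939213391, RectKind.tan 17)] },
  { x2 := 1410465908, f0 := 0, f1 := 1010612491, f2 := 893064799, tp := 0, tm := 168214109, fuel := 40, hasPair := true,
    rects := [(4939213391, RectKind.tan 14)] },
  { x2 := 1523303181, f0 := 0, f1 := 1006146626, f2 := 765910126, tp := 0, tm := 258338003, fuel := 40, hasPair := true,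
    rects := [(4939213391, RectKind.tan 12)] },
  { x2 := 1645167435, f0 := 0, f1 := 958398110, f2 := 631650980, tp := 0, tm := 317390777, fuel := 40, hasPair := true,
    rects := [(4939213391, RectKind.tan 8)] },
  { x2 := 1713477203, f0 := 0, f1 := 913563540, f2 := 498029169, tp := 0, tm := 386705779, fuel := 40, hasPair := true,
    rects := [(4939213391, RectKind.tan 7)] }] }

theorem cert_K10_2_ok : cert_K10_2.check = true := by decide +kernel

end Vale.Agent.P226
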