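import Vale.Agent.P226.Assemble

/-!
# Numerical certificate 4 of the case K10
-/

namespace Vale.Agent.P226

/-- Certificate number 4. -/
def cert_K10_4 : Cert :=
  { o := { mu := 1202590842, L0 := 11995723932, L1 := 3358267256, e0 := 59890, F0 := 1538021827, Kc := 9, phiU := 1713444048 },
    K := 10, cK := 1076588647, invK := 429496730, Y := 1713477203, Smin := 5583457484, Smax := 6442450944, Xtop := 1713444132, Kmax := 10,
    strips := [
  { x2 := 893776, f0 := 0, f1 := 0, f2 := 0, tp := 0, tm := 0, fuel := 0, hasPair := false,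
    rects := [(6442451944, RectKind.iso 183)] },
  { x2 := 1340664, f0 := 0, f1 := 0, f2 := 0, tp := 0, tm := 0, fuel := 0, hasPair := false,
    rects := [(6442451944, RectKind.iso 183)] },
  { x2 := 2010996, f0 := 0, f1 := 0, f2 := 0, tp := 0, tm := 0, fuel := 0, hasPair := false,
    rects := [(6442451944, RectKind.iso 182)] },
  { x2 := 3016493, f0 := 0, f1 := 0, f2 := 0, tp := 0, tm := 0, fuel := 0, hasPair := false,
    rects := [(6442451944, RectKind.iso 181)] },
  { x2 := 4524740, f0 := 0, f1 := 0, f2 := 0, tp := 0, tm := 0, fuel := 0, hasPair := false,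
    rects := [(6442451944, RectKind.iso 179)] },
  { x2 := 6787109, f0 := 0, f1 := 0, f2 := 0, tp := 0, tm := 0, fuel := 0, hasPair := false,
    rects := [(6442451944, RectKind.iso 174)] },
  { x2 := 10180664, f0 := 0, f1 := 0, f2 := 0, tp := 0, tm := 0, fuel := 0, hasPair := false,
    rects := [(6442451944, RectKind.iso 166)] },
  { x2 := 15270995, f0 := 0, f1 := 0, f2 := 0, tp := 0, tm := 0, fuel := 0, hasPair := false,
    rects := [(6442451944, RectKind.iso 161)] },
  { x2 := 22906493, f0 := 0, f1 := 0, f2 := 0, tp := 0, tm := 0, fuel := 0, hasPair := false,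
    rects := [(6442451944, RectKind.iso 152)] },
  { x2 := 34359739, f0 := 0, f1 := 0, f2 := 0, tp := 0, tm := 0, fuel := 0, hasPair := false,
    rects := [(6442451944, RectKind.iso 146)] },
  { x2 := 51539608, f0 := 0, f1 := 0, f2 := 0, tp := 0, tm := 0, fuel := 0, hasPair := false,
    rects := [(6442451944, RectKind.iso 139)] },
  { x2 := 55662777, f0 := 0, f1 := 0, f2 := 0, tp := 0, tm := 0, fuel := 0, hasPair := false,
    rects := [(6442451944, RectKind.iso 132)] },
  { x2 := 60115799, f0 := 0, f1 := 0, f2 := 0, tp := 0, tm := 0, fuel := 0, hasPair := false,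
    rects := [(6442451944, RectKind.iso 130)] },
  { x2 := 64925063, f0 := 0, f1 := 0, f2 := 0, tp := 0, tm := 0, fuel := 0, hasPair := false,
    rects := [(6442451944, RectKind.iso 128)] },
  { x2 := 70119068, f0 := 0, f1 := 0, f2 := 0, tp := 0, tm := 0, fuel := 0, hasPair := false,
    rects := [(6442451944, RectKind.iso 126)] },
  { x2 := 75728593, f0 := 0, f1 := 0, f2 := 0, tp := 0, tm := 0, fuel := 0, hasPair := false,
    rects := [(6442451944, RectKind.iso 124)] },
  { x2 := 81786880, f0 := 0, f1 := 0, f2 := 0, tp := 0, tm := 0, fuel := 0, hasPair := false,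
    rects := [(6442451944, RectKind.iso 122)] },
  { x2 := 88329831, f0 := 0, f1 := 0, f2 := 0, tp := 0, tm := 0, fuel := 0, hasPair := false,
    rects := [(6442451944, RectKind.iso 120)] },
  { x2 := 95396217, f0 := 0, f1 := 0, f2 := 0, tp := 0, tm := 0, fuel := 0, hasPair := false,
    rects := [(6442451944, RectKind.iso 118)] },
  { x2 := 103027914, f0 := 0, f1 := 0, f2 := 0, tp := 0, tm := 0, fuel := 0, hasPair := false,
    rects := [(6442451944, RectKind.iso 115)] },
  { x2 := 111270148, f0 := 0, f1 := 0, f2 := 0, tp := 0, tm := 0, fuel := 0, hasPair := false,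
    rects := [(6442451944, RectKind.iso 113)] },
  { x2 := 120171759, f0 := 0, f1 := 0, f2 := 0, tp := 0, tm := 0, fuel := 0, hasPair := false,
    rects := [(6442451944, RectKind.iso 111)] },
  { x2 := 129785500, f0 := 0, f1 := 0, f2 := 0, tp := 0, tm := 0, fuel := 0, hasPair := false,
    rects := [(6442451944, RectKind.iso 109)] },
  { x2 := 140168340, f0 := 0, f1 := 0, f2 := 0, tp := 0, tm := 0, fuel := 0, hasPair := false,
    rects := [(6442451944, RectKind.iso 107)] },
  { x2 := 151381807, f0 := 0, f1 := 0, f2 := 0, tp := 0, tm := 0, fuel := 0, hasPair := false,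
    rects := [(6442451944, RectKind.iso 105)] },
  { x2 := 163492352, f0 := 0, f1 := 0, f2 := 0, tp := 0, tm := 0, fuel := 0, hasPair := false,
    rects := [(6442451944, RectKind.iso 103)] },
  { x2 := 176571740, f0 := 0, f1 := 0, f2 := 0, tp := 0, tm := 0, fuel := 0, hasPair := false,
    rects := [(6442451944, RectKind.iso 101)] },
  { x2 := 190697479, f0 := 0, f1 := 0, f2 := 0, tp := 0, tm := 0, fuel := 0, hasPair := false,
    rects := [(6442451944, RectKind.iso 99)] },
  { x2 := 205953277, f0 := 0, f1 := 0, f2 := 0, tp := 0, tm := 0, fuel := 0, hasPair := false,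
    rects := [(6442451944, RectKind.iso 97)] },
  { x2 := 222429539, f0 := 0, f1 := 0, f2 := 0, tp := 0, tm := 0, fuel := 0, hasPair := false,
    rects := [(6442451944, RectKind.iso 94)] },
  { x2 := 240223903, f0 := 0, f1 := 0, f2 := 0, tp := 0, tm := 0, fuel := 0, hasPair := false,
    rects := [(6442451944, RectKind.iso 92)] },
  { x2 := 259441815, f0 := 0, f1 := 0, f2 := 0, tp := 0, tm := 0, fuel := 0, hasPair := false,
    rects := [(6442451944, RectKind.iso 90)] },
  { x2 := 280197160, f0 := 0, f1 := 0, f2 := 0, tp := 0, tm := 0, fuel := 0, hasPair := false,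
    rects := [(6442451944, RectKind.iso 88)] },
  { x2 := 302612933, f0 := 0, f1 := 0, f2 := 0, tp := 0, tm := 0, fuel := 0, hasPair := false,
    rects := [(6442451944, RectKind.iso 86)] },
  { x2 := 326821967, f0 := 0, f1 := 0, f2 := 0, tp := 0, tm := 0, fuel := 0, hasPair := false,
    rects := [(6442451944, RectKind.iso 84)] },
  { x2 := 352967724, f0 := 0, f1 := 0, f2 := 0, tp := 0, tm := 0, fuel := 0, hasPair := false,
    rects := [(6442451944, RectKind.iso 83)] },
  { x2 := 381205142, f0 := 0, f1 := 0, f2 := 0, tp := 0, tm := 0, fuel := 0, hasPair := false,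
    rects := [(6442451944, RectKind.iso 81)] },
  { x2 := 411701554, f0 := 0, f1 := 0, f2 := 0, tp := 0, tm := 0, fuel := 0, hasPair := false,
    rects := [(6442451944, RectKind.iso 79)] },
  { x2 := 444637678, f0 := 0, f1 := 0, f2 := 0, tp := 0, tm := 0, fuel := 0, hasPair := false,
    rects := [(6442451944, RectKind.iso 77)] },
  { x2 := 480208692, f0 := 0, f1 := 0, f2 := 0, tp := 0, tm := 0, fuel := 0, hasPair := false,
    rects := [(6442451944, RectKind.iso 76)] },
  { x2 := 518625387, f0 := 0, f1 := 0, f2 := 0, tp := 0, tm := 0, fuel := 0, hasPair := false,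
    rects := [(6442451944, RectKind.iso 75)] },
  { x2 := 560115418, f0 := 0, f1 := 0, f2 := 0, tp := 0, tm := 0, fuel := 0, hasPair := false,
    rects := [(6442451944, RectKind.iso 74)] },
  { x2 := 604924652, f0 := 6727969, f1 := 1029440088, f2 := 1842034403, tp := 550842660, tm := 0, fuel := 40, hasPair := true,
    rects := [(6012954714, RectKind.tan 72), (6442451944, RectKind.iso 69)] },
  { x2 := 653318624, f0 := 5066443, f1 := 1056235138, f2 := 1848095971, tp := 522099006, tm := 0, fuel := 40, hasPair := true,
    rects := [(6012954714, RectKind.tan 68), (6442451944, RectKind.iso 68)] },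
  { x2 := 705584114, f0 := 4835085, f1 := 1054080523, f2 := 1760397931, tp := 434733071, tm := 0, fuel := 40, hasPair := true,
    rects := [(6442451944, RectKind.tan 71)] },
  { x2 := 762030843, f0 := 3919518, f1 := 1064336421, f2 := 1726450007, tp := 402220338, tm := 0, fuel := 40, hasPair := true,
    rects := [(6442451944, RectKind.tan 64)] },
  { x2 := 822993310, f0 := 2815270, f1 := 1072832207, f2 := 1648845335, tp := 309113476, tm := 0, fuel := 40, hasPair := true,
    rects := [(6442451944, RectKind.tan 60)] },
  { x2 := 888832775, f0 := 1666460, f1 := 1082833753, f2 := 1611583013, tp := 274479546, tm := 0, fuel := 40, hasPair := true,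
    rects := [(6442451944, RectKind.tan 56)] },
  { x2 := 959939397, f0 := 1014086, f1 := 1078461589, f2 := 1496164752, tp := 178816977, tm := 0, fuel := 40, hasPair := true,
    rects := [(6442451944, RectKind.tan 51)] },
  { x2 := 1036734549, f0 := 233069, f1 := 1078247878, f2 := 1437130433, tp := 144061509, tm := 0, fuel := 40, hasPair := true,
    rects := [(6442451944, RectKind.tan 47)] },
  { x2 := 1119673313, f0 := 0, f1 := 1062632278, f2 := 1291196107, tp := 48827894, tm := 0, fuel := 40, hasPair := true,
    rects := [(6442451944, RectKind.tan 42)] },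
  { x2 := 1209247178, f0 := 0, f1 := 1040959071, f2 := 1125403061, tp := 0, tm := 46352783, fuel := 40, hasPair := true,
    rects := [(6442451944, RectKind.tan 38)] },
  { x2 := 1305986952, f0 := 0, f1 := 974805356, f2 := 957689110, tp := 0, tm := 99682002, fuel := 40, hasPair := true,
    rects := [(6442451944, RectKind.tan 32)] },
  { x2 := 1410465908, f0 := 0, f1 := 961043394, f2 := 869227005, tp := 0, tm := 140424880, fuel := 40, hasPair := true,
    rects := [(6442451944, RectKind.tan 28)] },
  { x2 := 1523303181, f0 := 0, f1 := 915474055, f2 := 756415186, tp := 0, tm := 177862391, fuel := 40, hasPair := true,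
    rects := [(6442451944, RectKind.tan 23)] },
  { x2 := 1645167435, f0 := 0, f1 := 869155067, f2 := 629776714, tp := 0, tm := 233313226, fuel := 40, hasPair := true,
    rects := [(6442451944, RectKind.tan 19)] },
  { x2 := 1713477203, f0 := 0, f1 := 0, f2 := 0, tp := 0, tm := 0, fuel := 0, hasPair := false,
    rects := [(6442451944, RectKind.iso 4)] }] }

theorem cert_K10_4_ok : cert_K10_4.check = true := by decide +kernel

end Vale.Agent.P226
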