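import Vale.Agent.P226.Assemble

/-!
# Numerical certificate 5 of the case K10
-/

namespace Vale.Agent.P226

/-- Certificate number 5. -/
def cert_K10_5 : Cert :=
  { o := { mu := 1202590842, L0 := 11995723932, L1 := 3358267256, e0 := 59890, F0 := 1538021827, Kc := 9, phiU := 1713444048 },
    K := 10, cK := 1076588647, invK := 429496730, Y := 1713477203, Smin := 6442450944, Smax := 7516192768, Xtop := 1713444132, Kmax := 10,
    strips := [
  { x2 := 893776, f0 := 0, f1 := 0, f2 := 0, tp := 0, tm := 0, fuel := 0, hasPair := false,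
    rects := [(7516193768, RectKind.iso 183)] },
  { x2 := 1340664, f0 := 0, f1 := 0, f2 := 0, tp := 0, tm := 0, fuel := 0, hasPair := false,
    rects := [(7516193768, RectKind.iso 183)] },
  { x2 := 2010996, f0 := 0, f1 := 0, f2 := 0, tp := 0, tm := 0, fuel := 0, hasPair := false,
    rects := [(7516193768, RectKind.iso 182)] },
  { x2 := 3016493, f0 := 0, f1 := 0, f2 := 0, tp := 0, tm := 0, fuel := 0, hasPair := false,
    rects := [(7516193768, RectKind.iso 181)] },
  { x2 := 4524740, f0 := 0, f1 := 0, f2 := 0, tp := 0, tm := 0, fuel := 0, hasPair := false,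
    rects := [(7516193768, RectKind.iso 179)] },
  { x2 := 6787109, f0 := 0, f1 := 0, f2 := 0, tp := 0, tm := 0, fuel := 0, hasPair := false,
    rects := [(7516193768, RectKind.iso 173)] },
  { x2 := 10180664, f0 := 0, f1 := 0, f2 := 0, tp := 0, tm := 0, fuel := 0, hasPair := false,
    rects := [(7516193768, RectKind.iso 166)] },
  { x2 := 15270995, f0 := 0, f1 := 0, f2 := 0, tp := 0, tm := 0, fuel := 0, hasPair := false,
    rects := [(7516193768, RectKind.iso 160)] },
  { x2 := 22906493, f0 := 0, f1 := 0, f2 := 0, tp := 0, tm := 0, fuel := 0, hasPair := false,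
    rects := [(7516193768, RectKind.iso 152)] },
  { x2 := 34359739, f0 := 0, f1 := 0, f2 := 0, tp := 0, tm := 0, fuel := 0, hasPair := false,
    rects := [(7516193768, RectKind.iso 146)] },
  { x2 := 51539608, f0 := 0, f1 := 0, f2 := 0, tp := 0, tm := 0, fuel := 0, hasPair := false,
    rects := [(7516193768, RectKind.iso 139)] },
  { x2 := 55662777, f0 := 0, f1 := 0, f2 := 0, tp := 0, tm := 0, fuel := 0, hasPair := false,
    rects := [(7516193768, RectKind.iso 132)] },
  { x2 := 60115799, f0 := 0, f1 := 0, f2 := 0, tp := 0, tm := 0, fuel := 0, hasPair := false,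
    rects := [(7516193768, RectKind.iso 130)] },
  { x2 := 64925063, f0 := 0, f1 := 0, f2 := 0, tp := 0, tm := 0, fuel := 0, hasPair := false,
    rects := [(7516193768, RectKind.iso 128)] },
  { x2 := 70119068, f0 := 0, f1 := 0, f2 := 0, tp := 0, tm := 0, fuel := 0, hasPair := false,
    rects := [(7516193768, RectKind.iso 125)] },
  { x2 := 75728593, f0 := 0, f1 := 0, f2 := 0, tp := 0, tm := 0, fuel := 0, hasPair := false,
    rects := [(7516193768, RectKind.iso 123)] },
  { x2 := 81786880, f0 := 0, f1 := 0, f2 := 0, tp := 0, tm := 0, fuel := 0, hasPair := false,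
    rects := [(7516193768, RectKind.iso 121)] },
  { x2 := 88329831, f0 := 0, f1 := 0, f2 := 0, tp := 0, tm := 0, fuel := 0, hasPair := false,
    rects := [(7516193768, RectKind.iso 119)] },
  { x2 := 95396217, f0 := 0, f1 := 0, f2 := 0, tp := 0, tm := 0, fuel := 0, hasPair := false,
    rects := [(7516193768, RectKind.iso 117)] },
  { x2 := 103027914, f0 := 0, f1 := 0, f2 := 0, tp := 0, tm := 0, fuel := 0, hasPair := false,
    rects := [(7516193768, RectKind.iso 115)] },
  { x2 := 111270148, f0 := 0, f1 := 0, f2 := 0, tp := 0, tm := 0, fuel := 0, hasPair := false,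
    rects := [(7516193768, RectKind.iso 113)] },
  { x2 := 120171759, f0 := 0, f1 := 0, f2 := 0, tp := 0, tm := 0, fuel := 0, hasPair := false,
    rects := [(7516193768, RectKind.iso 110)] },
  { x2 := 129785500, f0 := 0, f1 := 0, f2 := 0, tp := 0, tm := 0, fuel := 0, hasPair := false,
    rects := [(7516193768, RectKind.iso 108)] },
  { x2 := 140168340, f0 := 0, f1 := 0, f2 := 0, tp := 0, tm := 0, fuel := 0, hasPair := false,
    rects := [(7516193768, RectKind.iso 106)] },
  { x2 := 151381807, f0 := 0, f1 := 0, f2 := 0, tp := 0, tm := 0, fuel := 0, hasPair := false,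
    rects := [(7516193768, RectKind.iso 104)] },
  { x2 := 163492352, f0 := 0, f1 := 0, f2 := 0, tp := 0, tm := 0, fuel := 0, hasPair := false,
    rects := [(7516193768, RectKind.iso 102)] },
  { x2 := 176571740, f0 := 0, f1 := 0, f2 := 0, tp := 0, tm := 0, fuel := 0, hasPair := false,
    rects := [(7516193768, RectKind.iso 100)] },
  { x2 := 190697479, f0 := 0, f1 := 0, f2 := 0, tp := 0, tm := 0, fuel := 0, hasPair := false,
    rects := [(7516193768, RectKind.iso 97)] },
  { x2 := 205953277, f0 := 0, f1 := 0, f2 := 0, tp := 0, tm := 0, fuel := 0, hasPair := false,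
    rects := [(7516193768, RectKind.iso 95)] },
  { x2 := 222429539, f0 := 0, f1 := 0, f2 := 0, tp := 0, tm := 0, fuel := 0, hasPair := false,
    rects := [(7516193768, RectKind.iso 93)] },
  { x2 := 240223903, f0 := 0, f1 := 0, f2 := 0, tp := 0, tm := 0, fuel := 0, hasPair := false,
    rects := [(7516193768, RectKind.iso 91)] },
  { x2 := 259441815, f0 := 0, f1 := 0, f2 := 0, tp := 0, tm := 0, fuel := 0, hasPair := false,
    rects := [(7516193768, RectKind.iso 89)] },
  { x2 := 280197160, f0 := 0, f1 := 0, f2 := 0, tp := 0, tm := 0, fuel := 0, hasPair := false,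
    rects := [(7516193768, RectKind.iso 87)] },
  { x2 := 302612933, f0 := 0, f1 := 0, f2 := 0, tp := 0, tm := 0, fuel := 0, hasPair := false,
    rects := [(7516193768, RectKind.iso 84)] },
  { x2 := 326821967, f0 := 0, f1 := 0, f2 := 0, tp := 0, tm := 0, fuel := 0, hasPair := false,
    rects := [(7516193768, RectKind.iso 82)] },
  { x2 := 352967724, f0 := 0, f1 := 0, f2 := 0, tp := 0, tm := 0, fuel := 0, hasPair := false,
    rects := [(7516193768, RectKind.iso 80)] },
  { x2 := 381205142, f0 := 0, f1 := 0, f2 := 0, tp := 0, tm := 0, fuel := 0, hasPair := false,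
    rects := [(7516193768, RectKind.iso 78)] },
  { x2 := 411701554, f0 := 0, f1 := 0, f2 := 0, tp := 0, tm := 0, fuel := 0, hasPair := false,
    rects := [(7516193768, RectKind.iso 76)] },
  { x2 := 444637678, f0 := 0, f1 := 0, f2 := 0, tp := 0, tm := 0, fuel := 0, hasPair := false,
    rects := [(7516193768, RectKind.iso 74)] },
  { x2 := 480208692, f0 := 0, f1 := 0, f2 := 0, tp := 0, tm := 0, fuel := 0, hasPair := false,
    rects := [(7516193768, RectKind.iso 72)] },
  { x2 := 518625387, f0 := 0, f1 := 0, f2 := 0, tp := 0, tm := 0, fuel := 0, hasPair := false,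
    rects := [(7516193768, RectKind.iso 70)] },
  { x2 := 560115418, f0 := 0, f1 := 0, f2 := 0, tp := 0, tm := 0, fuel := 0, hasPair := false,
    rects := [(7516193768, RectKind.iso 68)] },
  { x2 := 604924652, f0 := 0, f1 := 0, f2 := 0, tp := 0, tm := 0, fuel := 0, hasPair := false,
    rects := [(7516193768, RectKind.iso 66)] },
  { x2 := 653318624, f0 := 0, f1 := 0, f2 := 0, tp := 0, tm := 0, fuel := 0, hasPair := false,
    rects := [(7516193768, RectKind.iso 64)] },
  { x2 := 705584114, f0 := 0, f1 := 0, f2 := 0, tp := 0, tm := 0, fuel := 0, hasPair := false,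
    rects := [(7516193768, RectKind.iso 62)] },
  { x2 := 762030843, f0 := 0, f1 := 0, f2 := 0, tp := 0, tm := 0, fuel := 0, hasPair := false,
    rects := [(7516193768, RectKind.iso 61)] },
  { x2 := 822993310, f0 := 14687913, f1 := 907419412, f2 := 1261903637, tp := 246730437, tm := 0, fuel := 40, hasPair := true,
    rects := [(6576668797, RectKind.tan 68), (6710886650, RectKind.iso 58), (6979322356, RectKind.iso 56), (7516193768, RectKind.iso 54)] },
  { x2 := 888832775, f0 := 12733526, f1 := 920032501, f2 := 1169797559, tp := 148039056, tm := 0, fuel := 40, hasPair := true,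
    rects := [(6576668797, RectKind.tan 64), (6643777723, RectKind.tan 67), (6710886650, RectKind.iso 56), (6979322356, RectKind.iso 55), (7516193768, RectKind.iso 51)] },
  { x2 := 959939397, f0 := 10828205, f1 := 877011267, f2 := 992523640, tp := 44903083, tm := 0, fuel := 40, hasPair := true,
    rects := [(6979322356, RectKind.tan 59), (7516193768, RectKind.iso 49)] },
  { x2 := 1036734549, f0 := 10614251, f1 := 868034730, f2 := 886429280, tp := 0, tm := 15345486, fuel := 40, hasPair := true,
    rects := [(6979322356, RectKind.tan 54), (7516193768, RectKind.iso 46)] },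
  { x2 := 1119673313, f0 := 9437322, f1 := 878825053, f2 := 893029156, tp := 0, tm := 15345486, fuel := 40, hasPair := true,
    rects := [(6979322356, RectKind.tan 49), (7516193768, RectKind.iso 42)] },
  { x2 := 1209247178, f0 := 6934494, f1 := 896831485, f2 := 853596783, tp := 0, tm := 66100047, fuel := 40, hasPair := true,
    rects := [(6979322356, RectKind.tan 44), (7516193768, RectKind.iso 39)] },
  { x2 := 1305986952, f0 := 4954919, f1 := 909567083, f2 := 808142960, tp := 0, tm := 114886772, fuel := 40, hasPair := true,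
    rects := [(6979322356, RectKind.tan 40), (7516193768, RectKind.iso 33)] },
  { x2 := 1410465908, f0 := 3374267, f1 := 918645281, f2 := 761841431, tp := 0, tm := 160203914, fuel := 40, hasPair := true,
    rects := [(6710886650, RectKind.tan 34), (6979322356, RectKind.iso 32), (7516193768, RectKind.iso 26)] },
  { x2 := 1523303181, f0 := 1794934, f1 := 892834688, f2 := 710944608, tp := 0, tm := 177862391, fuel := 40, hasPair := true,
    rects := [(6979322356, RectKind.tan 30), (7516193768, RectKind.iso 21)] },
  { x2 := 1645167435, f0 := 0, f1 := 0, f2 := 0, tp := 0, tm := 0, fuel := 0, hasPair := false,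
    rects := [(7516193768, RectKind.iso 13)] },
  { x2 := 1713477203, f0 := 0, f1 := 0, f2 := 0, tp := 0, tm := 0, fuel := 0, hasPair := false,
    rects := [(7516193768, RectKind.iso 1)] }] }

theorem cert_K10_5_ok : cert_K10_5.check = true := by decide +kernel

end Vale.Agent.P226
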