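import Vale.Agent.P226.Assemble

/-!
# Numerical certificate 0 of the case K10
-/

namespace Vale.Agent.P226

/-- Certificate number 0. -/
def cert_K10_0 : Cert :=
  { o := { mu := 1460288880, L0 := 12015080637, L1 := 4077895954, e0 := 753051, F0 := 1538021827, Kc := 9, phiU := 1713444048 },
    K := 10, cK := 1076588647, invK := 429496730, Y := 1713477203, Smin := 0, Smax := 3650722202, Xtop := 1713444132, Kmax := 10,
    strips := [
  { x2 := 893776, f0 := 0, f1 := 0, f2 := 0, tp := 0, tm := 0, fuel := 0, hasPair := false,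
    rects := [(3650723202, RectKind.inf)] },
  { x2 := 1340664, f0 := 0, f1 := 0, f2 := 0, tp := 0, tm := 0, fuel := 0, hasPair := false,
    rects := [(3650723202, RectKind.inf)] },
  { x2 := 2010996, f0 := 0, f1 := 0, f2 := 0, tp := 0, tm := 0, fuel := 0, hasPair := false,
    rects := [(3650723202, RectKind.inf)] },
  { x2 := 3016493, f0 := 0, f1 := 0, f2 := 0, tp := 0, tm := 0, fuel := 0, hasPair := false,
    rects := [(3650723202, RectKind.inf)] },
  { x2 := 4524740, f0 := 0, f1 := 0, f2 := 0, tp := 0, tm := 0, fuel := 0, hasPair := false,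
    rects := [(3650723202, RectKind.inf)] },
  { x2 := 6787109, f0 := 0, f1 := 0, f2 := 0, tp := 0, tm := 0, fuel := 0, hasPair := false,
    rects := [(3650723202, RectKind.inf)] },
  { x2 := 10180664, f0 := 0, f1 := 0, f2 := 0, tp := 0, tm := 0, fuel := 0, hasPair := false,
    rects := [(3650723202, RectKind.inf)] },
  { x2 := 15270995, f0 := 0, f1 := 0, f2 := 0, tp := 0, tm := 0, fuel := 0, hasPair := false,
    rects := [(3650723202, RectKind.inf)] },
  { x2 := 22906493, f0 := 0, f1 := 0, f2 := 0, tp := 0, tm := 0, fuel := 0, hasPair := false,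
    rects := [(3650723202, RectKind.inf)] },
  { x2 := 34359739, f0 := 0, f1 := 0, f2 := 0, tp := 0, tm := 0, fuel := 0, hasPair := false,
    rects := [(3650723202, RectKind.inf)] },
  { x2 := 51539608, f0 := 0, f1 := 0, f2 := 0, tp := 0, tm := 0, fuel := 0, hasPair := false,
    rects := [(3650723202, RectKind.inf)] },
  { x2 := 55662777, f0 := 0, f1 := 0, f2 := 0, tp := 0, tm := 0, fuel := 0, hasPair := false,
    rects := [(3650723202, RectKind.inf)] },
  { x2 := 60115799, f0 := 0, f1 := 0, f2 := 0, tp := 0, tm := 0, fuel := 0, hasPair := false,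
    rects := [(3650723202, RectKind.inf)] },
  { x2 := 64925063, f0 := 0, f1 := 0, f2 := 0, tp := 0, tm := 0, fuel := 0, hasPair := false,
    rects := [(3650723202, RectKind.inf)] },
  { x2 := 70119068, f0 := 0, f1 := 0, f2 := 0, tp := 0, tm := 0, fuel := 0, hasPair := false,
    rects := [(3650723202, RectKind.inf)] },
  { x2 := 75728593, f0 := 0, f1 := 0, f2 := 0, tp := 0, tm := 0, fuel := 0, hasPair := false,
    rects := [(3650723202, RectKind.inf)] },
  { x2 := 81786880, f0 := 0, f1 := 0, f2 := 0, tp := 0, tm := 0, fuel := 0, hasPair := false,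
    rects := [(3650723202, RectKind.inf)] },
  { x2 := 88329831, f0 := 0, f1 := 0, f2 := 0, tp := 0, tm := 0, fuel := 0, hasPair := false,
    rects := [(3650723202, RectKind.inf)] },
  { x2 := 95396217, f0 := 0, f1 := 0, f2 := 0, tp := 0, tm := 0, fuel := 0, hasPair := false,
    rects := [(3650723202, RectKind.inf)] },
  { x2 := 103027914, f0 := 0, f1 := 0, f2 := 0, tp := 0, tm := 0, fuel := 0, hasPair := false,
    rects := [(3650723202, RectKind.inf)] },
  { x2 := 111270148, f0 := 0, f1 := 0, f2 := 0, tp := 0, tm := 0, fuel := 0, hasPair := false,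
    rects := [(3650723202, RectKind.inf)] },
  { x2 := 120171759, f0 := 0, f1 := 0, f2 := 0, tp := 0, tm := 0, fuel := 0, hasPair := false,
    rects := [(3650723202, RectKind.inf)] },
  { x2 := 129785500, f0 := 0, f1 := 0, f2 := 0, tp := 0, tm := 0, fuel := 0, hasPair := false,
    rects := [(3650723202, RectKind.inf)] },
  { x2 := 140168340, f0 := 0, f1 := 0, f2 := 0, tp := 0, tm := 0, fuel := 0, hasPair := false,
    rects := [(3650723202, RectKind.inf)] },
  { x2 := 151381807, f0 := 0, f1 := 0, f2 := 0, tp := 0, tm := 0, fuel := 0, hasPair := false,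
    rects := [(3650723202, RectKind.inf)] },
  { x2 := 163492352, f0 := 0, f1 := 0, f2 := 0, tp := 0, tm := 0, fuel := 0, hasPair := false,
    rects := [(3650723202, RectKind.inf)] },
  { x2 := 176571740, f0 := 0, f1 := 0, f2 := 0, tp := 0, tm := 0, fuel := 0, hasPair := false,
    rects := [(3650723202, RectKind.inf)] },
  { x2 := 190697479, f0 := 0, f1 := 0, f2 := 0, tp := 0, tm := 0, fuel := 0, hasPair := false,
    rects := [(3650723202, RectKind.inf)] },
  { x2 := 205953277, f0 := 0, f1 := 0, f2 := 0, tp := 0, tm := 0, fuel := 0, hasPair := false,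
    rects := [(3650723202, RectKind.inf)] },
  { x2 := 222429539, f0 := 0, f1 := 0, f2 := 0, tp := 0, tm := 0, fuel := 0, hasPair := false,
    rects := [(3650723202, RectKind.inf)] },
  { x2 := 240223903, f0 := 0, f1 := 0, f2 := 0, tp := 0, tm := 0, fuel := 0, hasPair := false,
    rects := [(3650723202, RectKind.inf)] },
  { x2 := 259441815, f0 := 0, f1 := 0, f2 := 0, tp := 0, tm := 0, fuel := 0, hasPair := false,
    rects := [(3650723202, RectKind.inf)] },
  { x2 := 280197160, f0 := 0, f1 := 0, f2 := 0, tp := 0, tm := 0, fuel := 0, hasPair := false,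
    rects := [(3650723202, RectKind.inf)] },
  { x2 := 302612933, f0 := 0, f1 := 0, f2 := 0, tp := 0, tm := 0, fuel := 0, hasPair := false,
    rects := [(3650723202, RectKind.inf)] },
  { x2 := 326821967, f0 := 0, f1 := 0, f2 := 0, tp := 0, tm := 0, fuel := 0, hasPair := false,
    rects := [(3650723202, RectKind.inf)] },
  { x2 := 352967724, f0 := 0, f1 := 0, f2 := 0, tp := 0, tm := 0, fuel := 0, hasPair := false,
    rects := [(3650723202, RectKind.inf)] },
  { x2 := 381205142, f0 := 0, f1 := 0, f2 := 0, tp := 0, tm := 0, fuel := 0, hasPair := false,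
    rects := [(3650723202, RectKind.inf)] },
  { x2 := 411701554, f0 := 0, f1 := 0, f2 := 0, tp := 0, tm := 0, fuel := 0, hasPair := false,
    rects := [(3650723202, RectKind.inf)] },
  { x2 := 444637678, f0 := 0, f1 := 0, f2 := 0, tp := 0, tm := 0, fuel := 0, hasPair := false,
    rects := [(3650723202, RectKind.inf)] },
  { x2 := 480208692, f0 := 0, f1 := 0, f2 := 0, tp := 0, tm := 0, fuel := 0, hasPair := false,
    rects := [(3650723202, RectKind.inf)] },
  { x2 := 518625387, f0 := 0, f1 := 0, f2 := 0, tp := 0, tm := 0, fuel := 0, hasPair := false,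
    rects := [(3650723202, RectKind.inf)] },
  { x2 := 560115418, f0 := 0, f1 := 0, f2 := 0, tp := 0, tm := 0, fuel := 0, hasPair := false,
    rects := [(3650723202, RectKind.inf)] },
  { x2 := 604924652, f0 := 0, f1 := 0, f2 := 0, tp := 0, tm := 0, fuel := 0, hasPair := false,
    rects := [(3650723202, RectKind.inf)] },
  { x2 := 653318624, f0 := 0, f1 := 0, f2 := 0, tp := 0, tm := 0, fuel := 0, hasPair := false,
    rects := [(3650723202, RectKind.inf)] },
  { x2 := 705584114, f0 := 0, f1 := 0, f2 := 0, tp := 0, tm := 0, fuel := 0, hasPair := false,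
    rects := [(3650723202, RectKind.inf)] },
  { x2 := 762030843, f0 := 0, f1 := 0, f2 := 0, tp := 0, tm := 0, fuel := 0, hasPair := false,
    rects := [(3650723202, RectKind.inf)] },
  { x2 := 822993310, f0 := 0, f1 := 0, f2 := 0, tp := 0, tm := 0, fuel := 0, hasPair := false,
    rects := [(3650723202, RectKind.inf)] },
  { x2 := 888832775, f0 := 0, f1 := 0, f2 := 0, tp := 0, tm := 0, fuel := 0, hasPair := false,
    rects := [(3650723202, RectKind.inf)] },
  { x2 := 959939397, f0 := 0, f1 := 0, f2 := 0, tp := 0, tm := 0, fuel := 0, hasPair := false,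
    rects := [(3650723202, RectKind.inf)] },
  { x2 := 1036734549, f0 := 0, f1 := 0, f2 := 0, tp := 0, tm := 0, fuel := 0, hasPair := false,
    rects := [(3650723202, RectKind.inf)] },
  { x2 := 1119673313, f0 := 0, f1 := 0, f2 := 0, tp := 0, tm := 0, fuel := 0, hasPair := false,
    rects := [(3650723202, RectKind.inf)] },
  { x2 := 1209247178, f0 := 0, f1 := 0, f2 := 0, tp := 0, tm := 0, fuel := 0, hasPair := false,
    rects := [(3650723202, RectKind.inf)] },
  { x2 := 1305986952, f0 := 0, f1 := 0, f2 := 0, tp := 0, tm := 0, fuel := 0, hasPair := false,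
    rects := [(3650723202, RectKind.inf)] },
  { x2 := 1410465908, f0 := 0, f1 := 0, f2 := 0, tp := 0, tm := 0, fuel := 0, hasPair := false,
    rects := [(3650723202, RectKind.inf)] },
  { x2 := 1523303181, f0 := 0, f1 := 0, f2 := 0, tp := 0, tm := 0, fuel := 0, hasPair := false,
    rects := [(3650723202, RectKind.inf)] },
  { x2 := 1645167435, f0 := 0, f1 := 0, f2 := 0, tp := 0, tm := 0, fuel := 0, hasPair := false,
    rects := [(3650723202, RectKind.inf)] },
  { x2 := 1713477203, f0 := 0, f1 := 0, f2 := 0, tp := 0, tm := 0, fuel := 0, hasPair := false,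
    rects := [(3650723202, RectKind.inf)] }] }

theorem cert_K10_0_ok : cert_K10_0.check = true := by decide +kernel

end Vale.Agent.P226
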