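import Vale.Agent.P226.Assemble

/-!
# Numerical certificate 1 of the case K11
-/

namespace Vale.Agent.P226

/-- Certificate number 1. -/
def cert_K11_1 : Cert :=
  { o := { mu := 601295421, L0 := 11994053075, L1 := 1679133628, e0 := 52, F0 := 1538021827, Kc := 10, phiU := 1713444048 },
    K := 11, cK := 978716952, invK := 390451573, Y := 1713477203, Smin := 3650722201, Smax := 4294967296, Xtop := 1713444132, Kmax := 11,
    strips := [
  { x2 := 893776, f0 := 0, f1 := 0, f2 := 0, tp := 0, tm := 0, fuel := 0, hasPair := false,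
    rects := [(4294968296, RectKind.iso 191)] },
  { x2 := 1340664, f0 := 0, f1 := 0, f2 := 0, tp := 0, tm := 0, fuel := 0, hasPair := false,
    rects := [(4294968296, RectKind.iso 173)] },
  { x2 := 2010996, f0 := 0, f1 := 0, f2 := 0, tp := 0, tm := 0, fuel := 0, hasPair := false,
    rects := [(4294968296, RectKind.iso 169)] },
  { x2 := 3016493, f0 := 0, f1 := 0, f2 := 0, tp := 0, tm := 0, fuel := 0, hasPair := false,
    rects := [(4294968296, RectKind.iso 165)] },
  { x2 := 4524740, f0 := 0, f1 := 0, f2 := 0, tp := 0, tm := 0, fuel := 0, hasPair := false,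
    rects := [(4294968296, RectKind.iso 160)] },
  { x2 := 6787109, f0 := 0, f1 := 0, f2 := 0, tp := 0, tm := 0, fuel := 0, hasPair := false,
    rects := [(4294968296, RectKind.iso 154)] },
  { x2 := 10180664, f0 := 0, f1 := 0, f2 := 0, tp := 0, tm := 0, fuel := 0, hasPair := false,
    rects := [(4294968296, RectKind.iso 150)] },
  { x2 := 15270995, f0 := 0, f1 := 0, f2 := 0, tp := 0, tm := 0, fuel := 0, hasPair := false,
    rects := [(4294968296, RectKind.iso 145)] },
  { x2 := 22906493, f0 := 0, f1 := 0, f2 := 0, tp := 0, tm := 0, fuel := 0, hasPair := false,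
    rects := [(4294968296, RectKind.iso 139)] },
  { x2 := 34359739, f0 := 0, f1 := 0, f2 := 0, tp := 0, tm := 0, fuel := 0, hasPair := false,
    rects := [(4294968296, RectKind.iso 134)] },
  { x2 := 51539608, f0 := 0, f1 := 0, f2 := 0, tp := 0, tm := 0, fuel := 0, hasPair := false,
    rects := [(4294968296, RectKind.iso 125)] },
  { x2 := 55662777, f0 := 0, f1 := 0, f2 := 0, tp := 0, tm := 0, fuel := 0, hasPair := false,
    rects := [(4294968296, RectKind.iso 115)] },
  { x2 := 60115799, f0 := 0, f1 := 0, f2 := 0, tp := 0, tm := 0, fuel := 0, hasPair := false,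
    rects := [(4294968296, RectKind.iso 113)] },
  { x2 := 64925063, f0 := 0, f1 := 0, f2 := 0, tp := 0, tm := 0, fuel := 0, hasPair := false,
    rects := [(4294968296, RectKind.iso 112)] },
  { x2 := 70119068, f0 := 0, f1 := 0, f2 := 0, tp := 0, tm := 0, fuel := 0, hasPair := false,
    rects := [(4294968296, RectKind.iso 110)] },
  { x2 := 75728593, f0 := 0, f1 := 0, f2 := 0, tp := 0, tm := 0, fuel := 0, hasPair := false,
    rects := [(4294968296, RectKind.iso 108)] },
  { x2 := 81786880, f0 := 0, f1 := 0, f2 := 0, tp := 0, tm := 0, fuel := 0, hasPair := false,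
    rects := [(4294968296, RectKind.iso 106)] },
  { x2 := 88329831, f0 := 0, f1 := 0, f2 := 0, tp := 0, tm := 0, fuel := 0, hasPair := false,
    rects := [(4294968296, RectKind.iso 104)] },
  { x2 := 95396217, f0 := 0, f1 := 0, f2 := 0, tp := 0, tm := 0, fuel := 0, hasPair := false,
    rects := [(4294968296, RectKind.iso 102)] },
  { x2 := 103027914, f0 := 0, f1 := 0, f2 := 0, tp := 0, tm := 0, fuel := 0, hasPair := false,
    rects := [(4294968296, RectKind.iso 100)] },
  { x2 := 111270148, f0 := 0, f1 := 0, f2 := 0, tp := 0, tm := 0, fuel := 0, hasPair := false,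
    rects := [(4294968296, RectKind.iso 98)] },
  { x2 := 120171759, f0 := 0, f1 := 0, f2 := 0, tp := 0, tm := 0, fuel := 0, hasPair := false,
    rects := [(4294968296, RectKind.iso 97)] },
  { x2 := 129785500, f0 := 0, f1 := 0, f2 := 0, tp := 0, tm := 0, fuel := 0, hasPair := false,
    rects := [(4294968296, RectKind.iso 95)] },
  { x2 := 140168340, f0 := 0, f1 := 0, f2 := 0, tp := 0, tm := 0, fuel := 0, hasPair := false,
    rects := [(4294968296, RectKind.iso 93)] },
  { x2 := 151381807, f0 := 0, f1 := 0, f2 := 0, tp := 0, tm := 0, fuel := 0, hasPair := false,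
    rects := [(4294968296, RectKind.iso 91)] },
  { x2 := 163492352, f0 := 0, f1 := 0, f2 := 0, tp := 0, tm := 0, fuel := 0, hasPair := false,
    rects := [(4294968296, RectKind.iso 89)] },
  { x2 := 176571740, f0 := 0, f1 := 0, f2 := 0, tp := 0, tm := 0, fuel := 0, hasPair := false,
    rects := [(4294968296, RectKind.iso 87)] },
  { x2 := 190697479, f0 := 0, f1 := 0, f2 := 0, tp := 0, tm := 0, fuel := 0, hasPair := false,
    rects := [(4294968296, RectKind.iso 85)] },
  { x2 := 205953277, f0 := 0, f1 := 0, f2 := 0, tp := 0, tm := 0, fuel := 0, hasPair := false,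
    rects := [(4294968296, RectKind.iso 83)] },
  { x2 := 222429539, f0 := 0, f1 := 0, f2 := 0, tp := 0, tm := 0, fuel := 0, hasPair := false,
    rects := [(4294968296, RectKind.iso 81)] },
  { x2 := 240223903, f0 := 0, f1 := 0, f2 := 0, tp := 0, tm := 0, fuel := 0, hasPair := false,
    rects := [(4294968296, RectKind.iso 80)] },
  { x2 := 259441815, f0 := 0, f1 := 0, f2 := 0, tp := 0, tm := 0, fuel := 0, hasPair := false,
    rects := [(4294968296, RectKind.iso 78)] },
  { x2 := 280197160, f0 := 0, f1 := 0, f2 := 0, tp := 0, tm := 0, fuel := 0, hasPair := false,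
    rects := [(4294968296, RectKind.iso 76)] },
  { x2 := 302612933, f0 := 0, f1 := 0, f2 := 0, tp := 0, tm := 0, fuel := 0, hasPair := false,
    rects := [(4294968296, RectKind.iso 74)] },
  { x2 := 326821967, f0 := 0, f1 := 0, f2 := 0, tp := 0, tm := 0, fuel := 0, hasPair := false,
    rects := [(4294968296, RectKind.iso 72)] },
  { x2 := 352967724, f0 := 0, f1 := 0, f2 := 0, tp := 0, tm := 0, fuel := 0, hasPair := false,
    rects := [(4294968296, RectKind.iso 70)] },
  { x2 := 381205142, f0 := 0, f1 := 0, f2 := 0, tp := 0, tm := 0, fuel := 0, hasPair := false,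
    rects := [(4294968296, RectKind.iso 69)] },
  { x2 := 411701554, f0 := 0, f1 := 0, f2 := 0, tp := 0, tm := 0, fuel := 0, hasPair := false,
    rects := [(4294968296, RectKind.iso 67)] },
  { x2 := 444637678, f0 := 0, f1 := 0, f2 := 0, tp := 0, tm := 0, fuel := 0, hasPair := false,
    rects := [(4294968296, RectKind.iso 65)] },
  { x2 := 480208692, f0 := 0, f1 := 0, f2 := 0, tp := 0, tm := 0, fuel := 0, hasPair := false,
    rects := [(4294968296, RectKind.iso 64)] },
  { x2 := 518625387, f0 := 0, f1 := 0, f2 := 0, tp := 0, tm := 0, fuel := 0, hasPair := false,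
    rects := [(4294968296, RectKind.iso 62)] },
  { x2 := 560115418, f0 := 0, f1 := 0, f2 := 0, tp := 0, tm := 0, fuel := 0, hasPair := false,
    rects := [(4294968296, RectKind.iso 61)] },
  { x2 := 604924652, f0 := 0, f1 := 0, f2 := 0, tp := 0, tm := 0, fuel := 0, hasPair := false,
    rects := [(4294968296, RectKind.iso 60)] },
  { x2 := 653318624, f0 := 0, f1 := 0, f2 := 0, tp := 0, tm := 0, fuel := 0, hasPair := false,
    rects := [(4294968296, RectKind.iso 59)] },
  { x2 := 705584114, f0 := 0, f1 := 0, f2 := 0, tp := 0, tm := 0, fuel := 0, hasPair := false,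
    rects := [(4294968296, RectKind.iso 60)] },
  { x2 := 762030843, f0 := 0, f1 := 0, f2 := 0, tp := 0, tm := 0, fuel := 0, hasPair := false,
    rects := [(3972845248, RectKind.inf), (4294968296, RectKind.iso 64)] },
  { x2 := 822993310, f0 := 0, f1 := 1046082404, f2 := 1669222963, tp := 346102430, tm := 0, fuel := 40, hasPair := true,
    rects := [(4294968296, RectKind.tan 16)] },
  { x2 := 888832775, f0 := 0, f1 := 1031933878, f2 := 1547586600, tp := 258937532, tm := 0, fuel := 40, hasPair := true,
    rects := [(4294968296, RectKind.tan 15)] },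
  { x2 := 959939397, f0 := 0, f1 := 1019464786, f2 := 1464555052, tp := 225954409, tm := 0, fuel := 40, hasPair := true,
    rects := [(4294968296, RectKind.tan 13)] },
  { x2 := 1036734549, f0 := 0, f1 := 1003408787, f2 := 1331676774, tp := 137519790, tm := 0, fuel := 40, hasPair := true,
    rects := [(4294968296, RectKind.tan 12)] },
  { x2 := 1119673313, f0 := 0, f1 := 989834803, f2 := 1248295993, tp := 105100929, tm := 0, fuel := 40, hasPair := true,
    rects := [(4294968296, RectKind.tan 11)] },
  { x2 := 1209247178, f0 := 0, f1 := 971028003, f2 := 1105337384, tp := 18067721, tm := 0, fuel := 40, hasPair := true,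
    rects := [(4294968296, RectKind.tan 9)] },
  { x2 := 1305986952, f0 := 0, f1 := 951250408, f2 := 955033337, tp := 0, tm := 68462110, fuel := 40, hasPair := true,
    rects := [(4294968296, RectKind.tan 8)] },
  { x2 := 1410465908, f0 := 0, f1 := 938794738, f2 := 818026851, tp := 0, tm := 154561625, fuel := 40, hasPair := true,
    rects := [(4294968296, RectKind.tan 6)] },
  { x2 := 1523303181, f0 := 0, f1 := 948262933, f2 := 650536634, tp := 0, tm := 298418327, fuel := 40, hasPair := true,
    rects := [(4294968296, RectKind.tan 4)] },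
  { x2 := 1645167435, f0 := 0, f1 := 961404564, f2 := 549857580, tp := 0, tm := 388220747, fuel := 40, hasPair := true,
    rects := [(4294968296, RectKind.tan 2)] },
  { x2 := 1713477203, f0 := 0, f1 := 993354961, f2 := 387137232, tp := 0, tm := 568341598, fuel := 40, hasPair := true,
    rects := [(4294968296, RectKind.tan 1)] }] }

theorem cert_K11_1_ok : cert_K11_1.check = true := by decide +kernel

end Vale.Agent.P226
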