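import Vale.Agent.P226.Assemble

/-!
# Numerical certificate 2 of the case K11
-/

namespace Vale.Agent.P226

/-- Certificate number 2. -/
def cert_K11_2 : Cert :=
  { o := { mu := 1202590842, L0 := 11995891174, L1 := 3358267256, e0 := 59890, F0 := 1538021827, Kc := 10, phiU := 1713444048 },
    K := 11, cK := 978716952, invK := 390451573, Y := 1713477203, Smin := 4294967296, Smax := 4939212391, Xtop := 1713444132, Kmax := 11,
    strips := [
  { x2 := 893776, f0 := 0, f1 := 0, f2 := 0, tp := 0, tm := 0, fuel := 0, hasPair := false,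
    rects := [(4939213391, RectKind.iso 183)] },
  { x2 := 1340664, f0 := 0, f1 := 0, f2 := 0, tp := 0, tm := 0, fuel := 0, hasPair := false,
    rects := [(4939213391, RectKind.iso 183)] },
  { x2 := 2010996, f0 := 0, f1 := 0, f2 := 0, tp := 0, tm := 0, fuel := 0, hasPair := false,
    rects := [(4939213391, RectKind.iso 182)] },
  { x2 := 3016493, f0 := 0, f1 := 0, f2 := 0, tp := 0, tm := 0, fuel := 0, hasPair := false,
    rects := [(4939213391, RectKind.iso 182)] },
  { x2 := 4524740, f0 := 0, f1 := 0, f2 := 0, tp := 0, tm := 0, fuel := 0, hasPair := false,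
    rects := [(4939213391, RectKind.iso 179)] },
  { x2 := 6787109, f0 := 0, f1 := 0, f2 := 0, tp := 0, tm := 0, fuel := 0, hasPair := false,
    rects := [(4939213391, RectKind.iso 174)] },
  { x2 := 10180664, f0 := 0, f1 := 0, f2 := 0, tp := 0, tm := 0, fuel := 0, hasPair := false,
    rects := [(4939213391, RectKind.iso 167)] },
  { x2 := 15270995, f0 := 0, f1 := 0, f2 := 0, tp := 0, tm := 0, fuel := 0, hasPair := false,
    rects := [(4939213391, RectKind.iso 161)] },
  { x2 := 22906493, f0 := 0, f1 := 0, f2 := 0, tp := 0, tm := 0, fuel := 0, hasPair := false,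
    rects := [(4939213391, RectKind.iso 153)] },
  { x2 := 34359739, f0 := 0, f1 := 0, f2 := 0, tp := 0, tm := 0, fuel := 0, hasPair := false,
    rects := [(4939213391, RectKind.iso 147)] },
  { x2 := 51539608, f0 := 0, f1 := 0, f2 := 0, tp := 0, tm := 0, fuel := 0, hasPair := false,
    rects := [(4939213391, RectKind.iso 140)] },
  { x2 := 55662777, f0 := 0, f1 := 0, f2 := 0, tp := 0, tm := 0, fuel := 0, hasPair := false,
    rects := [(4939213391, RectKind.iso 133)] },
  { x2 := 60115799, f0 := 0, f1 := 0, f2 := 0, tp := 0, tm := 0, fuel := 0, hasPair := false,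
    rects := [(4939213391, RectKind.iso 131)] },
  { x2 := 64925063, f0 := 0, f1 := 0, f2 := 0, tp := 0, tm := 0, fuel := 0, hasPair := false,
    rects := [(4939213391, RectKind.iso 129)] },
  { x2 := 70119068, f0 := 0, f1 := 0, f2 := 0, tp := 0, tm := 0, fuel := 0, hasPair := false,
    rects := [(4939213391, RectKind.iso 127)] },
  { x2 := 75728593, f0 := 0, f1 := 0, f2 := 0, tp := 0, tm := 0, fuel := 0, hasPair := false,
    rects := [(4939213391, RectKind.iso 125)] },
  { x2 := 81786880, f0 := 0, f1 := 0, f2 := 0, tp := 0, tm := 0, fuel := 0, hasPair := false,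
    rects := [(4939213391, RectKind.iso 123)] },
  { x2 := 88329831, f0 := 0, f1 := 0, f2 := 0, tp := 0, tm := 0, fuel := 0, hasPair := false,
    rects := [(4939213391, RectKind.iso 121)] },
  { x2 := 95396217, f0 := 0, f1 := 0, f2 := 0, tp := 0, tm := 0, fuel := 0, hasPair := false,
    rects := [(4939213391, RectKind.iso 119)] },
  { x2 := 103027914, f0 := 0, f1 := 0, f2 := 0, tp := 0, tm := 0, fuel := 0, hasPair := false,
    rects := [(4939213391, RectKind.iso 117)] },
  { x2 := 111270148, f0 := 0, f1 := 0, f2 := 0, tp := 0, tm := 0, fuel := 0, hasPair := false,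
    rects := [(4939213391, RectKind.iso 114)] },
  { x2 := 120171759, f0 := 0, f1 := 0, f2 := 0, tp := 0, tm := 0, fuel := 0, hasPair := false,
    rects := [(4939213391, RectKind.iso 112)] },
  { x2 := 129785500, f0 := 0, f1 := 0, f2 := 0, tp := 0, tm := 0, fuel := 0, hasPair := false,
    rects := [(4939213391, RectKind.iso 110)] },
  { x2 := 140168340, f0 := 0, f1 := 0, f2 := 0, tp := 0, tm := 0, fuel := 0, hasPair := false,
    rects := [(4939213391, RectKind.iso 108)] },
  { x2 := 151381807, f0 := 0, f1 := 0, f2 := 0, tp := 0, tm := 0, fuel := 0, hasPair := false,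
    rects := [(4939213391, RectKind.iso 106)] },
  { x2 := 163492352, f0 := 0, f1 := 0, f2 := 0, tp := 0, tm := 0, fuel := 0, hasPair := false,
    rects := [(4939213391, RectKind.iso 104)] },
  { x2 := 176571740, f0 := 0, f1 := 0, f2 := 0, tp := 0, tm := 0, fuel := 0, hasPair := false,
    rects := [(4939213391, RectKind.iso 103)] },
  { x2 := 190697479, f0 := 0, f1 := 0, f2 := 0, tp := 0, tm := 0, fuel := 0, hasPair := false,
    rects := [(4939213391, RectKind.iso 101)] },
  { x2 := 205953277, f0 := 0, f1 := 0, f2 := 0, tp := 0, tm := 0, fuel := 0, hasPair := false,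
    rects := [(4939213391, RectKind.iso 99)] },
  { x2 := 222429539, f0 := 0, f1 := 0, f2 := 0, tp := 0, tm := 0, fuel := 0, hasPair := false,
    rects := [(4939213391, RectKind.iso 97)] },
  { x2 := 240223903, f0 := 0, f1 := 0, f2 := 0, tp := 0, tm := 0, fuel := 0, hasPair := false,
    rects := [(4939213391, RectKind.iso 95)] },
  { x2 := 259441815, f0 := 0, f1 := 0, f2 := 0, tp := 0, tm := 0, fuel := 0, hasPair := false,
    rects := [(4939213391, RectKind.iso 93)] },
  { x2 := 280197160, f0 := 0, f1 := 0, f2 := 0, tp := 0, tm := 0, fuel := 0, hasPair := false,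
    rects := [(4939213391, RectKind.iso 92)] },
  { x2 := 302612933, f0 := 0, f1 := 0, f2 := 0, tp := 0, tm := 0, fuel := 0, hasPair := false,
    rects := [(4939213391, RectKind.iso 90)] },
  { x2 := 326821967, f0 := 0, f1 := 0, f2 := 0, tp := 0, tm := 0, fuel := 0, hasPair := false,
    rects := [(4939213391, RectKind.iso 89)] },
  { x2 := 352967724, f0 := 0, f1 := 0, f2 := 0, tp := 0, tm := 0, fuel := 0, hasPair := false,
    rects := [(4939213391, RectKind.iso 87)] },
  { x2 := 381205142, f0 := 0, f1 := 0, f2 := 0, tp := 0, tm := 0, fuel := 0, hasPair := false,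
    rects := [(4939213391, RectKind.iso 87)] },
  { x2 := 411701554, f0 := 0, f1 := 0, f2 := 0, tp := 0, tm := 0, fuel := 0, hasPair := false,
    rects := [(4939213391, RectKind.iso 87)] },
  { x2 := 444637678, f0 := 0, f1 := 1138485211, f2 := 2312334157, tp := 649347414, tm := 0, fuel := 40, hasPair := true,
    rects := [(4939213391, RectKind.tan 47)] },
  { x2 := 480208692, f0 := 0, f1 := 1127199788, f2 := 2245163286, tp := 630948385, tm := 0, fuel := 40, hasPair := true,
    rects := [(4939213391, RectKind.tan 44)] },
  { x2 := 518625387, f0 := 0, f1 := 1115991078, f2 := 2176027799, tp := 610751284, tm := 0, fuel := 40, hasPair := true,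
    rects := [(4939213391, RectKind.tan 42)] },
  { x2 := 560115418, f0 := 0, f1 := 1104836904, f2 := 2104903624, tp := 588659030, tm := 0, fuel := 40, hasPair := true,
    rects := [(4939213391, RectKind.tan 39)] },
  { x2 := 604924652, f0 := 0, f1 := 1093076434, f2 := 2011786414, tp := 515607620, tm := 0, fuel := 40, hasPair := true,
    rects := [(4939213391, RectKind.tan 37)] },
  { x2 := 653318624, f0 := 0, f1 := 1081817851, f2 := 1936212527, tp := 488999237, tm := 0, fuel := 40, hasPair := true,
    rects := [(4939213391, RectKind.tan 35)] },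
  { x2 := 705584114, f0 := 0, f1 := 1070505810, f2 := 1858809856, tp := 460546737, tm := 0, fuel := 40, hasPair := true,
    rects := [(4939213391, RectKind.tan 33)] },
  { x2 := 762030843, f0 := 0, f1 := 1057795061, f2 := 1750066235, tp := 377685844, tm := 0, fuel := 40, hasPair := true,
    rects := [(4939213391, RectKind.tan 30)] },
  { x2 := 822993310, f0 := 0, f1 := 1046082404, f2 := 1669222963, tp := 346102430, tm := 0, fuel := 40, hasPair := true,
    rects := [(4939213391, RectKind.tan 28)] },
  { x2 := 888832775, f0 := 0, f1 := 1031933878, f2 := 1547586600, tp := 258937532, tm := 0, fuel := 40, hasPair := true,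
    rects := [(4939213391, RectKind.tan 26)] },
  { x2 := 959939397, f0 := 0, f1 := 1019464786, f2 := 1464555052, tp := 225954409, tm := 0, fuel := 40, hasPair := true,
    rects := [(4939213391, RectKind.tan 24)] },
  { x2 := 1036734549, f0 := 0, f1 := 1003408787, f2 := 1331676774, tp := 137519790, tm := 0, fuel := 40, hasPair := true,
    rects := [(4939213391, RectKind.tan 22)] },
  { x2 := 1119673313, f0 := 0, f1 := 989834803, f2 := 1248295993, tp := 105100929, tm := 0, fuel := 40, hasPair := true,
    rects := [(4939213391, RectKind.tan 20)] },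
  { x2 := 1209247178, f0 := 0, f1 := 971028003, f2 := 1105337384, tp := 18067721, tm := 0, fuel := 40, hasPair := true,
    rects := [(4939213391, RectKind.tan 17)] },
  { x2 := 1305986952, f0 := 0, f1 := 951250408, f2 := 955033337, tp := 0, tm := 68462110, fuel := 40, hasPair := true,
    rects := [(4939213391, RectKind.tan 15)] },
  { x2 := 1410465908, f0 := 0, f1 := 938794738, f2 := 818026851, tp := 0, tm := 154561625, fuel := 40, hasPair := true,
    rects := [(4939213391, RectKind.tan 13)] },
  { x2 := 1523303181, f0 := 0, f1 := 935684330, f2 := 698583616, tp := 0, tm := 240697280, fuel := 40, hasPair := true,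
    rects := [(4939213391, RectKind.tan 11)] },
  { x2 := 1645167435, f0 := 0, f1 := 936637815, f2 := 605550897, tp := 0, tm := 309912134, fuel := 40, hasPair := true,
    rects := [(4939213391, RectKind.tan 8)] },
  { x2 := 1713477203, f0 := 0, f1 := 906898391, f2 := 482678771, tp := 0, tm := 384399285, fuel := 40, hasPair := true,
    rects := [(4939213391, RectKind.tan 6)] }] }

theorem cert_K11_2_ok : cert_K11_2.check = true := by decide +kernel

end Vale.Agent.P226
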