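import Vale.Agent.P226.Assemble

/-!
# Numerical certificate 3 of the case K11
-/

namespace Vale.Agent.P226

/-- Certificate number 3. -/
def cert_K11_3 : Cert :=
  { o := { mu := 1202590842, L0 := 11995891174, L1 := 3358267256, e0 := 59890, F0 := 1538021827, Kc := 10, phiU := 1713444048 },
    K := 11, cK := 978716952, invK := 390451573, Y := 1713477203, Smin := 4939212390, Smax := 5583457485, Xtop := 1713444132, Kmax := 11,
    strips := [
  { x2 := 893776, f0 := 0, f1 := 0, f2 := 0, tp := 0, tm := 0, fuel := 0, hasPair := false,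
    rects := [(5583458485, RectKind.iso 183)] },
  { x2 := 1340664, f0 := 0, f1 := 0, f2 := 0, tp := 0, tm := 0, fuel := 0, hasPair := false,
    rects := [(5583458485, RectKind.iso 183)] },
  { x2 := 2010996, f0 := 0, f1 := 0, f2 := 0, tp := 0, tm := 0, fuel := 0, hasPair := false,
    rects := [(5583458485, RectKind.iso 182)] },
  { x2 := 3016493, f0 := 0, f1 := 0, f2 := 0, tp := 0, tm := 0, fuel := 0, hasPair := false,
    rects := [(5583458485, RectKind.iso 182)] },
  { x2 := 4524740, f0 := 0, f1 := 0, f2 := 0, tp := 0, tm := 0, fuel := 0, hasPair := false,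
    rects := [(5583458485, RectKind.iso 179)] },
  { x2 := 6787109, f0 := 0, f1 := 0, f2 := 0, tp := 0, tm := 0, fuel := 0, hasPair := false,
    rects := [(5583458485, RectKind.iso 174)] },
  { x2 := 10180664, f0 := 0, f1 := 0, f2 := 0, tp := 0, tm := 0, fuel := 0, hasPair := false,
    rects := [(5583458485, RectKind.iso 166)] },
  { x2 := 15270995, f0 := 0, f1 := 0, f2 := 0, tp := 0, tm := 0, fuel := 0, hasPair := false,
    rects := [(5583458485, RectKind.iso 161)] },
  { x2 := 22906493, f0 := 0, f1 := 0, f2 := 0, tp := 0, tm := 0, fuel := 0, hasPair := false,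
    rects := [(5583458485, RectKind.iso 153)] },
  { x2 := 34359739, f0 := 0, f1 := 0, f2 := 0, tp := 0, tm := 0, fuel := 0, hasPair := false,
    rects := [(5583458485, RectKind.iso 147)] },
  { x2 := 51539608, f0 := 0, f1 := 0, f2 := 0, tp := 0, tm := 0, fuel := 0, hasPair := false,
    rects := [(5583458485, RectKind.iso 140)] },
  { x2 := 55662777, f0 := 0, f1 := 0, f2 := 0, tp := 0, tm := 0, fuel := 0, hasPair := false,
    rects := [(5583458485, RectKind.iso 133)] },
  { x2 := 60115799, f0 := 0, f1 := 0, f2 := 0, tp := 0, tm := 0, fuel := 0, hasPair := false,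
    rects := [(5583458485, RectKind.iso 130)] },
  { x2 := 64925063, f0 := 0, f1 := 0, f2 := 0, tp := 0, tm := 0, fuel := 0, hasPair := false,
    rects := [(5583458485, RectKind.iso 128)] },
  { x2 := 70119068, f0 := 0, f1 := 0, f2 := 0, tp := 0, tm := 0, fuel := 0, hasPair := false,
    rects := [(5583458485, RectKind.iso 126)] },
  { x2 := 75728593, f0 := 0, f1 := 0, f2 := 0, tp := 0, tm := 0, fuel := 0, hasPair := false,
    rects := [(5583458485, RectKind.iso 124)] },
  { x2 := 81786880, f0 := 0, f1 := 0, f2 := 0, tp := 0, tm := 0, fuel := 0, hasPair := false,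
    rects := [(5583458485, RectKind.iso 122)] },
  { x2 := 88329831, f0 := 0, f1 := 0, f2 := 0, tp := 0, tm := 0, fuel := 0, hasPair := false,
    rects := [(5583458485, RectKind.iso 120)] },
  { x2 := 95396217, f0 := 0, f1 := 0, f2 := 0, tp := 0, tm := 0, fuel := 0, hasPair := false,
    rects := [(5583458485, RectKind.iso 118)] },
  { x2 := 103027914, f0 := 0, f1 := 0, f2 := 0, tp := 0, tm := 0, fuel := 0, hasPair := false,
    rects := [(5583458485, RectKind.iso 116)] },
  { x2 := 111270148, f0 := 0, f1 := 0, f2 := 0, tp := 0, tm := 0, fuel := 0, hasPair := false,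
    rects := [(5583458485, RectKind.iso 114)] },
  { x2 := 120171759, f0 := 0, f1 := 0, f2 := 0, tp := 0, tm := 0, fuel := 0, hasPair := false,
    rects := [(5583458485, RectKind.iso 112)] },
  { x2 := 129785500, f0 := 0, f1 := 0, f2 := 0, tp := 0, tm := 0, fuel := 0, hasPair := false,
    rects := [(5583458485, RectKind.iso 110)] },
  { x2 := 140168340, f0 := 0, f1 := 0, f2 := 0, tp := 0, tm := 0, fuel := 0, hasPair := false,
    rects := [(5583458485, RectKind.iso 108)] },
  { x2 := 151381807, f0 := 0, f1 := 0, f2 := 0, tp := 0, tm := 0, fuel := 0, hasPair := false,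
    rects := [(5583458485, RectKind.iso 106)] },
  { x2 := 163492352, f0 := 0, f1 := 0, f2 := 0, tp := 0, tm := 0, fuel := 0, hasPair := false,
    rects := [(5583458485, RectKind.iso 104)] },
  { x2 := 176571740, f0 := 0, f1 := 0, f2 := 0, tp := 0, tm := 0, fuel := 0, hasPair := false,
    rects := [(5583458485, RectKind.iso 102)] },
  { x2 := 190697479, f0 := 0, f1 := 0, f2 := 0, tp := 0, tm := 0, fuel := 0, hasPair := false,
    rects := [(5583458485, RectKind.iso 100)] },
  { x2 := 205953277, f0 := 0, f1 := 0, f2 := 0, tp := 0, tm := 0, fuel := 0, hasPair := false,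
    rects := [(5583458485, RectKind.iso 98)] },
  { x2 := 222429539, f0 := 0, f1 := 0, f2 := 0, tp := 0, tm := 0, fuel := 0, hasPair := false,
    rects := [(5583458485, RectKind.iso 96)] },
  { x2 := 240223903, f0 := 0, f1 := 0, f2 := 0, tp := 0, tm := 0, fuel := 0, hasPair := false,
    rects := [(5583458485, RectKind.iso 94)] },
  { x2 := 259441815, f0 := 0, f1 := 0, f2 := 0, tp := 0, tm := 0, fuel := 0, hasPair := false,
    rects := [(5583458485, RectKind.iso 92)] },
  { x2 := 280197160, f0 := 0, f1 := 0, f2 := 0, tp := 0, tm := 0, fuel := 0, hasPair := false,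
    rects := [(5583458485, RectKind.iso 90)] },
  { x2 := 302612933, f0 := 0, f1 := 0, f2 := 0, tp := 0, tm := 0, fuel := 0, hasPair := false,
    rects := [(5583458485, RectKind.iso 88)] },
  { x2 := 326821967, f0 := 0, f1 := 0, f2 := 0, tp := 0, tm := 0, fuel := 0, hasPair := false,
    rects := [(5583458485, RectKind.iso 86)] },
  { x2 := 352967724, f0 := 0, f1 := 0, f2 := 0, tp := 0, tm := 0, fuel := 0, hasPair := false,
    rects := [(5583458485, RectKind.iso 85)] },
  { x2 := 381205142, f0 := 0, f1 := 0, f2 := 0, tp := 0, tm := 0, fuel := 0, hasPair := false,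
    rects := [(5583458485, RectKind.iso 83)] },
  { x2 := 411701554, f0 := 0, f1 := 0, f2 := 0, tp := 0, tm := 0, fuel := 0, hasPair := false,
    rects := [(5583458485, RectKind.iso 82)] },
  { x2 := 444637678, f0 := 0, f1 := 0, f2 := 0, tp := 0, tm := 0, fuel := 0, hasPair := false,
    rects := [(5583458485, RectKind.iso 81)] },
  { x2 := 480208692, f0 := 0, f1 := 0, f2 := 0, tp := 0, tm := 0, fuel := 0, hasPair := false,
    rects := [(5583458485, RectKind.iso 81)] },
  { x2 := 518625387, f0 := 866111, f1 := 1082995587, f2 := 2098762302, tp := 610751284, tm := 0, fuel := 40, hasPair := true,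
    rects := [(5583458485, RectKind.tan 62)] },
  { x2 := 560115418, f0 := 506793, f1 := 1085743478, f2 := 2042067642, tp := 540360069, tm := 0, fuel := 40, hasPair := true,
    rects := [(5583458485, RectKind.tan 59)] },
  { x2 := 604924652, f0 := 186818, f1 := 1086510199, f2 := 1996501115, tp := 515607620, tm := 0, fuel := 40, hasPair := true,
    rects := [(5583458485, RectKind.tan 55)] },
  { x2 := 653318624, f0 := 0, f1 := 1081817851, f2 := 1936212527, tp := 488999237, tm := 0, fuel := 40, hasPair := true,
    rects := [(5583458485, RectKind.tan 51)] },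
  { x2 := 705584114, f0 := 0, f1 := 1070505810, f2 := 1858809856, tp := 460546737, tm := 0, fuel := 40, hasPair := true,
    rects := [(5583458485, RectKind.tan 48)] },
  { x2 := 762030843, f0 := 0, f1 := 1057795061, f2 := 1750066235, tp := 377685844, tm := 0, fuel := 40, hasPair := true,
    rects := [(5583458485, RectKind.tan 44)] },
  { x2 := 822993310, f0 := 0, f1 := 1046082404, f2 := 1669222963, tp := 346102430, tm := 0, fuel := 40, hasPair := true,
    rects := [(5583458485, RectKind.tan 41)] },
  { x2 := 888832775, f0 := 0, f1 := 1031933878, f2 := 1547586600, tp := 258937532, tm := 0, fuel := 40, hasPair := true,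
    rects := [(5583458485, RectKind.tan 38)] },
  { x2 := 959939397, f0 := 0, f1 := 1019464786, f2 := 1464555052, tp := 225954409, tm := 0, fuel := 40, hasPair := true,
    rects := [(5583458485, RectKind.tan 35)] },
  { x2 := 1036734549, f0 := 0, f1 := 1003408787, f2 := 1331676774, tp := 137519790, tm := 0, fuel := 40, hasPair := true,
    rects := [(5583458485, RectKind.tan 31)] },
  { x2 := 1119673313, f0 := 0, f1 := 985474354, f2 := 1187798369, tp := 48602041, tm := 0, fuel := 40, hasPair := true,
    rects := [(5583458485, RectKind.tan 28)] },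
  { x2 := 1209247178, f0 := 0, f1 := 965869210, f2 := 1033763390, tp := 0, tm := 40420025, fuel := 40, hasPair := true,
    rects := [(5583458485, RectKind.tan 25)] },
  { x2 := 1305986952, f0 := 0, f1 := 951250408, f2 := 955033337, tp := 0, tm := 68462110, fuel := 40, hasPair := true,
    rects := [(5583458485, RectKind.tan 22)] },
  { x2 := 1410465908, f0 := 0, f1 := 938794738, f2 := 818026851, tp := 0, tm := 154561625, fuel := 40, hasPair := true,
    rects := [(5583458485, RectKind.tan 19)] },
  { x2 := 1523303181, f0 := 0, f1 := 931618531, f2 := 715807989, tp := 0, tm := 218822620, fuel := 40, hasPair := true,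
    rects := [(5583458485, RectKind.tan 17)] },
  { x2 := 1645167435, f0 := 0, f1 := 880692134, f2 := 613742798, tp := 0, tm := 247671179, fuel := 40, hasPair := true,
    rects := [(5583458485, RectKind.tan 13)] },
  { x2 := 1713477203, f0 := 0, f1 := 0, f2 := 0, tp := 0, tm := 0, fuel := 0, hasPair := false,
    rects := [(5583458485, RectKind.iso 8)] }] }

theorem cert_K11_3_ok : cert_K11_3.check = true := by decide +kernel

end Vale.Agent.P226
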