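import Vale.Agent.P226.Assemble

/-!
# Numerical certificate 4 of the case K11
-/

namespace Vale.Agent.P226

/-- Certificate number 4. -/
def cert_K11_4 : Cert :=
  { o := { mu := 1202590842, L0 := 11995891174, L1 := 3358267256, e0 := 59890, F0 := 1538021827, Kc := 10, phiU := 1713444048 },
    K := 11, cK := 978716952, invK := 390451573, Y := 1713477203, Smin := 5583457484, Smax := 6442450944, Xtop := 1713444132, Kmax := 11,
    strips := [
  { x2 := 893776, f0 := 0, f1 := 0, f2 := 0, tp := 0, tm := 0, fuel := 0, hasPair := false,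
    rects := [(6442451944, RectKind.iso 183)] },
  { x2 := 1340664, f0 := 0, f1 := 0, f2 := 0, tp := 0, tm := 0, fuel := 0, hasPair := false,
    rects := [(6442451944, RectKind.iso 183)] },
  { x2 := 2010996, f0 := 0, f1 := 0, f2 := 0, tp := 0, tm := 0, fuel := 0, hasPair := false,
    rects := [(6442451944, RectKind.iso 182)] },
  { x2 := 3016493, f0 := 0, f1 := 0, f2 := 0, tp := 0, tm := 0, fuel := 0, hasPair := false,
    rects := [(6442451944, RectKind.iso 181)] },
  { x2 := 4524740, f0 := 0, f1 := 0, f2 := 0, tp := 0, tm := 0, fuel := 0, hasPair := false,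
    rects := [(6442451944, RectKind.iso 179)] },
  { x2 := 6787109, f0 := 0, f1 := 0, f2 := 0, tp := 0, tm := 0, fuel := 0, hasPair := false,
    rects := [(6442451944, RectKind.iso 174)] },
  { x2 := 10180664, f0 := 0, f1 := 0, f2 := 0, tp := 0, tm := 0, fuel := 0, hasPair := false,
    rects := [(6442451944, RectKind.iso 166)] },
  { x2 := 15270995, f0 := 0, f1 := 0, f2 := 0, tp := 0, tm := 0, fuel := 0, hasPair := false,
    rects := [(6442451944, RectKind.iso 161)] },
  { x2 := 22906493, f0 := 0, f1 := 0, f2 := 0, tp := 0, tm := 0, fuel := 0, hasPair := false,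
    rects := [(6442451944, RectKind.iso 152)] },
  { x2 := 34359739, f0 := 0, f1 := 0, f2 := 0, tp := 0, tm := 0, fuel := 0, hasPair := false,
    rects := [(6442451944, RectKind.iso 146)] },
  { x2 := 51539608, f0 := 0, f1 := 0, f2 := 0, tp := 0, tm := 0, fuel := 0, hasPair := false,
    rects := [(6442451944, RectKind.iso 139)] },
  { x2 := 55662777, f0 := 0, f1 := 0, f2 := 0, tp := 0, tm := 0, fuel := 0, hasPair := false,
    rects := [(6442451944, RectKind.iso 132)] },
  { x2 := 60115799, f0 := 0, f1 := 0, f2 := 0, tp := 0, tm := 0, fuel := 0, hasPair := false,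
    rects := [(6442451944, RectKind.iso 130)] },
  { x2 := 64925063, f0 := 0, f1 := 0, f2 := 0, tp := 0, tm := 0, fuel := 0, hasPair := false,
    rects := [(6442451944, RectKind.iso 128)] },
  { x2 := 70119068, f0 := 0, f1 := 0, f2 := 0, tp := 0, tm := 0, fuel := 0, hasPair := false,
    rects := [(6442451944, RectKind.iso 126)] },
  { x2 := 75728593, f0 := 0, f1 := 0, f2 := 0, tp := 0, tm := 0, fuel := 0, hasPair := false,
    rects := [(6442451944, RectKind.iso 124)] },
  { x2 := 81786880, f0 := 0, f1 := 0, f2 := 0, tp := 0, tm := 0, fuel := 0, hasPair := false,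
    rects := [(6442451944, RectKind.iso 122)] },
  { x2 := 88329831, f0 := 0, f1 := 0, f2 := 0, tp := 0, tm := 0, fuel := 0, hasPair := false,
    rects := [(6442451944, RectKind.iso 120)] },
  { x2 := 95396217, f0 := 0, f1 := 0, f2 := 0, tp := 0, tm := 0, fuel := 0, hasPair := false,
    rects := [(6442451944, RectKind.iso 118)] },
  { x2 := 103027914, f0 := 0, f1 := 0, f2 := 0, tp := 0, tm := 0, fuel := 0, hasPair := false,
    rects := [(6442451944, RectKind.iso 115)] },
  { x2 := 111270148, f0 := 0, f1 := 0, f2 := 0, tp := 0, tm := 0, fuel := 0, hasPair := false,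
    rects := [(6442451944, RectKind.iso 113)] },
  { x2 := 120171759, f0 := 0, f1 := 0, f2 := 0, tp := 0, tm := 0, fuel := 0, hasPair := false,
    rects := [(6442451944, RectKind.iso 111)] },
  { x2 := 129785500, f0 := 0, f1 := 0, f2 := 0, tp := 0, tm := 0, fuel := 0, hasPair := false,
    rects := [(6442451944, RectKind.iso 109)] },
  { x2 := 140168340, f0 := 0, f1 := 0, f2 := 0, tp := 0, tm := 0, fuel := 0, hasPair := false,
    rects := [(6442451944, RectKind.iso 107)] },
  { x2 := 151381807, f0 := 0, f1 := 0, f2 := 0, tp := 0, tm := 0, fuel := 0, hasPair := false,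
    rects := [(6442451944, RectKind.iso 105)] },
  { x2 := 163492352, f0 := 0, f1 := 0, f2 := 0, tp := 0, tm := 0, fuel := 0, hasPair := false,
    rects := [(6442451944, RectKind.iso 103)] },
  { x2 := 176571740, f0 := 0, f1 := 0, f2 := 0, tp := 0, tm := 0, fuel := 0, hasPair := false,
    rects := [(6442451944, RectKind.iso 101)] },
  { x2 := 190697479, f0 := 0, f1 := 0, f2 := 0, tp := 0, tm := 0, fuel := 0, hasPair := false,
    rects := [(6442451944, RectKind.iso 99)] },
  { x2 := 205953277, f0 := 0, f1 := 0, f2 := 0, tp := 0, tm := 0, fuel := 0, hasPair := false,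
    rects := [(6442451944, RectKind.iso 97)] },
  { x2 := 222429539, f0 := 0, f1 := 0, f2 := 0, tp := 0, tm := 0, fuel := 0, hasPair := false,
    rects := [(6442451944, RectKind.iso 94)] },
  { x2 := 240223903, f0 := 0, f1 := 0, f2 := 0, tp := 0, tm := 0, fuel := 0, hasPair := false,
    rects := [(6442451944, RectKind.iso 92)] },
  { x2 := 259441815, f0 := 0, f1 := 0, f2 := 0, tp := 0, tm := 0, fuel := 0, hasPair := false,
    rects := [(6442451944, RectKind.iso 90)] },
  { x2 := 280197160, f0 := 0, f1 := 0, f2 := 0, tp := 0, tm := 0, fuel := 0, hasPair := false,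
    rects := [(6442451944, RectKind.iso 88)] },
  { x2 := 302612933, f0 := 0, f1 := 0, f2 := 0, tp := 0, tm := 0, fuel := 0, hasPair := false,
    rects := [(6442451944, RectKind.iso 86)] },
  { x2 := 326821967, f0 := 0, f1 := 0, f2 := 0, tp := 0, tm := 0, fuel := 0, hasPair := false,
    rects := [(6442451944, RectKind.iso 84)] },
  { x2 := 352967724, f0 := 0, f1 := 0, f2 := 0, tp := 0, tm := 0, fuel := 0, hasPair := false,
    rects := [(6442451944, RectKind.iso 83)] },
  { x2 := 381205142, f0 := 0, f1 := 0, f2 := 0, tp := 0, tm := 0, fuel := 0, hasPair := false,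
    rects := [(6442451944, RectKind.iso 81)] },
  { x2 := 411701554, f0 := 0, f1 := 0, f2 := 0, tp := 0, tm := 0, fuel := 0, hasPair := false,
    rects := [(6442451944, RectKind.iso 79)] },
  { x2 := 444637678, f0 := 0, f1 := 0, f2 := 0, tp := 0, tm := 0, fuel := 0, hasPair := false,
    rects := [(6442451944, RectKind.iso 77)] },
  { x2 := 480208692, f0 := 0, f1 := 0, f2 := 0, tp := 0, tm := 0, fuel := 0, hasPair := false,
    rects := [(6442451944, RectKind.iso 76)] },
  { x2 := 518625387, f0 := 0, f1 := 0, f2 := 0, tp := 0, tm := 0, fuel := 0, hasPair := false,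
    rects := [(6442451944, RectKind.iso 75)] },
  { x2 := 560115418, f0 := 0, f1 := 0, f2 := 0, tp := 0, tm := 0, fuel := 0, hasPair := false,
    rects := [(6442451944, RectKind.iso 74)] },
  { x2 := 604924652, f0 := 4110073, f1 := 990254120, f2 := 1779873440, tp := 515607620, tm := 0, fuel := 40, hasPair := true,
    rects := [(6442451944, RectKind.tan 72)] },
  { x2 := 653318624, f0 := 3852198, f1 := 991960405, f2 := 1735177384, tp := 488999237, tm := 0, fuel := 40, hasPair := true,
    rects := [(6442451944, RectKind.tan 68)] },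
  { x2 := 705584114, f0 := 3062061, f1 := 1000597378, f2 := 1676374580, tp := 407805934, tm := 0, fuel := 40, hasPair := true,
    rects := [(6442451944, RectKind.tan 64)] },
  { x2 := 762030843, f0 := 2006068, f1 := 1014292907, f2 := 1653627001, tp := 377685844, tm := 0, fuel := 40, hasPair := true,
    rects := [(6442451944, RectKind.tan 60)] },
  { x2 := 822993310, f0 := 1110662, f1 := 1022886035, f2 := 1618056776, tp := 346102430, tm := 0, fuel := 40, hasPair := true,
    rects := [(6442451944, RectKind.tan 56)] },
  { x2 := 888832775, f0 := 536643, f1 := 1021081533, f2 := 1523755629, tp := 258937532, tm := 0, fuel := 40, hasPair := true,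
    rects := [(6442451944, RectKind.tan 51)] },
  { x2 := 959939397, f0 := 140754, f1 := 1013698869, f2 := 1408754250, tp := 169793748, tm := 0, fuel := 40, hasPair := true,
    rects := [(6442451944, RectKind.tan 47)] },
  { x2 := 1036734549, f0 := 0, f1 := 1003408787, f2 := 1331676774, tp := 137519790, tm := 0, fuel := 40, hasPair := true,
    rects := [(6442451944, RectKind.tan 43)] },
  { x2 := 1119673313, f0 := 0, f1 := 985474354, f2 := 1187798369, tp := 48602041, tm := 0, fuel := 40, hasPair := true,
    rects := [(6442451944, RectKind.tan 39)] },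
  { x2 := 1209247178, f0 := 0, f1 := 965869210, f2 := 1033763390, tp := 0, tm := 40420025, fuel := 40, hasPair := true,
    rects := [(6442451944, RectKind.tan 35)] },
  { x2 := 1305986952, f0 := 0, f1 := 950220125, f2 := 922030605, tp := 0, tm := 95430780, fuel := 40, hasPair := true,
    rects := [(6442451944, RectKind.tan 31)] },
  { x2 := 1410465908, f0 := 0, f1 := 937372111, f2 := 836307899, tp := 0, tm := 135193381, fuel := 40, hasPair := true,
    rects := [(6442451944, RectKind.tan 27)] },
  { x2 := 1523303181, f0 := 0, f1 := 882518666, f2 := 718100156, tp := 0, tm := 169902686, fuel := 40, hasPair := true,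
    rects := [(6442451944, RectKind.tan 22)] },
  { x2 := 1645167435, f0 := 0, f1 := 879737363, f2 := 618956328, tp := 0, tm := 242153601, fuel := 40, hasPair := true,
    rects := [(6012954714, RectKind.tan 17), (6442451944, RectKind.iso 20)] },
  { x2 := 1713477203, f0 := 0, f1 := 0, f2 := 0, tp := 0, tm := 0, fuel := 0, hasPair := false,
    rects := [(6442451944, RectKind.iso 4)] }] }

theorem cert_K11_4_ok : cert_K11_4.check = true := by decide +kernel

end Vale.Agent.P226
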