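import Vale.Agent.P226.Assemble

/-!
# Numerical certificate 5 of the case K11
-/

namespace Vale.Agent.P226

/-- Certificate number 5. -/
def cert_K11_5 : Cert :=
  { o := { mu := 1116691496, L0 := 11994582485, L1 := 3118391024, e0 := 17286, F0 := 1538021827, Kc := 10, phiU := 1713444048 },
    K := 11, cK := 978716952, invK := 390451573, Y := 1713477203, Smin := 6442450944, Smax := 7516192768, Xtop := 1713444132, Kmax := 11,
    strips := [
  { x2 := 893776, f0 := 0, f1 := 0, f2 := 0, tp := 0, tm := 0, fuel := 0, hasPair := false,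
    rects := [(7516193768, RectKind.iso 188)] },
  { x2 := 1340664, f0 := 0, f1 := 0, f2 := 0, tp := 0, tm := 0, fuel := 0, hasPair := false,
    rects := [(7516193768, RectKind.iso 186)] },
  { x2 := 2010996, f0 := 0, f1 := 0, f2 := 0, tp := 0, tm := 0, fuel := 0, hasPair := false,
    rects := [(7516193768, RectKind.iso 185)] },
  { x2 := 3016493, f0 := 0, f1 := 0, f2 := 0, tp := 0, tm := 0, fuel := 0, hasPair := false,
    rects := [(7516193768, RectKind.iso 183)] },
  { x2 := 4524740, f0 := 0, f1 := 0, f2 := 0, tp := 0, tm := 0, fuel := 0, hasPair := false,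
    rects := [(7516193768, RectKind.iso 175)] },
  { x2 := 6787109, f0 := 0, f1 := 0, f2 := 0, tp := 0, tm := 0, fuel := 0, hasPair := false,
    rects := [(7516193768, RectKind.iso 168)] },
  { x2 := 10180664, f0 := 0, f1 := 0, f2 := 0, tp := 0, tm := 0, fuel := 0, hasPair := false,
    rects := [(7516193768, RectKind.iso 163)] },
  { x2 := 15270995, f0 := 0, f1 := 0, f2 := 0, tp := 0, tm := 0, fuel := 0, hasPair := false,
    rects := [(7516193768, RectKind.iso 155)] },
  { x2 := 22906493, f0 := 0, f1 := 0, f2 := 0, tp := 0, tm := 0, fuel := 0, hasPair := false,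
    rects := [(7516193768, RectKind.iso 150)] },
  { x2 := 34359739, f0 := 0, f1 := 0, f2 := 0, tp := 0, tm := 0, fuel := 0, hasPair := false,
    rects := [(7516193768, RectKind.iso 143)] },
  { x2 := 51539608, f0 := 0, f1 := 0, f2 := 0, tp := 0, tm := 0, fuel := 0, hasPair := false,
    rects := [(7516193768, RectKind.iso 136)] },
  { x2 := 55662777, f0 := 0, f1 := 0, f2 := 0, tp := 0, tm := 0, fuel := 0, hasPair := false,
    rects := [(7516193768, RectKind.iso 128)] },
  { x2 := 60115799, f0 := 0, f1 := 0, f2 := 0, tp := 0, tm := 0, fuel := 0, hasPair := false,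
    rects := [(7516193768, RectKind.iso 126)] },
  { x2 := 64925063, f0 := 0, f1 := 0, f2 := 0, tp := 0, tm := 0, fuel := 0, hasPair := false,
    rects := [(7516193768, RectKind.iso 124)] },
  { x2 := 70119068, f0 := 0, f1 := 0, f2 := 0, tp := 0, tm := 0, fuel := 0, hasPair := false,
    rects := [(7516193768, RectKind.iso 122)] },
  { x2 := 75728593, f0 := 0, f1 := 0, f2 := 0, tp := 0, tm := 0, fuel := 0, hasPair := false,
    rects := [(7516193768, RectKind.iso 120)] },
  { x2 := 81786880, f0 := 0, f1 := 0, f2 := 0, tp := 0, tm := 0, fuel := 0, hasPair := false,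
    rects := [(7516193768, RectKind.iso 118)] },
  { x2 := 88329831, f0 := 0, f1 := 0, f2 := 0, tp := 0, tm := 0, fuel := 0, hasPair := false,
    rects := [(7516193768, RectKind.iso 116)] },
  { x2 := 95396217, f0 := 0, f1 := 0, f2 := 0, tp := 0, tm := 0, fuel := 0, hasPair := false,
    rects := [(7516193768, RectKind.iso 114)] },
  { x2 := 103027914, f0 := 0, f1 := 0, f2 := 0, tp := 0, tm := 0, fuel := 0, hasPair := false,
    rects := [(7516193768, RectKind.iso 112)] },
  { x2 := 111270148, f0 := 0, f1 := 0, f2 := 0, tp := 0, tm := 0, fuel := 0, hasPair := false,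
    rects := [(7516193768, RectKind.iso 110)] },
  { x2 := 120171759, f0 := 0, f1 := 0, f2 := 0, tp := 0, tm := 0, fuel := 0, hasPair := false,
    rects := [(7516193768, RectKind.iso 107)] },
  { x2 := 129785500, f0 := 0, f1 := 0, f2 := 0, tp := 0, tm := 0, fuel := 0, hasPair := false,
    rects := [(7516193768, RectKind.iso 105)] },
  { x2 := 140168340, f0 := 0, f1 := 0, f2 := 0, tp := 0, tm := 0, fuel := 0, hasPair := false,
    rects := [(7516193768, RectKind.iso 103)] },
  { x2 := 151381807, f0 := 0, f1 := 0, f2 := 0, tp := 0, tm := 0, fuel := 0, hasPair := false,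
    rects := [(7516193768, RectKind.iso 101)] },
  { x2 := 163492352, f0 := 0, f1 := 0, f2 := 0, tp := 0, tm := 0, fuel := 0, hasPair := false,
    rects := [(7516193768, RectKind.iso 99)] },
  { x2 := 176571740, f0 := 0, f1 := 0, f2 := 0, tp := 0, tm := 0, fuel := 0, hasPair := false,
    rects := [(7516193768, RectKind.iso 97)] },
  { x2 := 190697479, f0 := 0, f1 := 0, f2 := 0, tp := 0, tm := 0, fuel := 0, hasPair := false,
    rects := [(7516193768, RectKind.iso 95)] },
  { x2 := 205953277, f0 := 0, f1 := 0, f2 := 0, tp := 0, tm := 0, fuel := 0, hasPair := false,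
    rects := [(7516193768, RectKind.iso 93)] },
  { x2 := 222429539, f0 := 0, f1 := 0, f2 := 0, tp := 0, tm := 0, fuel := 0, hasPair := false,
    rects := [(7516193768, RectKind.iso 91)] },
  { x2 := 240223903, f0 := 0, f1 := 0, f2 := 0, tp := 0, tm := 0, fuel := 0, hasPair := false,
    rects := [(7516193768, RectKind.iso 88)] },
  { x2 := 259441815, f0 := 0, f1 := 0, f2 := 0, tp := 0, tm := 0, fuel := 0, hasPair := false,
    rects := [(7516193768, RectKind.iso 86)] },
  { x2 := 280197160, f0 := 0, f1 := 0, f2 := 0, tp := 0, tm := 0, fuel := 0, hasPair := false,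
    rects := [(7516193768, RectKind.iso 84)] },
  { x2 := 302612933, f0 := 0, f1 := 0, f2 := 0, tp := 0, tm := 0, fuel := 0, hasPair := false,
    rects := [(7516193768, RectKind.iso 82)] },
  { x2 := 326821967, f0 := 0, f1 := 0, f2 := 0, tp := 0, tm := 0, fuel := 0, hasPair := false,
    rects := [(7516193768, RectKind.iso 80)] },
  { x2 := 352967724, f0 := 0, f1 := 0, f2 := 0, tp := 0, tm := 0, fuel := 0, hasPair := false,
    rects := [(7516193768, RectKind.iso 78)] },
  { x2 := 381205142, f0 := 0, f1 := 0, f2 := 0, tp := 0, tm := 0, fuel := 0, hasPair := false,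
    rects := [(7516193768, RectKind.iso 76)] },
  { x2 := 411701554, f0 := 0, f1 := 0, f2 := 0, tp := 0, tm := 0, fuel := 0, hasPair := false,
    rects := [(7516193768, RectKind.iso 74)] },
  { x2 := 444637678, f0 := 0, f1 := 0, f2 := 0, tp := 0, tm := 0, fuel := 0, hasPair := false,
    rects := [(7516193768, RectKind.iso 72)] },
  { x2 := 480208692, f0 := 0, f1 := 0, f2 := 0, tp := 0, tm := 0, fuel := 0, hasPair := false,
    rects := [(7516193768, RectKind.iso 70)] },
  { x2 := 518625387, f0 := 0, f1 := 0, f2 := 0, tp := 0, tm := 0, fuel := 0, hasPair := false,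
    rects := [(7516193768, RectKind.iso 68)] },
  { x2 := 560115418, f0 := 0, f1 := 0, f2 := 0, tp := 0, tm := 0, fuel := 0, hasPair := false,
    rects := [(7516193768, RectKind.iso 66)] },
  { x2 := 604924652, f0 := 0, f1 := 0, f2 := 0, tp := 0, tm := 0, fuel := 0, hasPair := false,
    rects := [(7516193768, RectKind.iso 64)] },
  { x2 := 653318624, f0 := 0, f1 := 0, f2 := 0, tp := 0, tm := 0, fuel := 0, hasPair := false,
    rects := [(7516193768, RectKind.iso 62)] },
  { x2 := 705584114, f0 := 0, f1 := 0, f2 := 0, tp := 0, tm := 0, fuel := 0, hasPair := false,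
    rects := [(7516193768, RectKind.iso 60)] },
  { x2 := 762030843, f0 := 0, f1 := 0, f2 := 0, tp := 0, tm := 0, fuel := 0, hasPair := false,
    rects := [(7516193768, RectKind.iso 59)] },
  { x2 := 822993310, f0 := 0, f1 := 0, f2 := 0, tp := 0, tm := 0, fuel := 0, hasPair := false,
    rects := [(7516193768, RectKind.iso 58)] },
  { x2 := 888832775, f0 := 6448617, f1 := 924801247, f2 := 1276478888, tp := 201644261, tm := 0, fuel := 40, hasPair := true,
    rects := [(6979322356, RectKind.tan 62), (7516193768, RectKind.iso 50)] },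
  { x2 := 959939397, f0 := 6746323, f1 := 908477897, f2 := 1134265043, tp := 110244930, tm := 0, fuel := 40, hasPair := true,
    rects := [(6979322356, RectKind.tan 58), (7516193768, RectKind.iso 48)] },
  { x2 := 1036734549, f0 := 7187192, f1 := 887473038, f2 := 973055726, tp := 17385074, tm := 0, fuel := 40, hasPair := true,
    rects := [(6979322356, RectKind.tan 53), (7516193768, RectKind.iso 46)] },
  { x2 := 1119673313, f0 := 5727705, f1 := 895004166, f2 := 917639523, tp := 0, tm := 28466155, fuel := 40, hasPair := true,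
    rects := [(6979322356, RectKind.tan 48), (7516193768, RectKind.iso 43)] },
  { x2 := 1209247178, f0 := 4069127, f1 := 904936655, f2 := 867106966, tp := 0, tm := 75427862, fuel := 40, hasPair := true,
    rects := [(6979322356, RectKind.tan 43), (7516193768, RectKind.iso 40)] },
  { x2 := 1305986952, f0 := 2310674, f1 := 917535814, f2 := 861725305, tp := 0, tm := 89133053, fuel := 40, hasPair := true,
    rects := [(6979322356, RectKind.tan 39), (7516193768, RectKind.iso 36)] },
  { x2 := 1410465908, f0 := 1300783, f1 := 874547350, f2 := 762837366, tp := 0, tm := 125412347, fuel := 40, hasPair := true,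
    rects := [(7516193768, RectKind.tan 35)] },
  { x2 := 1523303181, f0 := 636344, f1 := 873374454, f2 := 704379244, tp := 0, tm := 165290943, fuel := 40, hasPair := true,
    rects := [(6710886650, RectKind.tan 27), (6979322356, RectKind.iso 24), (7516193768, RectKind.iso 22)] },
  { x2 := 1645167435, f0 := 0, f1 := 0, f2 := 0, tp := 0, tm := 0, fuel := 0, hasPair := false,
    rects := [(7516193768, RectKind.iso 15)] },
  { x2 := 1713477203, f0 := 0, f1 := 0, f2 := 0, tp := 0, tm := 0, fuel := 0, hasPair := false,
    rects := [(7516193768, RectKind.iso 2)] }] }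

theorem cert_K11_5_ok : cert_K11_5.check = true := by decide +kernel

end Vale.Agent.P226
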