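import Vale.Agent.P226.DataK11_0
import Vale.Agent.P226.DataK11_1
import Vale.Agent.P226.DataK11_2
import Vale.Agent.P226.DataK11_3
import Vale.Agent.P226.DataK11_4
import Vale.Agent.P226.DataK11_5
import Vale.Agent.P226.DataK11_6
import Vale.Agent.P226.DataK11_7

/-!
# Numerical certificates for the bound on obtuse fixed points, case K11
-/

namespace Vale.Agent.P226

/-- The chain of certificates. -/
def certs_K11 : List Cert := [cert_K11_0, cert_K11_1, cert_K11_2, cert_K11_3, cert_K11_4, cert_K11_5, cert_K11_6, cert_K11_7]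

/-- The chain passes all checks. -/
theorem certs_K11_check : certsOK topV 11 11 0 certs_K11 = true :=
  certsOK_cons cert_K11_0_ok (by decide +kernel)
    (certsOK_cons cert_K11_1_ok (by decide +kernel)
    (certsOK_cons cert_K11_2_ok (by decide +kernel)
    (certsOK_cons cert_K11_3_ok (by decide +kernel)
    (certsOK_cons cert_K11_4_ok (by decide +kernel)
    (certsOK_cons cert_K11_5_ok (by decide +kernel)
    (certsOK_cons cert_K11_6_ok (by decide +kernel)
    (certsOK_cons cert_K11_7_ok (by decide +kernel)
    ((by decide +kernel : certsOK topV 11 11 cert_K11_7.Smax [] = true)))))))))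

/-- Bound for the obtuse fixed points in this range of the number of cells. -/
theorem obtuse_K11 {d k : ℕ} (hk1 : 11 ≤ k) (hk2 : k ≤ 11) {Z : Fin k → Euc d} (hZ : ObtuseFP Z) :
    ∑ i, ‖Z i‖ ^ 2 ≤ 9 / (8 * Real.pi) :=
  obtuse_of_chain (by norm_num) (by norm_num) hk1 hk2 certs_K11_check hZ

end Vale.Agent.P226
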