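import Vale.Agent.P226.Assemble

/-!
# Numerical certificate 2 of the case K12
-/

namespace Vale.Agent.P226

/-- Certificate number 2. -/
def cert_K12_2 : Cert :=
  { o := { mu := 1030792151, L0 := 11994186248, L1 := 2878514791, e0 := 4021, F0 := 1538021827, Kc := 11, phiU := 1713444048 },
    K := 12, cK := 897157206, invK := 357913942, Y := 1713477203, Smin := 4294967296, Smax := 4939212391, Xtop := 1713444132, Kmax := 12,
    strips := [
  { x2 := 893776, f0 := 0, f1 := 0, f2 := 0, tp := 0, tm := 0, fuel := 0, hasPair := false,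
    rects := [(4939213391, RectKind.iso 189)] },
  { x2 := 1340664, f0 := 0, f1 := 0, f2 := 0, tp := 0, tm := 0, fuel := 0, hasPair := false,
    rects := [(4939213391, RectKind.iso 185)] },
  { x2 := 2010996, f0 := 0, f1 := 0, f2 := 0, tp := 0, tm := 0, fuel := 0, hasPair := false,
    rects := [(4939213391, RectKind.iso 183)] },
  { x2 := 3016493, f0 := 0, f1 := 0, f2 := 0, tp := 0, tm := 0, fuel := 0, hasPair := false,
    rects := [(4939213391, RectKind.iso 176)] },
  { x2 := 4524740, f0 := 0, f1 := 0, f2 := 0, tp := 0, tm := 0, fuel := 0, hasPair := false,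
    rects := [(4939213391, RectKind.iso 170)] },
  { x2 := 6787109, f0 := 0, f1 := 0, f2 := 0, tp := 0, tm := 0, fuel := 0, hasPair := false,
    rects := [(4939213391, RectKind.iso 165)] },
  { x2 := 10180664, f0 := 0, f1 := 0, f2 := 0, tp := 0, tm := 0, fuel := 0, hasPair := false,
    rects := [(4939213391, RectKind.iso 159)] },
  { x2 := 15270995, f0 := 0, f1 := 0, f2 := 0, tp := 0, tm := 0, fuel := 0, hasPair := false,
    rects := [(4939213391, RectKind.iso 152)] },
  { x2 := 22906493, f0 := 0, f1 := 0, f2 := 0, tp := 0, tm := 0, fuel := 0, hasPair := false,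
    rects := [(4939213391, RectKind.iso 148)] },
  { x2 := 34359739, f0 := 0, f1 := 0, f2 := 0, tp := 0, tm := 0, fuel := 0, hasPair := false,
    rects := [(4939213391, RectKind.iso 141)] },
  { x2 := 51539608, f0 := 0, f1 := 0, f2 := 0, tp := 0, tm := 0, fuel := 0, hasPair := false,
    rects := [(4939213391, RectKind.iso 135)] },
  { x2 := 55662777, f0 := 0, f1 := 0, f2 := 0, tp := 0, tm := 0, fuel := 0, hasPair := false,
    rects := [(4939213391, RectKind.iso 126)] },
  { x2 := 60115799, f0 := 0, f1 := 0, f2 := 0, tp := 0, tm := 0, fuel := 0, hasPair := false,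
    rects := [(4939213391, RectKind.iso 124)] },
  { x2 := 64925063, f0 := 0, f1 := 0, f2 := 0, tp := 0, tm := 0, fuel := 0, hasPair := false,
    rects := [(4939213391, RectKind.iso 122)] },
  { x2 := 70119068, f0 := 0, f1 := 0, f2 := 0, tp := 0, tm := 0, fuel := 0, hasPair := false,
    rects := [(4939213391, RectKind.iso 120)] },
  { x2 := 75728593, f0 := 0, f1 := 0, f2 := 0, tp := 0, tm := 0, fuel := 0, hasPair := false,
    rects := [(4939213391, RectKind.iso 118)] },
  { x2 := 81786880, f0 := 0, f1 := 0, f2 := 0, tp := 0, tm := 0, fuel := 0, hasPair := false,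
    rects := [(4939213391, RectKind.iso 116)] },
  { x2 := 88329831, f0 := 0, f1 := 0, f2 := 0, tp := 0, tm := 0, fuel := 0, hasPair := false,
    rects := [(4939213391, RectKind.iso 114)] },
  { x2 := 95396217, f0 := 0, f1 := 0, f2 := 0, tp := 0, tm := 0, fuel := 0, hasPair := false,
    rects := [(4939213391, RectKind.iso 112)] },
  { x2 := 103027914, f0 := 0, f1 := 0, f2 := 0, tp := 0, tm := 0, fuel := 0, hasPair := false,
    rects := [(4939213391, RectKind.iso 110)] },
  { x2 := 111270148, f0 := 0, f1 := 0, f2 := 0, tp := 0, tm := 0, fuel := 0, hasPair := false,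
    rects := [(4939213391, RectKind.iso 108)] },
  { x2 := 120171759, f0 := 0, f1 := 0, f2 := 0, tp := 0, tm := 0, fuel := 0, hasPair := false,
    rects := [(4939213391, RectKind.iso 106)] },
  { x2 := 129785500, f0 := 0, f1 := 0, f2 := 0, tp := 0, tm := 0, fuel := 0, hasPair := false,
    rects := [(4939213391, RectKind.iso 104)] },
  { x2 := 140168340, f0 := 0, f1 := 0, f2 := 0, tp := 0, tm := 0, fuel := 0, hasPair := false,
    rects := [(4939213391, RectKind.iso 102)] },
  { x2 := 151381807, f0 := 0, f1 := 0, f2 := 0, tp := 0, tm := 0, fuel := 0, hasPair := false,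
    rects := [(4939213391, RectKind.iso 100)] },
  { x2 := 163492352, f0 := 0, f1 := 0, f2 := 0, tp := 0, tm := 0, fuel := 0, hasPair := false,
    rects := [(4939213391, RectKind.iso 98)] },
  { x2 := 176571740, f0 := 0, f1 := 0, f2 := 0, tp := 0, tm := 0, fuel := 0, hasPair := false,
    rects := [(4939213391, RectKind.iso 96)] },
  { x2 := 190697479, f0 := 0, f1 := 0, f2 := 0, tp := 0, tm := 0, fuel := 0, hasPair := false,
    rects := [(4939213391, RectKind.iso 94)] },
  { x2 := 205953277, f0 := 0, f1 := 0, f2 := 0, tp := 0, tm := 0, fuel := 0, hasPair := false,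
    rects := [(4939213391, RectKind.iso 92)] },
  { x2 := 222429539, f0 := 0, f1 := 0, f2 := 0, tp := 0, tm := 0, fuel := 0, hasPair := false,
    rects := [(4939213391, RectKind.iso 91)] },
  { x2 := 240223903, f0 := 0, f1 := 0, f2 := 0, tp := 0, tm := 0, fuel := 0, hasPair := false,
    rects := [(4939213391, RectKind.iso 89)] },
  { x2 := 259441815, f0 := 0, f1 := 0, f2 := 0, tp := 0, tm := 0, fuel := 0, hasPair := false,
    rects := [(4939213391, RectKind.iso 87)] },
  { x2 := 280197160, f0 := 0, f1 := 0, f2 := 0, tp := 0, tm := 0, fuel := 0, hasPair := false,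
    rects := [(4939213391, RectKind.iso 85)] },
  { x2 := 302612933, f0 := 0, f1 := 0, f2 := 0, tp := 0, tm := 0, fuel := 0, hasPair := false,
    rects := [(4939213391, RectKind.iso 83)] },
  { x2 := 326821967, f0 := 0, f1 := 0, f2 := 0, tp := 0, tm := 0, fuel := 0, hasPair := false,
    rects := [(4939213391, RectKind.iso 82)] },
  { x2 := 352967724, f0 := 0, f1 := 0, f2 := 0, tp := 0, tm := 0, fuel := 0, hasPair := false,
    rects := [(4939213391, RectKind.iso 80)] },
  { x2 := 381205142, f0 := 0, f1 := 0, f2 := 0, tp := 0, tm := 0, fuel := 0, hasPair := false,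
    rects := [(4939213391, RectKind.iso 78)] },
  { x2 := 411701554, f0 := 0, f1 := 0, f2 := 0, tp := 0, tm := 0, fuel := 0, hasPair := false,
    rects := [(4939213391, RectKind.iso 77)] },
  { x2 := 444637678, f0 := 0, f1 := 0, f2 := 0, tp := 0, tm := 0, fuel := 0, hasPair := false,
    rects := [(4939213391, RectKind.iso 76)] },
  { x2 := 480208692, f0 := 0, f1 := 0, f2 := 0, tp := 0, tm := 0, fuel := 0, hasPair := false,
    rects := [(4939213391, RectKind.iso 75)] },
  { x2 := 518625387, f0 := 0, f1 := 0, f2 := 0, tp := 0, tm := 0, fuel := 0, hasPair := false,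
    rects := [(4939213391, RectKind.iso 75)] },
  { x2 := 560115418, f0 := 0, f1 := 0, f2 := 0, tp := 0, tm := 0, fuel := 0, hasPair := false,
    rects := [(4939213391, RectKind.iso 80)] },
  { x2 := 604924652, f0 := 0, f1 := 1016689980, f2 := 1865826146, tp := 484813342, tm := 0, fuel := 40, hasPair := true,
    rects := [(4939213391, RectKind.tan 34)] },
  { x2 := 653318624, f0 := 0, f1 := 1006556230, f2 := 1795955145, tp := 460026947, tm := 0, fuel := 40, hasPair := true,
    rects := [(4939213391, RectKind.tan 32)] },
  { x2 := 705584114, f0 := 0, f1 := 996379470, f2 := 1724365997, tp := 433520264, tm := 0, fuel := 40, hasPair := true,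
    rects := [(4939213391, RectKind.tan 30)] },
  { x2 := 762030843, f0 := 0, f1 := 984900305, f2 := 1623417382, tp := 356065315, tm := 0, fuel := 40, hasPair := true,
    rects := [(4939213391, RectKind.tan 28)] },
  { x2 := 822993310, f0 := 0, f1 := 974363370, f2 := 1548577093, tp := 326621017, tm := 0, fuel := 40, hasPair := true,
    rects := [(4939213391, RectKind.tan 26)] },
  { x2 := 888832775, f0 := 0, f1 := 961550454, f2 := 1435464107, tp := 245052661, tm := 0, fuel := 40, hasPair := true,
    rects := [(4939213391, RectKind.tan 24)] },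
  { x2 := 959939397, f0 := 0, f1 := 950320347, f2 := 1358518334, tp := 214274456, tm := 0, fuel := 40, hasPair := true,
    rects := [(4939213391, RectKind.tan 22)] },
  { x2 := 1036734549, f0 := 0, f1 := 935737178, f2 := 1234736887, tp := 131400910, tm := 0, fuel := 40, hasPair := true,
    rects := [(4939213391, RectKind.tan 20)] },
  { x2 := 1119673313, f0 := 0, f1 := 923488649, f2 := 1157378898, tp := 101109493, tm := 0, fuel := 40, hasPair := true,
    rects := [(4939213391, RectKind.tan 18)] },
  { x2 := 1209247178, f0 := 0, f1 := 906350135, f2 := 1023962779, tp := 19400210, tm := 0, fuel := 40, hasPair := true,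
    rects := [(4939213391, RectKind.tan 16)] },
  { x2 := 1305986952, f0 := 0, f1 := 888276947, f2 := 883394065, tp := 0, tm := 61964849, fuel := 40, hasPair := true,
    rects := [(4939213391, RectKind.tan 14)] },
  { x2 := 1410465908, f0 := 0, f1 := 877109465, f2 := 755146461, tp := 0, tm := 143069930, fuel := 40, hasPair := true,
    rects := [(4939213391, RectKind.tan 12)] },
  { x2 := 1523303181, f0 := 0, f1 := 874806885, f2 := 643322236, tp := 0, tm := 224371431, fuel := 40, hasPair := true,
    rects := [(4939213391, RectKind.tan 9)] },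
  { x2 := 1645167435, f0 := 0, f1 := 876964513, f2 := 556221826, tp := 0, tm := 291334777, fuel := 40, hasPair := true,
    rects := [(4939213391, RectKind.tan 7)] },
  { x2 := 1713477203, f0 := 0, f1 := 849659208, f2 := 443109825, tp := 0, tm := 360525421, fuel := 40, hasPair := true,
    rects := [(4939213391, RectKind.tan 5)] }] }

theorem cert_K12_2_ok : cert_K12_2.check = true := by decide +kernel

end Vale.Agent.P226
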