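import Vale.Agent.P226.Assemble

/-!
# Numerical certificate 4 of the case K12
-/

namespace Vale.Agent.P226

/-- Certificate number 4. -/
def cert_K12_4 : Cert :=
  { o := { mu := 1116691496, L0 := 11994630756, L1 := 3118391024, e0 := 17286, F0 := 1538021827, Kc := 11, phiU := 1713444048 },
    K := 12, cK := 897157206, invK := 357913942, Y := 1713477203, Smin := 5583457484, Smax := 6442450944, Xtop := 1713444132, Kmax := 12,
    strips := [
  { x2 := 893776, f0 := 0, f1 := 0, f2 := 0, tp := 0, tm := 0, fuel := 0, hasPair := false,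
    rects := [(6442451944, RectKind.iso 188)] },
  { x2 := 1340664, f0 := 0, f1 := 0, f2 := 0, tp := 0, tm := 0, fuel := 0, hasPair := false,
    rects := [(6442451944, RectKind.iso 187)] },
  { x2 := 2010996, f0 := 0, f1 := 0, f2 := 0, tp := 0, tm := 0, fuel := 0, hasPair := false,
    rects := [(6442451944, RectKind.iso 185)] },
  { x2 := 3016493, f0 := 0, f1 := 0, f2 := 0, tp := 0, tm := 0, fuel := 0, hasPair := false,
    rects := [(6442451944, RectKind.iso 183)] },
  { x2 := 4524740, f0 := 0, f1 := 0, f2 := 0, tp := 0, tm := 0, fuel := 0, hasPair := false,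
    rects := [(6442451944, RectKind.iso 175)] },
  { x2 := 6787109, f0 := 0, f1 := 0, f2 := 0, tp := 0, tm := 0, fuel := 0, hasPair := false,
    rects := [(6442451944, RectKind.iso 168)] },
  { x2 := 10180664, f0 := 0, f1 := 0, f2 := 0, tp := 0, tm := 0, fuel := 0, hasPair := false,
    rects := [(6442451944, RectKind.iso 163)] },
  { x2 := 15270995, f0 := 0, f1 := 0, f2 := 0, tp := 0, tm := 0, fuel := 0, hasPair := false,
    rects := [(6442451944, RectKind.iso 155)] },
  { x2 := 22906493, f0 := 0, f1 := 0, f2 := 0, tp := 0, tm := 0, fuel := 0, hasPair := false,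
    rects := [(6442451944, RectKind.iso 150)] },
  { x2 := 34359739, f0 := 0, f1 := 0, f2 := 0, tp := 0, tm := 0, fuel := 0, hasPair := false,
    rects := [(6442451944, RectKind.iso 143)] },
  { x2 := 51539608, f0 := 0, f1 := 0, f2 := 0, tp := 0, tm := 0, fuel := 0, hasPair := false,
    rects := [(6442451944, RectKind.iso 136)] },
  { x2 := 55662777, f0 := 0, f1 := 0, f2 := 0, tp := 0, tm := 0, fuel := 0, hasPair := false,
    rects := [(6442451944, RectKind.iso 128)] },
  { x2 := 60115799, f0 := 0, f1 := 0, f2 := 0, tp := 0, tm := 0, fuel := 0, hasPair := false,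
    rects := [(6442451944, RectKind.iso 126)] },
  { x2 := 64925063, f0 := 0, f1 := 0, f2 := 0, tp := 0, tm := 0, fuel := 0, hasPair := false,
    rects := [(6442451944, RectKind.iso 124)] },
  { x2 := 70119068, f0 := 0, f1 := 0, f2 := 0, tp := 0, tm := 0, fuel := 0, hasPair := false,
    rects := [(6442451944, RectKind.iso 122)] },
  { x2 := 75728593, f0 := 0, f1 := 0, f2 := 0, tp := 0, tm := 0, fuel := 0, hasPair := false,
    rects := [(6442451944, RectKind.iso 120)] },
  { x2 := 81786880, f0 := 0, f1 := 0, f2 := 0, tp := 0, tm := 0, fuel := 0, hasPair := false,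
    rects := [(6442451944, RectKind.iso 118)] },
  { x2 := 88329831, f0 := 0, f1 := 0, f2 := 0, tp := 0, tm := 0, fuel := 0, hasPair := false,
    rects := [(6442451944, RectKind.iso 116)] },
  { x2 := 95396217, f0 := 0, f1 := 0, f2 := 0, tp := 0, tm := 0, fuel := 0, hasPair := false,
    rects := [(6442451944, RectKind.iso 114)] },
  { x2 := 103027914, f0 := 0, f1 := 0, f2 := 0, tp := 0, tm := 0, fuel := 0, hasPair := false,
    rects := [(6442451944, RectKind.iso 112)] },
  { x2 := 111270148, f0 := 0, f1 := 0, f2 := 0, tp := 0, tm := 0, fuel := 0, hasPair := false,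
    rects := [(6442451944, RectKind.iso 110)] },
  { x2 := 120171759, f0 := 0, f1 := 0, f2 := 0, tp := 0, tm := 0, fuel := 0, hasPair := false,
    rects := [(6442451944, RectKind.iso 108)] },
  { x2 := 129785500, f0 := 0, f1 := 0, f2 := 0, tp := 0, tm := 0, fuel := 0, hasPair := false,
    rects := [(6442451944, RectKind.iso 106)] },
  { x2 := 140168340, f0 := 0, f1 := 0, f2 := 0, tp := 0, tm := 0, fuel := 0, hasPair := false,
    rects := [(6442451944, RectKind.iso 104)] },
  { x2 := 151381807, f0 := 0, f1 := 0, f2 := 0, tp := 0, tm := 0, fuel := 0, hasPair := false,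
    rects := [(6442451944, RectKind.iso 102)] },
  { x2 := 163492352, f0 := 0, f1 := 0, f2 := 0, tp := 0, tm := 0, fuel := 0, hasPair := false,
    rects := [(6442451944, RectKind.iso 100)] },
  { x2 := 176571740, f0 := 0, f1 := 0, f2 := 0, tp := 0, tm := 0, fuel := 0, hasPair := false,
    rects := [(6442451944, RectKind.iso 98)] },
  { x2 := 190697479, f0 := 0, f1 := 0, f2 := 0, tp := 0, tm := 0, fuel := 0, hasPair := false,
    rects := [(6442451944, RectKind.iso 96)] },
  { x2 := 205953277, f0 := 0, f1 := 0, f2 := 0, tp := 0, tm := 0, fuel := 0, hasPair := false,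
    rects := [(6442451944, RectKind.iso 94)] },
  { x2 := 222429539, f0 := 0, f1 := 0, f2 := 0, tp := 0, tm := 0, fuel := 0, hasPair := false,
    rects := [(6442451944, RectKind.iso 92)] },
  { x2 := 240223903, f0 := 0, f1 := 0, f2 := 0, tp := 0, tm := 0, fuel := 0, hasPair := false,
    rects := [(6442451944, RectKind.iso 90)] },
  { x2 := 259441815, f0 := 0, f1 := 0, f2 := 0, tp := 0, tm := 0, fuel := 0, hasPair := false,
    rects := [(6442451944, RectKind.iso 88)] },
  { x2 := 280197160, f0 := 0, f1 := 0, f2 := 0, tp := 0, tm := 0, fuel := 0, hasPair := false,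
    rects := [(6442451944, RectKind.iso 86)] },
  { x2 := 302612933, f0 := 0, f1 := 0, f2 := 0, tp := 0, tm := 0, fuel := 0, hasPair := false,
    rects := [(6442451944, RectKind.iso 84)] },
  { x2 := 326821967, f0 := 0, f1 := 0, f2 := 0, tp := 0, tm := 0, fuel := 0, hasPair := false,
    rects := [(6442451944, RectKind.iso 82)] },
  { x2 := 352967724, f0 := 0, f1 := 0, f2 := 0, tp := 0, tm := 0, fuel := 0, hasPair := false,
    rects := [(6442451944, RectKind.iso 80)] },
  { x2 := 381205142, f0 := 0, f1 := 0, f2 := 0, tp := 0, tm := 0, fuel := 0, hasPair := false,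
    rects := [(6442451944, RectKind.iso 78)] },
  { x2 := 411701554, f0 := 0, f1 := 0, f2 := 0, tp := 0, tm := 0, fuel := 0, hasPair := false,
    rects := [(6442451944, RectKind.iso 76)] },
  { x2 := 444637678, f0 := 0, f1 := 0, f2 := 0, tp := 0, tm := 0, fuel := 0, hasPair := false,
    rects := [(6442451944, RectKind.iso 74)] },
  { x2 := 480208692, f0 := 0, f1 := 0, f2 := 0, tp := 0, tm := 0, fuel := 0, hasPair := false,
    rects := [(6442451944, RectKind.iso 73)] },
  { x2 := 518625387, f0 := 0, f1 := 0, f2 := 0, tp := 0, tm := 0, fuel := 0, hasPair := false,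
    rects := [(6442451944, RectKind.iso 71)] },
  { x2 := 560115418, f0 := 0, f1 := 0, f2 := 0, tp := 0, tm := 0, fuel := 0, hasPair := false,
    rects := [(6442451944, RectKind.iso 70)] },
  { x2 := 604924652, f0 := 0, f1 := 0, f2 := 0, tp := 0, tm := 0, fuel := 0, hasPair := false,
    rects := [(6442451944, RectKind.iso 69)] },
  { x2 := 653318624, f0 := 0, f1 := 0, f2 := 0, tp := 0, tm := 0, fuel := 0, hasPair := false,
    rects := [(6442451944, RectKind.iso 71)] },
  { x2 := 705584114, f0 := 1582869, f1 := 956972417, f2 := 1610777589, tp := 384141128, tm := 0, fuel := 40, hasPair := true,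
    rects := [(6442451944, RectKind.tan 60)] },
  { x2 := 762030843, f0 := 879920, f1 := 964394346, f2 := 1577545263, tp := 356065315, tm := 0, fuel := 40, hasPair := true,
    rects := [(6442451944, RectKind.tan 56)] },
  { x2 := 822993310, f0 := 294845, f1 := 967721754, f2 := 1533781594, tp := 326621017, tm := 0, fuel := 40, hasPair := true,
    rects := [(6442451944, RectKind.tan 52)] },
  { x2 := 888832775, f0 := 0, f1 := 961550454, f2 := 1435464107, tp := 245052661, tm := 0, fuel := 40, hasPair := true,
    rects := [(6442451944, RectKind.tan 47)] },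
  { x2 := 959939397, f0 := 0, f1 := 947583985, f2 := 1312007705, tp := 161545475, tm := 0, fuel := 40, hasPair := true,
    rects := [(6442451944, RectKind.tan 43)] },
  { x2 := 1036734549, f0 := 0, f1 := 935737178, f2 := 1234736887, tp := 131400910, tm := 0, fuel := 40, hasPair := true,
    rects := [(6442451944, RectKind.tan 39)] },
  { x2 := 1119673313, f0 := 0, f1 := 919387327, f2 := 1100476453, tp := 47968152, tm := 0, fuel := 40, hasPair := true,
    rects := [(6442451944, RectKind.tan 36)] },
  { x2 := 1209247178, f0 := 0, f1 := 901491588, f2 := 956554464, tp := 0, tm := 35683491, fuel := 40, hasPair := true,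
    rects := [(6442451944, RectKind.tan 32)] },
  { x2 := 1305986952, f0 := 0, f1 := 887292697, f2 := 851865918, tp := 0, tm := 87728540, fuel := 40, hasPair := true,
    rects := [(6442451944, RectKind.tan 28)] },
  { x2 := 1410465908, f0 := 0, f1 := 875747503, f2 := 772231572, tp := 0, tm := 124896741, fuel := 40, hasPair := true,
    rects := [(6442451944, RectKind.tan 25)] },
  { x2 := 1523303181, f0 := 0, f1 := 866242991, f2 := 695653805, tp := 0, tm := 165489091, fuel := 40, hasPair := true,
    rects := [(6442451944, RectKind.tan 22)] },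
  { x2 := 1645167435, f0 := 0, f1 := 823791664, f2 := 566443012, tp := 0, tm := 230085359, fuel := 40, hasPair := true,
    rects := [(6442451944, RectKind.tan 17)] },
  { x2 := 1713477203, f0 := 0, f1 := 0, f2 := 0, tp := 0, tm := 0, fuel := 0, hasPair := false,
    rects := [(6442451944, RectKind.iso 4)] }] }

theorem cert_K12_4_ok : cert_K12_4.check = true := by decide +kernel

end Vale.Agent.P226
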