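import Vale.Agent.P226.Assemble

/-!
# Numerical certificate 1 of the case K13
-/

namespace Vale.Agent.P226

/-- Certificate number 1. -/
def cert_K13_1 : Cert :=
  { o := { mu := 429496729, L0 := 11994053361, L1 := 1199381163, e0 := 52, F0 := 1538021827, Kc := 12, phiU := 1713444048 },
    K := 13, cK := 828145113, invK := 330382100, Y := 1713477203, Smin := 3650722201, Smax := 4294967296, Xtop := 1713444132, Kmax := 13,
    strips := [
  { x2 := 893776, f0 := 0, f1 := 0, f2 := 0, tp := 0, tm := 0, fuel := 0, hasPair := false,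
    rects := [(4294968296, RectKind.iso 191)] },
  { x2 := 1340664, f0 := 0, f1 := 0, f2 := 0, tp := 0, tm := 0, fuel := 0, hasPair := false,
    rects := [(4294968296, RectKind.iso 171)] },
  { x2 := 2010996, f0 := 0, f1 := 0, f2 := 0, tp := 0, tm := 0, fuel := 0, hasPair := false,
    rects := [(4294968296, RectKind.iso 166)] },
  { x2 := 3016493, f0 := 0, f1 := 0, f2 := 0, tp := 0, tm := 0, fuel := 0, hasPair := false,
    rects := [(4294968296, RectKind.iso 163)] },
  { x2 := 4524740, f0 := 0, f1 := 0, f2 := 0, tp := 0, tm := 0, fuel := 0, hasPair := false,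
    rects := [(4294968296, RectKind.iso 157)] },
  { x2 := 6787109, f0 := 0, f1 := 0, f2 := 0, tp := 0, tm := 0, fuel := 0, hasPair := false,
    rects := [(4294968296, RectKind.iso 152)] },
  { x2 := 10180664, f0 := 0, f1 := 0, f2 := 0, tp := 0, tm := 0, fuel := 0, hasPair := false,
    rects := [(4294968296, RectKind.iso 149)] },
  { x2 := 15270995, f0 := 0, f1 := 0, f2 := 0, tp := 0, tm := 0, fuel := 0, hasPair := false,
    rects := [(4294968296, RectKind.iso 143)] },
  { x2 := 22906493, f0 := 0, f1 := 0, f2 := 0, tp := 0, tm := 0, fuel := 0, hasPair := false,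
    rects := [(4294968296, RectKind.iso 137)] },
  { x2 := 34359739, f0 := 0, f1 := 0, f2 := 0, tp := 0, tm := 0, fuel := 0, hasPair := false,
    rects := [(4294968296, RectKind.iso 131)] },
  { x2 := 51539608, f0 := 0, f1 := 0, f2 := 0, tp := 0, tm := 0, fuel := 0, hasPair := false,
    rects := [(4294968296, RectKind.iso 122)] },
  { x2 := 55662777, f0 := 0, f1 := 0, f2 := 0, tp := 0, tm := 0, fuel := 0, hasPair := false,
    rects := [(4294968296, RectKind.iso 112)] },
  { x2 := 60115799, f0 := 0, f1 := 0, f2 := 0, tp := 0, tm := 0, fuel := 0, hasPair := false,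
    rects := [(4294968296, RectKind.iso 111)] },
  { x2 := 64925063, f0 := 0, f1 := 0, f2 := 0, tp := 0, tm := 0, fuel := 0, hasPair := false,
    rects := [(4294968296, RectKind.iso 109)] },
  { x2 := 70119068, f0 := 0, f1 := 0, f2 := 0, tp := 0, tm := 0, fuel := 0, hasPair := false,
    rects := [(4294968296, RectKind.iso 107)] },
  { x2 := 75728593, f0 := 0, f1 := 0, f2 := 0, tp := 0, tm := 0, fuel := 0, hasPair := false,
    rects := [(4294968296, RectKind.iso 105)] },
  { x2 := 81786880, f0 := 0, f1 := 0, f2 := 0, tp := 0, tm := 0, fuel := 0, hasPair := false,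
    rects := [(4294968296, RectKind.iso 103)] },
  { x2 := 88329831, f0 := 0, f1 := 0, f2 := 0, tp := 0, tm := 0, fuel := 0, hasPair := false,
    rects := [(4294968296, RectKind.iso 101)] },
  { x2 := 95396217, f0 := 0, f1 := 0, f2 := 0, tp := 0, tm := 0, fuel := 0, hasPair := false,
    rects := [(4294968296, RectKind.iso 99)] },
  { x2 := 103027914, f0 := 0, f1 := 0, f2 := 0, tp := 0, tm := 0, fuel := 0, hasPair := false,
    rects := [(4294968296, RectKind.iso 98)] },
  { x2 := 111270148, f0 := 0, f1 := 0, f2 := 0, tp := 0, tm := 0, fuel := 0, hasPair := false,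
    rects := [(4294968296, RectKind.iso 96)] },
  { x2 := 120171759, f0 := 0, f1 := 0, f2 := 0, tp := 0, tm := 0, fuel := 0, hasPair := false,
    rects := [(4294968296, RectKind.iso 94)] },
  { x2 := 129785500, f0 := 0, f1 := 0, f2 := 0, tp := 0, tm := 0, fuel := 0, hasPair := false,
    rects := [(4294968296, RectKind.iso 92)] },
  { x2 := 140168340, f0 := 0, f1 := 0, f2 := 0, tp := 0, tm := 0, fuel := 0, hasPair := false,
    rects := [(4294968296, RectKind.iso 90)] },
  { x2 := 151381807, f0 := 0, f1 := 0, f2 := 0, tp := 0, tm := 0, fuel := 0, hasPair := false,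
    rects := [(4294968296, RectKind.iso 88)] },
  { x2 := 163492352, f0 := 0, f1 := 0, f2 := 0, tp := 0, tm := 0, fuel := 0, hasPair := false,
    rects := [(4294968296, RectKind.iso 86)] },
  { x2 := 176571740, f0 := 0, f1 := 0, f2 := 0, tp := 0, tm := 0, fuel := 0, hasPair := false,
    rects := [(4294968296, RectKind.iso 84)] },
  { x2 := 190697479, f0 := 0, f1 := 0, f2 := 0, tp := 0, tm := 0, fuel := 0, hasPair := false,
    rects := [(4294968296, RectKind.iso 82)] },
  { x2 := 205953277, f0 := 0, f1 := 0, f2 := 0, tp := 0, tm := 0, fuel := 0, hasPair := false,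
    rects := [(4294968296, RectKind.iso 81)] },
  { x2 := 222429539, f0 := 0, f1 := 0, f2 := 0, tp := 0, tm := 0, fuel := 0, hasPair := false,
    rects := [(4294968296, RectKind.iso 79)] },
  { x2 := 240223903, f0 := 0, f1 := 0, f2 := 0, tp := 0, tm := 0, fuel := 0, hasPair := false,
    rects := [(4294968296, RectKind.iso 77)] },
  { x2 := 259441815, f0 := 0, f1 := 0, f2 := 0, tp := 0, tm := 0, fuel := 0, hasPair := false,
    rects := [(4294968296, RectKind.iso 75)] },
  { x2 := 280197160, f0 := 0, f1 := 0, f2 := 0, tp := 0, tm := 0, fuel := 0, hasPair := false,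
    rects := [(4294968296, RectKind.iso 73)] },
  { x2 := 302612933, f0 := 0, f1 := 0, f2 := 0, tp := 0, tm := 0, fuel := 0, hasPair := false,
    rects := [(4294968296, RectKind.iso 71)] },
  { x2 := 326821967, f0 := 0, f1 := 0, f2 := 0, tp := 0, tm := 0, fuel := 0, hasPair := false,
    rects := [(4294968296, RectKind.iso 69)] },
  { x2 := 352967724, f0 := 0, f1 := 0, f2 := 0, tp := 0, tm := 0, fuel := 0, hasPair := false,
    rects := [(4294968296, RectKind.iso 67)] },
  { x2 := 381205142, f0 := 0, f1 := 0, f2 := 0, tp := 0, tm := 0, fuel := 0, hasPair := false,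
    rects := [(4294968296, RectKind.iso 66)] },
  { x2 := 411701554, f0 := 0, f1 := 0, f2 := 0, tp := 0, tm := 0, fuel := 0, hasPair := false,
    rects := [(4294968296, RectKind.iso 64)] },
  { x2 := 444637678, f0 := 0, f1 := 0, f2 := 0, tp := 0, tm := 0, fuel := 0, hasPair := false,
    rects := [(4294968296, RectKind.iso 62)] },
  { x2 := 480208692, f0 := 0, f1 := 0, f2 := 0, tp := 0, tm := 0, fuel := 0, hasPair := false,
    rects := [(4294968296, RectKind.iso 61)] },
  { x2 := 518625387, f0 := 0, f1 := 0, f2 := 0, tp := 0, tm := 0, fuel := 0, hasPair := false,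
    rects := [(4294968296, RectKind.iso 59)] },
  { x2 := 560115418, f0 := 0, f1 := 0, f2 := 0, tp := 0, tm := 0, fuel := 0, hasPair := false,
    rects := [(4294968296, RectKind.iso 58)] },
  { x2 := 604924652, f0 := 0, f1 := 0, f2 := 0, tp := 0, tm := 0, fuel := 0, hasPair := false,
    rects := [(4294968296, RectKind.iso 56)] },
  { x2 := 653318624, f0 := 0, f1 := 0, f2 := 0, tp := 0, tm := 0, fuel := 0, hasPair := false,
    rects := [(4294968296, RectKind.iso 55)] },
  { x2 := 705584114, f0 := 0, f1 := 0, f2 := 0, tp := 0, tm := 0, fuel := 0, hasPair := false,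
    rects := [(4294968296, RectKind.iso 54)] },
  { x2 := 762030843, f0 := 0, f1 := 0, f2 := 0, tp := 0, tm := 0, fuel := 0, hasPair := false,
    rects := [(4294968296, RectKind.iso 55)] },
  { x2 := 822993310, f0 := 0, f1 := 0, f2 := 0, tp := 0, tm := 0, fuel := 0, hasPair := false,
    rects := [(3972845248, RectKind.inf), (4294968296, RectKind.iso 57)] },
  { x2 := 888832775, f0 := 0, f1 := 900678690, f2 := 1339248602, tp := 232602141, tm := 0, fuel := 40, hasPair := true,
    rects := [(4294968296, RectKind.tan 12)] },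
  { x2 := 959939397, f0 := 0, f1 := 890476768, f2 := 1267521422, tp := 203734971, tm := 0, fuel := 40, hasPair := true,
    rects := [(4294968296, RectKind.tan 11)] },
  { x2 := 1036734549, f0 := 0, f1 := 877124971, f2 := 1151606733, tp := 125723784, tm := 0, fuel := 40, hasPair := true,
    rects := [(4294968296, RectKind.tan 10)] },
  { x2 := 1119673313, f0 := 0, f1 := 865977865, f2 := 1079422653, tp := 97280752, tm := 0, fuel := 40, hasPair := true,
    rects := [(4294968296, RectKind.tan 9)] },
  { x2 := 1209247178, f0 := 0, f1 := 850238585, f2 := 954286746, tp := 20245266, tm := 0, fuel := 40, hasPair := true,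
    rects := [(4294968296, RectKind.tan 7)] },
  { x2 := 1305986952, f0 := 0, f1 := 833600022, f2 := 822203109, tp := 0, tm := 56568842, fuel := 40, hasPair := true,
    rects := [(4294968296, RectKind.tan 6)] },
  { x2 := 1410465908, f0 := 0, f1 := 823498123, f2 := 701606638, tp := 0, tm := 133253436, fuel := 40, hasPair := true,
    rects := [(4294968296, RectKind.tan 5)] },
  { x2 := 1523303181, f0 := 0, f1 := 835311761, f2 := 547104981, tp := 0, tm := 270557318, fuel := 40, hasPair := true,
    rects := [(4294968296, RectKind.tan 3)] },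
  { x2 := 1645167435, f0 := 0, f1 := 846480241, f2 := 466958989, tp := 0, tm := 342608518, fuel := 40, hasPair := true,
    rects := [(4294968296, RectKind.tan 1)] },
  { x2 := 1713477203, f0 := 0, f1 := 921930976, f2 := 341574259, tp := 0, tm := 530340780, fuel := 40, hasPair := true,
    rects := [(4294968296, RectKind.tan 0)] }] }

theorem cert_K13_1_ok : cert_K13_1.check = true := by decide +kernel

end Vale.Agent.P226
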