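import Vale.Agent.P226.Assemble

/-!
# Numerical certificate 3 of the case K13
-/

namespace Vale.Agent.P226

/-- Certificate number 3. -/
def cert_K13_3 : Cert :=
  { o := { mu := 1116691496, L0 := 11994679027, L1 := 3118391024, e0 := 17286, F0 := 1538021827, Kc := 12, phiU := 1713444048 },
    K := 13, cK := 828145113, invK := 330382100, Y := 1713477203, Smin := 4939212390, Smax := 5583457485, Xtop := 1713444132, Kmax := 13,
    strips := [
  { x2 := 893776, f0 := 0, f1 := 0, f2 := 0, tp := 0, tm := 0, fuel := 0, hasPair := false,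
    rects := [(5583458485, RectKind.iso 188)] },
  { x2 := 1340664, f0 := 0, f1 := 0, f2 := 0, tp := 0, tm := 0, fuel := 0, hasPair := false,
    rects := [(5583458485, RectKind.iso 187)] },
  { x2 := 2010996, f0 := 0, f1 := 0, f2 := 0, tp := 0, tm := 0, fuel := 0, hasPair := false,
    rects := [(5583458485, RectKind.iso 185)] },
  { x2 := 3016493, f0 := 0, f1 := 0, f2 := 0, tp := 0, tm := 0, fuel := 0, hasPair := false,
    rects := [(5583458485, RectKind.iso 183)] },
  { x2 := 4524740, f0 := 0, f1 := 0, f2 := 0, tp := 0, tm := 0, fuel := 0, hasPair := false,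
    rects := [(5583458485, RectKind.iso 175)] },
  { x2 := 6787109, f0 := 0, f1 := 0, f2 := 0, tp := 0, tm := 0, fuel := 0, hasPair := false,
    rects := [(5583458485, RectKind.iso 168)] },
  { x2 := 10180664, f0 := 0, f1 := 0, f2 := 0, tp := 0, tm := 0, fuel := 0, hasPair := false,
    rects := [(5583458485, RectKind.iso 163)] },
  { x2 := 15270995, f0 := 0, f1 := 0, f2 := 0, tp := 0, tm := 0, fuel := 0, hasPair := false,
    rects := [(5583458485, RectKind.iso 155)] },
  { x2 := 22906493, f0 := 0, f1 := 0, f2 := 0, tp := 0, tm := 0, fuel := 0, hasPair := false,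
    rects := [(5583458485, RectKind.iso 150)] },
  { x2 := 34359739, f0 := 0, f1 := 0, f2 := 0, tp := 0, tm := 0, fuel := 0, hasPair := false,
    rects := [(5583458485, RectKind.iso 144)] },
  { x2 := 51539608, f0 := 0, f1 := 0, f2 := 0, tp := 0, tm := 0, fuel := 0, hasPair := false,
    rects := [(5583458485, RectKind.iso 136)] },
  { x2 := 55662777, f0 := 0, f1 := 0, f2 := 0, tp := 0, tm := 0, fuel := 0, hasPair := false,
    rects := [(5583458485, RectKind.iso 129)] },
  { x2 := 60115799, f0 := 0, f1 := 0, f2 := 0, tp := 0, tm := 0, fuel := 0, hasPair := false,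
    rects := [(5583458485, RectKind.iso 127)] },
  { x2 := 64925063, f0 := 0, f1 := 0, f2 := 0, tp := 0, tm := 0, fuel := 0, hasPair := false,
    rects := [(5583458485, RectKind.iso 125)] },
  { x2 := 70119068, f0 := 0, f1 := 0, f2 := 0, tp := 0, tm := 0, fuel := 0, hasPair := false,
    rects := [(5583458485, RectKind.iso 123)] },
  { x2 := 75728593, f0 := 0, f1 := 0, f2 := 0, tp := 0, tm := 0, fuel := 0, hasPair := false,
    rects := [(5583458485, RectKind.iso 121)] },
  { x2 := 81786880, f0 := 0, f1 := 0, f2 := 0, tp := 0, tm := 0, fuel := 0, hasPair := false,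
    rects := [(5583458485, RectKind.iso 119)] },
  { x2 := 88329831, f0 := 0, f1 := 0, f2 := 0, tp := 0, tm := 0, fuel := 0, hasPair := false,
    rects := [(5583458485, RectKind.iso 117)] },
  { x2 := 95396217, f0 := 0, f1 := 0, f2 := 0, tp := 0, tm := 0, fuel := 0, hasPair := false,
    rects := [(5583458485, RectKind.iso 115)] },
  { x2 := 103027914, f0 := 0, f1 := 0, f2 := 0, tp := 0, tm := 0, fuel := 0, hasPair := false,
    rects := [(5583458485, RectKind.iso 113)] },
  { x2 := 111270148, f0 := 0, f1 := 0, f2 := 0, tp := 0, tm := 0, fuel := 0, hasPair := false,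
    rects := [(5583458485, RectKind.iso 111)] },
  { x2 := 120171759, f0 := 0, f1 := 0, f2 := 0, tp := 0, tm := 0, fuel := 0, hasPair := false,
    rects := [(5583458485, RectKind.iso 108)] },
  { x2 := 129785500, f0 := 0, f1 := 0, f2 := 0, tp := 0, tm := 0, fuel := 0, hasPair := false,
    rects := [(5583458485, RectKind.iso 106)] },
  { x2 := 140168340, f0 := 0, f1 := 0, f2 := 0, tp := 0, tm := 0, fuel := 0, hasPair := false,
    rects := [(5583458485, RectKind.iso 104)] },
  { x2 := 151381807, f0 := 0, f1 := 0, f2 := 0, tp := 0, tm := 0, fuel := 0, hasPair := false,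
    rects := [(5583458485, RectKind.iso 102)] },
  { x2 := 163492352, f0 := 0, f1 := 0, f2 := 0, tp := 0, tm := 0, fuel := 0, hasPair := false,
    rects := [(5583458485, RectKind.iso 100)] },
  { x2 := 176571740, f0 := 0, f1 := 0, f2 := 0, tp := 0, tm := 0, fuel := 0, hasPair := false,
    rects := [(5583458485, RectKind.iso 98)] },
  { x2 := 190697479, f0 := 0, f1 := 0, f2 := 0, tp := 0, tm := 0, fuel := 0, hasPair := false,
    rects := [(5583458485, RectKind.iso 96)] },
  { x2 := 205953277, f0 := 0, f1 := 0, f2 := 0, tp := 0, tm := 0, fuel := 0, hasPair := false,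
    rects := [(5583458485, RectKind.iso 94)] },
  { x2 := 222429539, f0 := 0, f1 := 0, f2 := 0, tp := 0, tm := 0, fuel := 0, hasPair := false,
    rects := [(5583458485, RectKind.iso 92)] },
  { x2 := 240223903, f0 := 0, f1 := 0, f2 := 0, tp := 0, tm := 0, fuel := 0, hasPair := false,
    rects := [(5583458485, RectKind.iso 91)] },
  { x2 := 259441815, f0 := 0, f1 := 0, f2 := 0, tp := 0, tm := 0, fuel := 0, hasPair := false,
    rects := [(5583458485, RectKind.iso 89)] },
  { x2 := 280197160, f0 := 0, f1 := 0, f2 := 0, tp := 0, tm := 0, fuel := 0, hasPair := false,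
    rects := [(5583458485, RectKind.iso 87)] },
  { x2 := 302612933, f0 := 0, f1 := 0, f2 := 0, tp := 0, tm := 0, fuel := 0, hasPair := false,
    rects := [(5583458485, RectKind.iso 85)] },
  { x2 := 326821967, f0 := 0, f1 := 0, f2 := 0, tp := 0, tm := 0, fuel := 0, hasPair := false,
    rects := [(5583458485, RectKind.iso 83)] },
  { x2 := 352967724, f0 := 0, f1 := 0, f2 := 0, tp := 0, tm := 0, fuel := 0, hasPair := false,
    rects := [(5583458485, RectKind.iso 81)] },
  { x2 := 381205142, f0 := 0, f1 := 0, f2 := 0, tp := 0, tm := 0, fuel := 0, hasPair := false,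
    rects := [(5583458485, RectKind.iso 80)] },
  { x2 := 411701554, f0 := 0, f1 := 0, f2 := 0, tp := 0, tm := 0, fuel := 0, hasPair := false,
    rects := [(5583458485, RectKind.iso 78)] },
  { x2 := 444637678, f0 := 0, f1 := 0, f2 := 0, tp := 0, tm := 0, fuel := 0, hasPair := false,
    rects := [(5583458485, RectKind.iso 77)] },
  { x2 := 480208692, f0 := 0, f1 := 0, f2 := 0, tp := 0, tm := 0, fuel := 0, hasPair := false,
    rects := [(5583458485, RectKind.iso 75)] },
  { x2 := 518625387, f0 := 0, f1 := 0, f2 := 0, tp := 0, tm := 0, fuel := 0, hasPair := false,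
    rects := [(5583458485, RectKind.iso 75)] },
  { x2 := 560115418, f0 := 0, f1 := 0, f2 := 0, tp := 0, tm := 0, fuel := 0, hasPair := false,
    rects := [(5583458485, RectKind.iso 77)] },
  { x2 := 604924652, f0 := 0, f1 := 950829198, f2 := 1740575427, tp := 457674743, tm := 0, fuel := 40, hasPair := true,
    rects := [(5583458485, RectKind.tan 47)] },
  { x2 := 653318624, f0 := 0, f1 := 941628993, f2 := 1675578073, tp := 434462675, tm := 0, fuel := 40, hasPair := true,
    rects := [(5583458485, RectKind.tan 44)] },
  { x2 := 705584114, f0 := 0, f1 := 932393960, f2 := 1608959746, tp := 409637561, tm := 0, fuel := 40, hasPair := true,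
    rects := [(5583458485, RectKind.tan 41)] },
  { x2 := 762030843, f0 := 0, f1 := 921939613, f2 := 1514713195, tp := 336884960, tm := 0, fuel := 40, hasPair := true,
    rects := [(5583458485, RectKind.tan 38)] },
  { x2 := 822993310, f0 := 0, f1 := 912377700, f2 := 1445012503, tp := 309291549, tm := 0, fuel := 40, hasPair := true,
    rects := [(5583458485, RectKind.tan 35)] },
  { x2 := 888832775, f0 := 0, f1 := 900678690, f2 := 1339248602, tp := 232602141, tm := 0, fuel := 40, hasPair := true,
    rects := [(5583458485, RectKind.tan 32)] },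
  { x2 := 959939397, f0 := 0, f1 := 890476768, f2 := 1267521422, tp := 203734971, tm := 0, fuel := 40, hasPair := true,
    rects := [(5583458485, RectKind.tan 29)] },
  { x2 := 1036734549, f0 := 0, f1 := 877124971, f2 := 1151606733, tp := 125723784, tm := 0, fuel := 40, hasPair := true,
    rects := [(5583458485, RectKind.tan 27)] },
  { x2 := 1119673313, f0 := 0, f1 := 862119501, f2 := 1025726911, tp := 47100361, tm := 0, fuel := 40, hasPair := true,
    rects := [(5583458485, RectKind.tan 24)] },
  { x2 := 1209247178, f0 := 0, f1 := 845645686, f2 := 890564067, tp := 0, tm := 31826662, fuel := 40, hasPair := true,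
    rects := [(5583458485, RectKind.tan 21)] },
  { x2 := 1305986952, f0 := 0, f1 := 833600022, f2 := 822203109, tp := 0, tm := 56568842, fuel := 40, hasPair := true,
    rects := [(5583458485, RectKind.tan 19)] },
  { x2 := 1410465908, f0 := 0, f1 := 823498123, f2 := 701606638, tp := 0, tm := 133253436, fuel := 40, hasPair := true,
    rects := [(5583458485, RectKind.tan 16)] },
  { x2 := 1523303181, f0 := 0, f1 := 818078268, f2 := 612324484, tp := 0, tm := 190083082, fuel := 40, hasPair := true,
    rects := [(5583458485, RectKind.tan 14)] },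
  { x2 := 1645167435, f0 := 0, f1 := 813434216, f2 := 549911120, tp := 0, tm := 228347212, fuel := 40, hasPair := true,
    rects := [(5583458485, RectKind.tan 11)] },
  { x2 := 1713477203, f0 := 0, f1 := 0, f2 := 0, tp := 0, tm := 0, fuel := 0, hasPair := false,
    rects := [(5583458485, RectKind.iso 9)] }] }

theorem cert_K13_3_ok : cert_K13_3.check = true := by decide +kernel

end Vale.Agent.P226
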