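import Vale.Agent.P226.Assemble

/-!
# Numerical certificate 4 of the case K13
-/

namespace Vale.Agent.P226

/-- Certificate number 4. -/
def cert_K13_4 : Cert :=
  { o := { mu := 1116691496, L0 := 11994679027, L1 := 3118391024, e0 := 17286, F0 := 1538021827, Kc := 12, phiU := 1713444048 },
    K := 13, cK := 828145113, invK := 330382100, Y := 1713477203, Smin := 5583457484, Smax := 6442450944, Xtop := 1713444132, Kmax := 13,
    strips := [
  { x2 := 893776, f0 := 0, f1 := 0, f2 := 0, tp := 0, tm := 0, fuel := 0, hasPair := false,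
    rects := [(6442451944, RectKind.iso 188)] },
  { x2 := 1340664, f0 := 0, f1 := 0, f2 := 0, tp := 0, tm := 0, fuel := 0, hasPair := false,
    rects := [(6442451944, RectKind.iso 187)] },
  { x2 := 2010996, f0 := 0, f1 := 0, f2 := 0, tp := 0, tm := 0, fuel := 0, hasPair := false,
    rects := [(6442451944, RectKind.iso 185)] },
  { x2 := 3016493, f0 := 0, f1 := 0, f2 := 0, tp := 0, tm := 0, fuel := 0, hasPair := false,
    rects := [(6442451944, RectKind.iso 183)] },
  { x2 := 4524740, f0 := 0, f1 := 0, f2 := 0, tp := 0, tm := 0, fuel := 0, hasPair := false,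
    rects := [(6442451944, RectKind.iso 175)] },
  { x2 := 6787109, f0 := 0, f1 := 0, f2 := 0, tp := 0, tm := 0, fuel := 0, hasPair := false,
    rects := [(6442451944, RectKind.iso 168)] },
  { x2 := 10180664, f0 := 0, f1 := 0, f2 := 0, tp := 0, tm := 0, fuel := 0, hasPair := false,
    rects := [(6442451944, RectKind.iso 163)] },
  { x2 := 15270995, f0 := 0, f1 := 0, f2 := 0, tp := 0, tm := 0, fuel := 0, hasPair := false,
    rects := [(6442451944, RectKind.iso 155)] },
  { x2 := 22906493, f0 := 0, f1 := 0, f2 := 0, tp := 0, tm := 0, fuel := 0, hasPair := false,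
    rects := [(6442451944, RectKind.iso 150)] },
  { x2 := 34359739, f0 := 0, f1 := 0, f2 := 0, tp := 0, tm := 0, fuel := 0, hasPair := false,
    rects := [(6442451944, RectKind.iso 143)] },
  { x2 := 51539608, f0 := 0, f1 := 0, f2 := 0, tp := 0, tm := 0, fuel := 0, hasPair := false,
    rects := [(6442451944, RectKind.iso 136)] },
  { x2 := 55662777, f0 := 0, f1 := 0, f2 := 0, tp := 0, tm := 0, fuel := 0, hasPair := false,
    rects := [(6442451944, RectKind.iso 128)] },
  { x2 := 60115799, f0 := 0, f1 := 0, f2 := 0, tp := 0, tm := 0, fuel := 0, hasPair := false,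
    rects := [(6442451944, RectKind.iso 126)] },
  { x2 := 64925063, f0 := 0, f1 := 0, f2 := 0, tp := 0, tm := 0, fuel := 0, hasPair := false,
    rects := [(6442451944, RectKind.iso 124)] },
  { x2 := 70119068, f0 := 0, f1 := 0, f2 := 0, tp := 0, tm := 0, fuel := 0, hasPair := false,
    rects := [(6442451944, RectKind.iso 122)] },
  { x2 := 75728593, f0 := 0, f1 := 0, f2 := 0, tp := 0, tm := 0, fuel := 0, hasPair := false,
    rects := [(6442451944, RectKind.iso 120)] },
  { x2 := 81786880, f0 := 0, f1 := 0, f2 := 0, tp := 0, tm := 0, fuel := 0, hasPair := false,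
    rects := [(6442451944, RectKind.iso 118)] },
  { x2 := 88329831, f0 := 0, f1 := 0, f2 := 0, tp := 0, tm := 0, fuel := 0, hasPair := false,
    rects := [(6442451944, RectKind.iso 116)] },
  { x2 := 95396217, f0 := 0, f1 := 0, f2 := 0, tp := 0, tm := 0, fuel := 0, hasPair := false,
    rects := [(6442451944, RectKind.iso 114)] },
  { x2 := 103027914, f0 := 0, f1 := 0, f2 := 0, tp := 0, tm := 0, fuel := 0, hasPair := false,
    rects := [(6442451944, RectKind.iso 112)] },
  { x2 := 111270148, f0 := 0, f1 := 0, f2 := 0, tp := 0, tm := 0, fuel := 0, hasPair := false,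
    rects := [(6442451944, RectKind.iso 110)] },
  { x2 := 120171759, f0 := 0, f1 := 0, f2 := 0, tp := 0, tm := 0, fuel := 0, hasPair := false,
    rects := [(6442451944, RectKind.iso 108)] },
  { x2 := 129785500, f0 := 0, f1 := 0, f2 := 0, tp := 0, tm := 0, fuel := 0, hasPair := false,
    rects := [(6442451944, RectKind.iso 106)] },
  { x2 := 140168340, f0 := 0, f1 := 0, f2 := 0, tp := 0, tm := 0, fuel := 0, hasPair := false,
    rects := [(6442451944, RectKind.iso 104)] },
  { x2 := 151381807, f0 := 0, f1 := 0, f2 := 0, tp := 0, tm := 0, fuel := 0, hasPair := false,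
    rects := [(6442451944, RectKind.iso 102)] },
  { x2 := 163492352, f0 := 0, f1 := 0, f2 := 0, tp := 0, tm := 0, fuel := 0, hasPair := false,
    rects := [(6442451944, RectKind.iso 100)] },
  { x2 := 176571740, f0 := 0, f1 := 0, f2 := 0, tp := 0, tm := 0, fuel := 0, hasPair := false,
    rects := [(6442451944, RectKind.iso 98)] },
  { x2 := 190697479, f0 := 0, f1 := 0, f2 := 0, tp := 0, tm := 0, fuel := 0, hasPair := false,
    rects := [(6442451944, RectKind.iso 96)] },
  { x2 := 205953277, f0 := 0, f1 := 0, f2 := 0, tp := 0, tm := 0, fuel := 0, hasPair := false,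
    rects := [(6442451944, RectKind.iso 94)] },
  { x2 := 222429539, f0 := 0, f1 := 0, f2 := 0, tp := 0, tm := 0, fuel := 0, hasPair := false,
    rects := [(6442451944, RectKind.iso 92)] },
  { x2 := 240223903, f0 := 0, f1 := 0, f2 := 0, tp := 0, tm := 0, fuel := 0, hasPair := false,
    rects := [(6442451944, RectKind.iso 90)] },
  { x2 := 259441815, f0 := 0, f1 := 0, f2 := 0, tp := 0, tm := 0, fuel := 0, hasPair := false,
    rects := [(6442451944, RectKind.iso 88)] },
  { x2 := 280197160, f0 := 0, f1 := 0, f2 := 0, tp := 0, tm := 0, fuel := 0, hasPair := false,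
    rects := [(6442451944, RectKind.iso 86)] },
  { x2 := 302612933, f0 := 0, f1 := 0, f2 := 0, tp := 0, tm := 0, fuel := 0, hasPair := false,
    rects := [(6442451944, RectKind.iso 84)] },
  { x2 := 326821967, f0 := 0, f1 := 0, f2 := 0, tp := 0, tm := 0, fuel := 0, hasPair := false,
    rects := [(6442451944, RectKind.iso 82)] },
  { x2 := 352967724, f0 := 0, f1 := 0, f2 := 0, tp := 0, tm := 0, fuel := 0, hasPair := false,
    rects := [(6442451944, RectKind.iso 80)] },
  { x2 := 381205142, f0 := 0, f1 := 0, f2 := 0, tp := 0, tm := 0, fuel := 0, hasPair := false,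
    rects := [(6442451944, RectKind.iso 78)] },
  { x2 := 411701554, f0 := 0, f1 := 0, f2 := 0, tp := 0, tm := 0, fuel := 0, hasPair := false,
    rects := [(6442451944, RectKind.iso 76)] },
  { x2 := 444637678, f0 := 0, f1 := 0, f2 := 0, tp := 0, tm := 0, fuel := 0, hasPair := false,
    rects := [(6442451944, RectKind.iso 74)] },
  { x2 := 480208692, f0 := 0, f1 := 0, f2 := 0, tp := 0, tm := 0, fuel := 0, hasPair := false,
    rects := [(6442451944, RectKind.iso 73)] },
  { x2 := 518625387, f0 := 0, f1 := 0, f2 := 0, tp := 0, tm := 0, fuel := 0, hasPair := false,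
    rects := [(6442451944, RectKind.iso 71)] },
  { x2 := 560115418, f0 := 0, f1 := 0, f2 := 0, tp := 0, tm := 0, fuel := 0, hasPair := false,
    rects := [(6442451944, RectKind.iso 70)] },
  { x2 := 604924652, f0 := 0, f1 := 0, f2 := 0, tp := 0, tm := 0, fuel := 0, hasPair := false,
    rects := [(6442451944, RectKind.iso 69)] },
  { x2 := 653318624, f0 := 0, f1 := 0, f2 := 0, tp := 0, tm := 0, fuel := 0, hasPair := false,
    rects := [(6442451944, RectKind.iso 71)] },
  { x2 := 705584114, f0 := 705698, f1 := 912999188, f2 := 1541494134, tp := 363192386, tm := 0, fuel := 40, hasPair := true,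
    rects := [(6442451944, RectKind.tan 56)] },
  { x2 := 762030843, f0 := 244086, f1 := 915806149, f2 := 1500872512, tp := 336884960, tm := 0, fuel := 40, hasPair := true,
    rects := [(6442451944, RectKind.tan 52)] },
  { x2 := 822993310, f0 := 0, f1 := 912377700, f2 := 1445012503, tp := 309291549, tm := 0, fuel := 40, hasPair := true,
    rects := [(6442451944, RectKind.tan 48)] },
  { x2 := 888832775, f0 := 0, f1 := 900678690, f2 := 1339248602, tp := 232602141, tm := 0, fuel := 40, hasPair := true,
    rects := [(6442451944, RectKind.tan 44)] },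
  { x2 := 959939397, f0 := 0, f1 := 887900480, f2 := 1223678203, tp := 154019553, tm := 0, fuel := 40, hasPair := true,
    rects := [(6442451944, RectKind.tan 40)] },
  { x2 := 1036734549, f0 := 0, f1 := 877124971, f2 := 1151606733, tp := 125723784, tm := 0, fuel := 40, hasPair := true,
    rects := [(6442451944, RectKind.tan 37)] },
  { x2 := 1119673313, f0 := 0, f1 := 862119501, f2 := 1025726911, tp := 47100361, tm := 0, fuel := 40, hasPair := true,
    rects := [(6442451944, RectKind.tan 33)] },
  { x2 := 1209247178, f0 := 0, f1 := 845645686, f2 := 890564067, tp := 0, tm := 31826662, fuel := 40, hasPair := true,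
    rects := [(6442451944, RectKind.tan 30)] },
  { x2 := 1305986952, f0 := 0, f1 := 832658880, f2 := 792055822, tp := 0, tm := 81204143, fuel := 40, hasPair := true,
    rects := [(6442451944, RectKind.tan 26)] },
  { x2 := 1410465908, f0 := 0, f1 := 822192195, f2 := 717663720, tp := 0, tm := 116116155, fuel := 40, hasPair := true,
    rects := [(6442451944, RectKind.tan 23)] },
  { x2 := 1523303181, f0 := 0, f1 := 813690711, f2 := 646018611, tp := 0, tm := 154423944, fuel := 40, hasPair := true,
    rects := [(6442451944, RectKind.tan 20)] },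
  { x2 := 1645167435, f0 := 0, f1 := 813145106, f2 := 550696048, tp := 0, tm := 227142710, fuel := 40, hasPair := true,
    rects := [(6442451944, RectKind.tan 17)] },
  { x2 := 1713477203, f0 := 0, f1 := 0, f2 := 0, tp := 0, tm := 0, fuel := 0, hasPair := false,
    rects := [(6442451944, RectKind.iso 4)] }] }

theorem cert_K13_4_ok : cert_K13_4.check = true := by decide +kernel

end Vale.Agent.P226
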