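import Vale.Agent.P226.DataK13_0
import Vale.Agent.P226.DataK13_1
import Vale.Agent.P226.DataK13_2
import Vale.Agent.P226.DataK13_3
import Vale.Agent.P226.DataK13_4
import Vale.Agent.P226.DataK13_5
import Vale.Agent.P226.DataK13_6
import Vale.Agent.P226.DataK13_7

/-!
# Numerical certificates for the bound on obtuse fixed points, case K13
-/

namespace Vale.Agent.P226

/-- The chain of certificates. -/
def certs_K13 : List Cert := [cert_K13_0, cert_K13_1, cert_K13_2, cert_K13_3, cert_K13_4, cert_K13_5, cert_K13_6, cert_K13_7]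

/-- The chain passes all checks. -/
theorem certs_K13_check : certsOK topV 13 13 0 certs_K13 = true :=
  certsOK_cons cert_K13_0_ok (by decide +kernel)
    (certsOK_cons cert_K13_1_ok (by decide +kernel)
    (certsOK_cons cert_K13_2_ok (by decide +kernel)
    (certsOK_cons cert_K13_3_ok (by decide +kernel)
    (certsOK_cons cert_K13_4_ok (by decide +kernel)
    (certsOK_cons cert_K13_5_ok (by decide +kernel)
    (certsOK_cons cert_K13_6_ok (by decide +kernel)
    (certsOK_cons cert_K13_7_ok (by decide +kernel)
    ((by decide +kernel : certsOK topV 13 13 cert_K13_7.Smax [] = true)))))))))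

/-- Bound for the obtuse fixed points in this range of the number of cells. -/
theorem obtuse_K13 {d k : ℕ} (hk1 : 13 ≤ k) (hk2 : k ≤ 13) {Z : Fin k → Euc d} (hZ : ObtuseFP Z) :
    ∑ i, ‖Z i‖ ^ 2 ≤ 9 / (8 * Real.pi) :=
  obtuse_of_chain (by norm_num) (by norm_num) hk1 hk2 certs_K13_check hZ

end Vale.Agent.P226
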