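import Vale.Agent.P226.Assemble

/-!
# Numerical certificate 2 of the case K14
-/

namespace Vale.Agent.P226

/-- Certificate number 2. -/
def cert_K14_2 : Cert :=
  { o := { mu := 944892805, L0 := 12018608671, L1 := 2638638559, e0 := 629, F0 := 1538021827, Kc := 14000, phiU := 1713444048 },
    K := 14, cK := 768991891, invK := 306783379, Y := 1713477203, Smin := 4724464025, Smax := 6442450944, Xtop := 1713444132, Kmax := 14000,
    strips := [
  { x2 := 893776, f0 := 0, f1 := 0, f2 := 0, tp := 0, tm := 0, fuel := 0, hasPair := false,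
    rects := [(6442451944, RectKind.iso 190)] },
  { x2 := 1340664, f0 := 0, f1 := 0, f2 := 0, tp := 0, tm := 0, fuel := 0, hasPair := false,
    rects := [(6442451944, RectKind.iso 184)] },
  { x2 := 2010996, f0 := 0, f1 := 0, f2 := 0, tp := 0, tm := 0, fuel := 0, hasPair := false,
    rects := [(6442451944, RectKind.iso 177)] },
  { x2 := 3016493, f0 := 0, f1 := 0, f2 := 0, tp := 0, tm := 0, fuel := 0, hasPair := false,
    rects := [(6442451944, RectKind.iso 172)] },
  { x2 := 4524740, f0 := 0, f1 := 0, f2 := 0, tp := 0, tm := 0, fuel := 0, hasPair := false,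
    rects := [(6442451944, RectKind.iso 166)] },
  { x2 := 6787109, f0 := 0, f1 := 0, f2 := 0, tp := 0, tm := 0, fuel := 0, hasPair := false,
    rects := [(6442451944, RectKind.iso 162)] },
  { x2 := 10180664, f0 := 0, f1 := 0, f2 := 0, tp := 0, tm := 0, fuel := 0, hasPair := false,
    rects := [(6442451944, RectKind.iso 155)] },
  { x2 := 15270995, f0 := 0, f1 := 0, f2 := 0, tp := 0, tm := 0, fuel := 0, hasPair := false,
    rects := [(6442451944, RectKind.iso 151)] },
  { x2 := 22906493, f0 := 0, f1 := 0, f2 := 0, tp := 0, tm := 0, fuel := 0, hasPair := false,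
    rects := [(6442451944, RectKind.iso 145)] },
  { x2 := 34359739, f0 := 0, f1 := 0, f2 := 0, tp := 0, tm := 0, fuel := 0, hasPair := false,
    rects := [(6442451944, RectKind.iso 139)] },
  { x2 := 51539608, f0 := 0, f1 := 0, f2 := 0, tp := 0, tm := 0, fuel := 0, hasPair := false,
    rects := [(6442451944, RectKind.iso 133)] },
  { x2 := 55662777, f0 := 0, f1 := 0, f2 := 0, tp := 0, tm := 0, fuel := 0, hasPair := false,
    rects := [(6442451944, RectKind.iso 123)] },
  { x2 := 60115799, f0 := 0, f1 := 0, f2 := 0, tp := 0, tm := 0, fuel := 0, hasPair := false,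
    rects := [(6442451944, RectKind.iso 121)] },
  { x2 := 64925063, f0 := 0, f1 := 0, f2 := 0, tp := 0, tm := 0, fuel := 0, hasPair := false,
    rects := [(6442451944, RectKind.iso 119)] },
  { x2 := 70119068, f0 := 0, f1 := 0, f2 := 0, tp := 0, tm := 0, fuel := 0, hasPair := false,
    rects := [(6442451944, RectKind.iso 117)] },
  { x2 := 75728593, f0 := 0, f1 := 0, f2 := 0, tp := 0, tm := 0, fuel := 0, hasPair := false,
    rects := [(6442451944, RectKind.iso 115)] },
  { x2 := 81786880, f0 := 0, f1 := 0, f2 := 0, tp := 0, tm := 0, fuel := 0, hasPair := false,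
    rects := [(6442451944, RectKind.iso 113)] },
  { x2 := 88329831, f0 := 0, f1 := 0, f2 := 0, tp := 0, tm := 0, fuel := 0, hasPair := false,
    rects := [(6442451944, RectKind.iso 111)] },
  { x2 := 95396217, f0 := 0, f1 := 0, f2 := 0, tp := 0, tm := 0, fuel := 0, hasPair := false,
    rects := [(6442451944, RectKind.iso 109)] },
  { x2 := 103027914, f0 := 0, f1 := 0, f2 := 0, tp := 0, tm := 0, fuel := 0, hasPair := false,
    rects := [(6442451944, RectKind.iso 107)] },
  { x2 := 111270148, f0 := 0, f1 := 0, f2 := 0, tp := 0, tm := 0, fuel := 0, hasPair := false,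
    rects := [(6442451944, RectKind.iso 105)] },
  { x2 := 120171759, f0 := 0, f1 := 0, f2 := 0, tp := 0, tm := 0, fuel := 0, hasPair := false,
    rects := [(6442451944, RectKind.iso 104)] },
  { x2 := 129785500, f0 := 0, f1 := 0, f2 := 0, tp := 0, tm := 0, fuel := 0, hasPair := false,
    rects := [(6442451944, RectKind.iso 102)] },
  { x2 := 140168340, f0 := 0, f1 := 0, f2 := 0, tp := 0, tm := 0, fuel := 0, hasPair := false,
    rects := [(6442451944, RectKind.iso 100)] },
  { x2 := 151381807, f0 := 0, f1 := 0, f2 := 0, tp := 0, tm := 0, fuel := 0, hasPair := false,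
    rects := [(6442451944, RectKind.iso 98)] },
  { x2 := 163492352, f0 := 0, f1 := 0, f2 := 0, tp := 0, tm := 0, fuel := 0, hasPair := false,
    rects := [(6442451944, RectKind.iso 96)] },
  { x2 := 176571740, f0 := 0, f1 := 0, f2 := 0, tp := 0, tm := 0, fuel := 0, hasPair := false,
    rects := [(6442451944, RectKind.iso 94)] },
  { x2 := 190697479, f0 := 0, f1 := 0, f2 := 0, tp := 0, tm := 0, fuel := 0, hasPair := false,
    rects := [(6442451944, RectKind.iso 92)] },
  { x2 := 205953277, f0 := 0, f1 := 0, f2 := 0, tp := 0, tm := 0, fuel := 0, hasPair := false,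
    rects := [(6442451944, RectKind.iso 90)] },
  { x2 := 222429539, f0 := 0, f1 := 0, f2 := 0, tp := 0, tm := 0, fuel := 0, hasPair := false,
    rects := [(6442451944, RectKind.iso 88)] },
  { x2 := 240223903, f0 := 0, f1 := 0, f2 := 0, tp := 0, tm := 0, fuel := 0, hasPair := false,
    rects := [(6442451944, RectKind.iso 86)] },
  { x2 := 259441815, f0 := 0, f1 := 0, f2 := 0, tp := 0, tm := 0, fuel := 0, hasPair := false,
    rects := [(6442451944, RectKind.iso 84)] },
  { x2 := 280197160, f0 := 0, f1 := 0, f2 := 0, tp := 0, tm := 0, fuel := 0, hasPair := false,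
    rects := [(6442451944, RectKind.iso 82)] },
  { x2 := 302612933, f0 := 0, f1 := 0, f2 := 0, tp := 0, tm := 0, fuel := 0, hasPair := false,
    rects := [(6442451944, RectKind.iso 80)] },
  { x2 := 326821967, f0 := 0, f1 := 0, f2 := 0, tp := 0, tm := 0, fuel := 0, hasPair := false,
    rects := [(6442451944, RectKind.iso 78)] },
  { x2 := 352967724, f0 := 0, f1 := 0, f2 := 0, tp := 0, tm := 0, fuel := 0, hasPair := false,
    rects := [(6442451944, RectKind.iso 77)] },
  { x2 := 381205142, f0 := 0, f1 := 0, f2 := 0, tp := 0, tm := 0, fuel := 0, hasPair := false,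
    rects := [(6442451944, RectKind.iso 75)] },
  { x2 := 411701554, f0 := 0, f1 := 0, f2 := 0, tp := 0, tm := 0, fuel := 0, hasPair := false,
    rects := [(6442451944, RectKind.iso 73)] },
  { x2 := 444637678, f0 := 0, f1 := 0, f2 := 0, tp := 0, tm := 0, fuel := 0, hasPair := false,
    rects := [(6442451944, RectKind.iso 72)] },
  { x2 := 480208692, f0 := 0, f1 := 0, f2 := 0, tp := 0, tm := 0, fuel := 0, hasPair := false,
    rects := [(6442451944, RectKind.iso 70)] },
  { x2 := 518625387, f0 := 0, f1 := 0, f2 := 0, tp := 0, tm := 0, fuel := 0, hasPair := false,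
    rects := [(6442451944, RectKind.iso 69)] },
  { x2 := 560115418, f0 := 0, f1 := 0, f2 := 0, tp := 0, tm := 0, fuel := 0, hasPair := false,
    rects := [(6442451944, RectKind.iso 68)] },
  { x2 := 604924652, f0 := 0, f1 := 0, f2 := 0, tp := 0, tm := 0, fuel := 0, hasPair := false,
    rects := [(6442451944, RectKind.iso 68)] },
  { x2 := 653318624, f0 := 0, f1 := 885006115, f2 := 1571065463, tp := 411739394, tm := 0, fuel := 40, hasPair := true,
    rects := [(6442451944, RectKind.tan 48)] },
  { x2 := 705584114, f0 := 0, f1 := 876563824, f2 := 1508748261, tp := 388383097, tm := 0, fuel := 40, hasPair := true,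
    rects := [(6442451944, RectKind.tan 44)] },
  { x2 := 762030843, f0 := 0, f1 := 866974703, f2 := 1420329151, tp := 319760759, tm := 0, fuel := 40, hasPair := true,
    rects := [(6442451944, RectKind.tan 41)] },
  { x2 := 822993310, f0 := 0, f1 := 858233390, f2 := 1355080810, tp := 293785789, tm := 0, fuel := 40, hasPair := true,
    rects := [(6442451944, RectKind.tan 38)] },
  { x2 := 888832775, f0 := 0, f1 := 847476832, f2 := 1255722693, tp := 221389829, tm := 0, fuel := 40, hasPair := true,
    rects := [(6442451944, RectKind.tan 35)] },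
  { x2 := 959939397, f0 := 0, f1 := 838140835, f2 := 1188522474, tp := 194196124, tm := 0, fuel := 40, hasPair := true,
    rects := [(6442451944, RectKind.tan 32)] },
  { x2 := 1036734549, f0 := 0, f1 := 825833293, f2 := 1079482364, tp := 120474456, tm := 0, fuel := 40, hasPair := true,
    rects := [(6442451944, RectKind.tan 29)] },
  { x2 := 1119673313, f0 := 0, f1 := 811972749, f2 := 960947533, tp := 46103763, tm := 0, fuel := 40, hasPair := true,
    rects := [(6442451944, RectKind.tan 26)] },
  { x2 := 1209247178, f0 := 0, f1 := 796709587, f2 := 833475266, tp := 0, tm := 28633839, fuel := 40, hasPair := true,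
    rects := [(6442451944, RectKind.tan 23)] },
  { x2 := 1305986952, f0 := 0, f1 := 785651327, f2 := 769295088, tp := 0, tm := 52018309, fuel := 40, hasPair := true,
    rects := [(6442451944, RectKind.tan 20)] },
  { x2 := 1410465908, f0 := 0, f1 := 775909905, f2 := 661288293, tp := 0, tm := 118393131, fuel := 40, hasPair := true,
    rects := [(6442451944, RectKind.tan 18)] },
  { x2 := 1523303181, f0 := 0, f1 := 767523716, f2 := 603255844, tp := 0, tm := 144825294, fuel := 40, hasPair := true,
    rects := [(6442451944, RectKind.tan 15)] },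
  { x2 := 1645167435, f0 := 0, f1 := 731171133, f2 := 488122674, tp := 0, tm := 204866317, fuel := 40, hasPair := true,
    rects := [(6442451944, RectKind.tan 12)] },
  { x2 := 1713477203, f0 := 0, f1 := 727931976, f2 := 437372173, tp := 0, tm := 235774618, fuel := 40, hasPair := true,
    rects := [(5583457984, RectKind.tan 9), (6442451944, RectKind.iso 5)] }] }

theorem cert_K14_2_ok : cert_K14_2.check = true := by decide +kernel

end Vale.Agent.P226
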