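import Vale.Agent.P226.Assemble

/-!
# Numerical certificate 3 of the case K14
-/

namespace Vale.Agent.P226

/-- Certificate number 3. -/
def cert_K14_3 : Cert :=
  { o := { mu := 944892805, L0 := 12018608671, L1 := 2638638559, e0 := 629, F0 := 1538021827, Kc := 14000, phiU := 1713444048 },
    K := 14, cK := 768991891, invK := 306783379, Y := 1713477203, Smin := 6442450944, Smax := 8589934592, Xtop := 1713444132, Kmax := 14000,
    strips := [
  { x2 := 893776, f0 := 0, f1 := 0, f2 := 0, tp := 0, tm := 0, fuel := 0, hasPair := false,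
    rects := [(8589935592, RectKind.iso 190)] },
  { x2 := 1340664, f0 := 0, f1 := 0, f2 := 0, tp := 0, tm := 0, fuel := 0, hasPair := false,
    rects := [(8589935592, RectKind.iso 184)] },
  { x2 := 2010996, f0 := 0, f1 := 0, f2 := 0, tp := 0, tm := 0, fuel := 0, hasPair := false,
    rects := [(8589935592, RectKind.iso 177)] },
  { x2 := 3016493, f0 := 0, f1 := 0, f2 := 0, tp := 0, tm := 0, fuel := 0, hasPair := false,
    rects := [(8589935592, RectKind.iso 172)] },
  { x2 := 4524740, f0 := 0, f1 := 0, f2 := 0, tp := 0, tm := 0, fuel := 0, hasPair := false,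
    rects := [(8589935592, RectKind.iso 166)] },
  { x2 := 6787109, f0 := 0, f1 := 0, f2 := 0, tp := 0, tm := 0, fuel := 0, hasPair := false,
    rects := [(8589935592, RectKind.iso 162)] },
  { x2 := 10180664, f0 := 0, f1 := 0, f2 := 0, tp := 0, tm := 0, fuel := 0, hasPair := false,
    rects := [(8589935592, RectKind.iso 155)] },
  { x2 := 15270995, f0 := 0, f1 := 0, f2 := 0, tp := 0, tm := 0, fuel := 0, hasPair := false,
    rects := [(8589935592, RectKind.iso 151)] },
  { x2 := 22906493, f0 := 0, f1 := 0, f2 := 0, tp := 0, tm := 0, fuel := 0, hasPair := false,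
    rects := [(8589935592, RectKind.iso 145)] },
  { x2 := 34359739, f0 := 0, f1 := 0, f2 := 0, tp := 0, tm := 0, fuel := 0, hasPair := false,
    rects := [(8589935592, RectKind.iso 138)] },
  { x2 := 51539608, f0 := 0, f1 := 0, f2 := 0, tp := 0, tm := 0, fuel := 0, hasPair := false,
    rects := [(8589935592, RectKind.iso 133)] },
  { x2 := 55662777, f0 := 0, f1 := 0, f2 := 0, tp := 0, tm := 0, fuel := 0, hasPair := false,
    rects := [(8589935592, RectKind.iso 123)] },
  { x2 := 60115799, f0 := 0, f1 := 0, f2 := 0, tp := 0, tm := 0, fuel := 0, hasPair := false,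
    rects := [(8589935592, RectKind.iso 121)] },
  { x2 := 64925063, f0 := 0, f1 := 0, f2 := 0, tp := 0, tm := 0, fuel := 0, hasPair := false,
    rects := [(8589935592, RectKind.iso 119)] },
  { x2 := 70119068, f0 := 0, f1 := 0, f2 := 0, tp := 0, tm := 0, fuel := 0, hasPair := false,
    rects := [(8589935592, RectKind.iso 117)] },
  { x2 := 75728593, f0 := 0, f1 := 0, f2 := 0, tp := 0, tm := 0, fuel := 0, hasPair := false,
    rects := [(8589935592, RectKind.iso 115)] },
  { x2 := 81786880, f0 := 0, f1 := 0, f2 := 0, tp := 0, tm := 0, fuel := 0, hasPair := false,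
    rects := [(8589935592, RectKind.iso 113)] },
  { x2 := 88329831, f0 := 0, f1 := 0, f2 := 0, tp := 0, tm := 0, fuel := 0, hasPair := false,
    rects := [(8589935592, RectKind.iso 111)] },
  { x2 := 95396217, f0 := 0, f1 := 0, f2 := 0, tp := 0, tm := 0, fuel := 0, hasPair := false,
    rects := [(8589935592, RectKind.iso 109)] },
  { x2 := 103027914, f0 := 0, f1 := 0, f2 := 0, tp := 0, tm := 0, fuel := 0, hasPair := false,
    rects := [(8589935592, RectKind.iso 107)] },
  { x2 := 111270148, f0 := 0, f1 := 0, f2 := 0, tp := 0, tm := 0, fuel := 0, hasPair := false,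
    rects := [(8589935592, RectKind.iso 105)] },
  { x2 := 120171759, f0 := 0, f1 := 0, f2 := 0, tp := 0, tm := 0, fuel := 0, hasPair := false,
    rects := [(8589935592, RectKind.iso 103)] },
  { x2 := 129785500, f0 := 0, f1 := 0, f2 := 0, tp := 0, tm := 0, fuel := 0, hasPair := false,
    rects := [(8589935592, RectKind.iso 101)] },
  { x2 := 140168340, f0 := 0, f1 := 0, f2 := 0, tp := 0, tm := 0, fuel := 0, hasPair := false,
    rects := [(8589935592, RectKind.iso 99)] },
  { x2 := 151381807, f0 := 0, f1 := 0, f2 := 0, tp := 0, tm := 0, fuel := 0, hasPair := false,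
    rects := [(8589935592, RectKind.iso 97)] },
  { x2 := 163492352, f0 := 0, f1 := 0, f2 := 0, tp := 0, tm := 0, fuel := 0, hasPair := false,
    rects := [(8589935592, RectKind.iso 95)] },
  { x2 := 176571740, f0 := 0, f1 := 0, f2 := 0, tp := 0, tm := 0, fuel := 0, hasPair := false,
    rects := [(8589935592, RectKind.iso 93)] },
  { x2 := 190697479, f0 := 0, f1 := 0, f2 := 0, tp := 0, tm := 0, fuel := 0, hasPair := false,
    rects := [(8589935592, RectKind.iso 91)] },
  { x2 := 205953277, f0 := 0, f1 := 0, f2 := 0, tp := 0, tm := 0, fuel := 0, hasPair := false,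
    rects := [(8589935592, RectKind.iso 89)] },
  { x2 := 222429539, f0 := 0, f1 := 0, f2 := 0, tp := 0, tm := 0, fuel := 0, hasPair := false,
    rects := [(8589935592, RectKind.iso 86)] },
  { x2 := 240223903, f0 := 0, f1 := 0, f2 := 0, tp := 0, tm := 0, fuel := 0, hasPair := false,
    rects := [(8589935592, RectKind.iso 84)] },
  { x2 := 259441815, f0 := 0, f1 := 0, f2 := 0, tp := 0, tm := 0, fuel := 0, hasPair := false,
    rects := [(8589935592, RectKind.iso 82)] },
  { x2 := 280197160, f0 := 0, f1 := 0, f2 := 0, tp := 0, tm := 0, fuel := 0, hasPair := false,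
    rects := [(8589935592, RectKind.iso 80)] },
  { x2 := 302612933, f0 := 0, f1 := 0, f2 := 0, tp := 0, tm := 0, fuel := 0, hasPair := false,
    rects := [(8589935592, RectKind.iso 78)] },
  { x2 := 326821967, f0 := 0, f1 := 0, f2 := 0, tp := 0, tm := 0, fuel := 0, hasPair := false,
    rects := [(8589935592, RectKind.iso 76)] },
  { x2 := 352967724, f0 := 0, f1 := 0, f2 := 0, tp := 0, tm := 0, fuel := 0, hasPair := false,
    rects := [(8589935592, RectKind.iso 74)] },
  { x2 := 381205142, f0 := 0, f1 := 0, f2 := 0, tp := 0, tm := 0, fuel := 0, hasPair := false,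
    rects := [(8589935592, RectKind.iso 72)] },
  { x2 := 411701554, f0 := 0, f1 := 0, f2 := 0, tp := 0, tm := 0, fuel := 0, hasPair := false,
    rects := [(8589935592, RectKind.iso 70)] },
  { x2 := 444637678, f0 := 0, f1 := 0, f2 := 0, tp := 0, tm := 0, fuel := 0, hasPair := false,
    rects := [(8589935592, RectKind.iso 68)] },
  { x2 := 480208692, f0 := 0, f1 := 0, f2 := 0, tp := 0, tm := 0, fuel := 0, hasPair := false,
    rects := [(8589935592, RectKind.iso 66)] },
  { x2 := 518625387, f0 := 0, f1 := 0, f2 := 0, tp := 0, tm := 0, fuel := 0, hasPair := false,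
    rects := [(8589935592, RectKind.iso 64)] },
  { x2 := 560115418, f0 := 0, f1 := 0, f2 := 0, tp := 0, tm := 0, fuel := 0, hasPair := false,
    rects := [(8589935592, RectKind.iso 62)] },
  { x2 := 604924652, f0 := 0, f1 := 0, f2 := 0, tp := 0, tm := 0, fuel := 0, hasPair := false,
    rects := [(8589935592, RectKind.iso 61)] },
  { x2 := 653318624, f0 := 0, f1 := 0, f2 := 0, tp := 0, tm := 0, fuel := 0, hasPair := false,
    rects := [(8589935592, RectKind.iso 59)] },
  { x2 := 705584114, f0 := 0, f1 := 0, f2 := 0, tp := 0, tm := 0, fuel := 0, hasPair := false,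
    rects := [(8589935592, RectKind.iso 57)] },
  { x2 := 762030843, f0 := 0, f1 := 0, f2 := 0, tp := 0, tm := 0, fuel := 0, hasPair := false,
    rects := [(8589935592, RectKind.iso 56)] },
  { x2 := 822993310, f0 := 0, f1 := 0, f2 := 0, tp := 0, tm := 0, fuel := 0, hasPair := false,
    rects := [(8589935592, RectKind.iso 54)] },
  { x2 := 888832775, f0 := 0, f1 := 0, f2 := 0, tp := 0, tm := 0, fuel := 0, hasPair := false,
    rects := [(8589935592, RectKind.iso 57)] },
  { x2 := 959939397, f0 := 0, f1 := 835705728, f2 := 1147039548, tp := 147148837, tm := 0, fuel := 40, hasPair := true,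
    rects := [(8589935592, RectKind.tan 58)] },
  { x2 := 1036734549, f0 := 0, f1 := 822581450, f2 := 1028500412, tp := 71654419, tm := 0, fuel := 40, hasPair := true,
    rects := [(8589935592, RectKind.tan 53)] },
  { x2 := 1119673313, f0 := 0, f1 := 808102203, f2 := 900265638, tp := 0, tm := 4741305, fuel := 40, hasPair := true,
    rects := [(8589935592, RectKind.tan 48)] },
  { x2 := 1209247178, f0 := 0, f1 := 795593364, f2 := 816291094, tp := 0, tm := 41387772, fuel := 40, hasPair := true,
    rects := [(8589935592, RectKind.tan 43)] },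
  { x2 := 1305986952, f0 := 0, f1 := 784750260, f2 := 740431484, tp := 0, tm := 75604629, fuel := 40, hasPair := true,
    rects := [(8589935592, RectKind.tan 38)] },
  { x2 := 1410465908, f0 := 0, f1 := 775195328, f2 := 670532348, tp := 0, tm := 108609971, fuel := 40, hasPair := true,
    rects := [(8589935592, RectKind.tan 34)] },
  { x2 := 1523303181, f0 := 0, f1 := 767307509, f2 := 604508859, tp := 0, tm := 143233987, fuel := 40, hasPair := true,
    rects := [(7516193268, RectKind.tan 26), (8589935592, RectKind.iso 22)] },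
  { x2 := 1645167435, f0 := 0, f1 := 723089410, f2 := 529160734, tp := 0, tm := 155959235, fuel := 40, hasPair := true,
    rects := [(6979322106, RectKind.tan 19), (7516193268, RectKind.iso 14), (8589935592, RectKind.iso 11)] },
  { x2 := 1713477203, f0 := 0, f1 := 0, f2 := 0, tp := 0, tm := 0, fuel := 0, hasPair := false,
    rects := [(8589935592, RectKind.iso 3)] }] }

theorem cert_K14_3_ok : cert_K14_3.check = true := by decide +kernel

end Vale.Agent.P226
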