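import Vale.Agent.P226.DataK14_0
import Vale.Agent.P226.DataK14_1
import Vale.Agent.P226.DataK14_2
import Vale.Agent.P226.DataK14_3
import Vale.Agent.P226.DataK14_4

/-!
# Numerical certificates for the bound on obtuse fixed points, case K14
-/

namespace Vale.Agent.P226

/-- The chain of certificates. -/
def certs_K14 : List Cert := [cert_K14_0, cert_K14_1, cert_K14_2, cert_K14_3, cert_K14_4]

/-- The chain passes all checks. -/
theorem certs_K14_check : certsOK topV 14 14000 0 certs_K14 = true :=
  certsOK_cons cert_K14_0_ok (by decide +kernel)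
    (certsOK_cons cert_K14_1_ok (by decide +kernel)
    (certsOK_cons cert_K14_2_ok (by decide +kernel)
    (certsOK_cons cert_K14_3_ok (by decide +kernel)
    (certsOK_cons cert_K14_4_ok (by decide +kernel)
    ((by decide +kernel : certsOK topV 14 14000 cert_K14_4.Smax [] = true))))))

/-- Bound for the obtuse fixed points in this range of the number of cells. -/
theorem obtuse_K14 {d k : ℕ} (hk1 : 14 ≤ k) (hk2 : k ≤ 14000) {Z : Fin k → Euc d} (hZ : ObtuseFP Z) :
    ∑ i, ‖Z i‖ ^ 2 ≤ 9 / (8 * Real.pi) :=
  obtuse_of_chain (by norm_num) (by norm_num) hk1 hk2 certs_K14_check hZ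

end Vale.Agent.P226
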