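import Mathlib

/-!
# Gaussian propeller conjecture: basic definitions

`Euc d` is `R^d`, the standard Gaussian measure is Mathlib's `stdGaussian`,
`gaussMoment A` is the unnormalised first moment of `A`, `IsMeasPartition A` says that the
cells `A i` form a measurable partition, and `propF A` is the sum of the squared norms of the
first moments.
-/

open MeasureTheory ProbabilityTheory

namespace Vale.Agent.P226

/-- Euclidean space `R^d`. -/
abbrev Euc (d : ℕ) := EuclideanSpace ℝ (Fin d)

/-- The Gaussian first moment `z(A) = ∫_A x dγ_d(x)`, not divided by `γ_d(A)`. -/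
noncomputable def gaussMoment {d : ℕ} (A : Set (Euc d)) : Euc d :=
  ∫ x in A, x ∂(stdGaussian (Euc d))

/-- `A` is a measurable partition of `R^d` into cells indexed by `Fin k`; cells may be empty. -/
structure IsMeasPartition {d k : ℕ} (A : Fin k → Set (Euc d)) : Prop where
  measurable : ∀ i, MeasurableSet (A i)
  disjoint : Pairwise fun i j => Disjoint (A i) (A j)
  cover : ⋃ i, A i = Set.univ

/-- The functional `F(A_1,...,A_k) = ∑ |z(A_i)|^2`. -/
noncomputable def propF {d k : ℕ} (A : Fin k → Set (Euc d)) : ℝ :=
  ∑ i, ‖gaussMoment (A i)‖ ^ 2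

end Vale.Agent.P226
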