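import Vale.Agent.P226.Gauss1D

/-!
# The standard Gaussian on `R^m`: density, and independence of radius and direction
-/

open MeasureTheory ProbabilityTheory Set Filter Topology
open scoped ENNReal

namespace Vale.Agent.P226

variable {m : ℕ}

/-- The density of the standard Gaussian on `Euc m`. -/
noncomputable def gaussDens (m : ℕ) (x : Euc m) : ℝ := phi0 ^ m * Real.exp (-‖x‖ ^ 2 / 2)

lemma gaussDens_nonneg (m : ℕ) (x : Euc m) : 0 ≤ gaussDens m x := by
  unfold gaussDens
  have := phi0_pos
  positivity

lemma measurable_gaussDens (m : ℕ) : Measurable (gaussDens m) := by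
  unfold gaussDens
  fun_prop

lemma prod_phi_eq (x : Fin m → ℝ) :
    ∏ i, phi (x i) = gaussDens m (WithLp.toLp 2 x) := by
  unfold gaussDens phi phi0
  rw [Finset.prod_mul_distrib, Finset.prod_const, Finset.card_univ, Fintype.card_fin,
    ← Real.exp_sum]
  congr 2
  rw [EuclideanSpace.norm_sq_eq, ← Finset.sum_neg_distrib, Finset.sum_div]
  apply Finset.sum_congr rfl
  intro i _
  simp

lemma gaussianReal_apply_phi {s : Set ℝ} (hs : MeasurableSet s) :
    gaussianReal 0 1 s = ENNReal.ofReal (∫ t, s.indicator phi t) := by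
  rw [gaussianReal_of_var_ne_zero _ (by norm_num), withDensity_apply _ hs, integral_indicator hs,
    ofReal_integral_eq_lintegral_ofReal]
  · apply lintegral_congr
    intro t
    rw [gaussianPDF, phi_eq_pdf]
  · have h : Integrable (gaussianPDFReal 0 1) := integrable_gaussianPDFReal 0 1
    have h2 : phi = gaussianPDFReal 0 1 := funext phi_eq_pdf
    rw [h2]
    exact h.integrableOn
  · filter_upwards with t
    exact (phi_pos t).le

/-- The product of one-dimensional Gaussians has the product density. -/
theorem pi_gauss_eq_withDensity (m : ℕ) :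
    Measure.pi (fun _ : Fin m => gaussianReal 0 1) =
      (volume : Measure (Fin m → ℝ)).withDensity
        (fun x => ENNReal.ofReal (∏ i, phi (x i))) := by
  apply Measure.pi_eq
  intro s hs
  rw [withDensity_apply _ (MeasurableSet.univ_pi hs)]
  have h1 : ∀ i, Integrable ((s i).indicator phi) := fun i => integrable_phi.indicator (hs i)
  have hset : ∫⁻ x in Set.pi univ s, ENNReal.ofReal (∏ i, phi (x i)) =
      ∫⁻ x : Fin m → ℝ, ENNReal.ofReal (∏ i, (s i).indicator phi (x i)) := by
    rw [← lintegral_indicator (MeasurableSet.univ_pi hs)]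
    apply lintegral_congr
    intro x
    by_cases hx : x ∈ Set.pi univ s
    · rw [indicator_of_mem hx]
      congr 2
      funext i
      rw [indicator_of_mem (hx i (mem_univ i))]
    · rw [indicator_of_notMem hx]
      obtain ⟨i, -, hi⟩ : ∃ i ∈ (univ : Set (Fin m)), x i ∉ s i := by
        simpa [Set.mem_pi] using hx
      have : ∏ i, (s i).indicator phi (x i) = 0 :=
        Finset.prod_eq_zero (Finset.mem_univ i) (indicator_of_notMem hi _)
      rw [this]
      simp
  rw [hset]
  have hint : Integrable (fun x : Fin m → ℝ => ∏ i, (s i).indicator phi (x i)) :=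
    Integrable.fintype_prod h1
  have hnn : 0 ≤ᵐ[volume] (fun x : Fin m → ℝ => ∏ i, (s i).indicator phi (x i)) := by
    filter_upwards with x
    apply Finset.prod_nonneg
    intro i _
    exact indicator_nonneg (fun t _ => (phi_pos t).le) _
  rw [← ofReal_integral_eq_lintegral_ofReal hint hnn,
    integral_fintype_prod_volume_eq_prod (fun i => (s i).indicator phi),
    ENNReal.ofReal_prod_of_nonneg]
  · apply Finset.prod_congr rfl
    intro i _
    rw [gaussianReal_apply_phi (hs i)]
  · intro i _
    apply integral_nonneg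
    intro t
    exact indicator_nonneg (fun t _ => (phi_pos t).le) _

/-- The standard Gaussian measure has the usual density with respect to volume. -/
theorem stdGaussian_eq_withDensity (m : ℕ) :
    stdGaussian (Euc m) = (volume : Measure (Euc m)).withDensity
      (fun x => ENNReal.ofReal (gaussDens m x)) := by
  rw [← map_pi_eq_stdGaussian, pi_gauss_eq_withDensity]
  have hmp := PiLp.volume_preserving_toLp (Fin m)
  ext A hA
  rw [Measure.map_apply hmp.measurable hA, withDensity_apply _ (hmp.measurable hA),
    withDensity_apply _ hA]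
  have hf : Measurable (fun x : Euc m => ENNReal.ofReal (gaussDens m x)) :=
    (measurable_gaussDens m).ennreal_ofReal
  simp_rw [prod_phi_eq]
  exact hmp.setLIntegral_comp_preimage hA hf

/-- A set is a cone if it is invariant under positive dilations. -/
def IsConeSet (R : Set (Euc m)) : Prop := ∀ c : ℝ, 0 < c → ∀ y, c • y ∈ R ↔ y ∈ R

/-- The radial weight. -/
noncomputable def radW (m : ℕ) (r : Ioi (0 : ℝ)) : ℝ≥0∞ :=
  ENNReal.ofReal (phi0 ^ m * Real.exp (-(r : ℝ) ^ 2 / 2))

lemma measurable_radW (m : ℕ) : Measurable (radW m) := by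
  unfold radW
  apply Measurable.ennreal_ofReal
  have : Measurable (fun r : Ioi (0 : ℝ) => (r : ℝ)) := measurable_subtype_coe
  fun_prop

/-- Polar decomposition of the standard Gaussian. -/
theorem polar_gauss (hm : 1 ≤ m) (F : Euc m → ℝ≥0∞) (hF : Measurable F) :
    ∫⁻ y, F y ∂(stdGaussian (Euc m)) =
      ∫⁻ u, ∫⁻ r, F ((r : ℝ) • (u : Euc m)) * radW m r
        ∂(Measure.volumeIoiPow (Module.finrank ℝ (Euc m) - 1))
        ∂((volume : Measure (Euc m)).toSphere) := by
  have hd : Measurable (fun x : Euc m => ENNReal.ofReal (gaussDens m x)) :=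
    (measurable_gaussDens m).ennreal_ofReal
  have : Nonempty (Fin m) := ⟨⟨0, hm⟩⟩
  rw [stdGaussian_eq_withDensity, lintegral_withDensity_eq_lintegral_mul _ hd hF]
  set G : Euc m → ℝ≥0∞ := fun y => ENNReal.ofReal (gaussDens m y) * F y with hG
  have hGm : Measurable G := hd.mul hF
  have hz : (volume : Measure (Euc m)) {0}ᶜᶜ = 0 := by
    simp
  have h1 : ∫⁻ y, G y ∂(volume : Measure (Euc m)) =
      ∫⁻ y, G y ∂((volume : Measure (Euc m)).restrict {0}ᶜ) := by
    rw [Measure.restrict_eq_self_of_ae_mem]
    rw [ae_iff]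
    simp
  have h2 : ∫⁻ y, G y ∂((volume : Measure (Euc m)).restrict {0}ᶜ) =
      ∫⁻ y : ({0}ᶜ : Set (Euc m)), G y
        ∂((volume : Measure (Euc m)).comap Subtype.val) := by
    rw [← map_comap_subtype_coe (measurableSet_singleton (0 : Euc m)).compl,
      lintegral_map hGm measurable_subtype_coe]
  have hmp := (volume : Measure (Euc m)).measurePreserving_homeomorphUnitSphereProd
  have h3 : ∫⁻ y : ({0}ᶜ : Set (Euc m)), G y ∂((volume : Measure (Euc m)).comap Subtype.val) =
      ∫⁻ p, G (((homeomorphUnitSphereProd (Euc m)).symm p : ({0}ᶜ : Set (Euc m))) : Euc m)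
        ∂((volume : Measure (Euc m)).toSphere.prod
          (Measure.volumeIoiPow (Module.finrank ℝ (Euc m) - 1))) := by
    rw [← hmp.map_eq, lintegral_map _ hmp.measurable]
    · apply lintegral_congr
      intro y
      simp
    · exact hGm.comp (measurable_subtype_coe.comp (homeomorphUnitSphereProd (Euc m)).symm.measurable)
  change ∫⁻ y, G y ∂(volume : Measure (Euc m)) = _
  rw [h1, h2, h3, lintegral_prod]
  · apply lintegral_congr
    intro u
    apply lintegral_congr
    intro r
    have hu : ‖(u : Euc m)‖ = 1 := by simp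
    have hr : (0 : ℝ) < r := r.2
    simp only [hG, homeomorphUnitSphereProd_symm_apply_coe, radW, gaussDens, norm_smul, hu, mul_one,
      Real.norm_eq_abs, abs_of_pos hr]
    rw [mul_comm]
  · exact (hGm.comp (measurable_subtype_coe.comp
      (homeomorphUnitSphereProd (Euc m)).symm.measurable)).aemeasurable

/-- **Independence of radius and direction.**  If `H y r` is invariant under positive dilations of
`y`, then in the integral of `H y ‖y‖` the radius can be replaced by an independent one. -/
theorem radial_indep (hm : 1 ≤ m) (H : Euc m → ℝ → ℝ≥0∞)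
    (hH : Measurable (Function.uncurry H)) (hhom : ∀ c : ℝ, 0 < c → ∀ y r, H (c • y) r = H y r) :
    ∫⁻ y, H y ‖y‖ ∂(stdGaussian (Euc m)) =
      ∫⁻ y, ∫⁻ y', H y ‖y'‖ ∂(stdGaussian (Euc m)) ∂(stdGaussian (Euc m)) := by
  set σ := (volume : Measure (Euc m)).toSphere with hσ
  set ρ := Measure.volumeIoiPow (Module.finrank ℝ (Euc m) - 1) with hρ
  have hrad := measurable_radW m
  have hHy : ∀ y, Measurable (H y) := fun y => by
    have : H y = Function.uncurry H ∘ (fun r => (y, r)) := rfl
    rw [this]
    exact hH.comp (by fun_prop)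
  -- the function `A`
  set A : Euc m → ℝ≥0∞ := fun y => ∫⁻ r, H y (r : ℝ) * radW m r ∂ρ with hA
  have hAm : Measurable A := by
    apply Measurable.lintegral_prod_right'
      (f := fun p : Euc m × Ioi (0 : ℝ) => H p.1 (p.2 : ℝ) * radW m p.2)
    apply Measurable.mul
    · exact hH.comp (measurable_fst.prodMk (measurable_subtype_coe.comp measurable_snd))
    · exact hrad.comp measurable_snd
  have hAhom : ∀ (c : ℝ), 0 < c → ∀ y, A (c • y) = A y := by
    intro c hc y
    simp only [hA, hhom c hc]
  -- inner integral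
  have hinner : ∀ y, ∫⁻ y', H y ‖y'‖ ∂(stdGaussian (Euc m)) = σ univ * A y := by
    intro y
    rw [polar_gauss hm (fun y' => H y ‖y'‖) ((hHy y).comp measurable_norm)]
    have : ∀ (u : Metric.sphere (0 : Euc m) 1), ∫⁻ r, H y ‖(r : ℝ) • (u : Euc m)‖ * radW m r ∂ρ = A y := by
      intro u
      apply lintegral_congr
      intro r
      have hu : ‖(u : Euc m)‖ = 1 := by simp
      have hr : (0 : ℝ) < r := r.2
      rw [norm_smul, hu, mul_one, Real.norm_eq_abs, abs_of_pos hr]
    refine (lintegral_congr this).trans ?_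
    rw [lintegral_const, mul_comm]
  -- the left side
  have hL : ∫⁻ y, H y ‖y‖ ∂(stdGaussian (Euc m)) = ∫⁻ u, A (u : Euc m) ∂σ := by
    have hmeas : Measurable (fun y : Euc m => H y ‖y‖) :=
      hH.comp (measurable_id.prodMk measurable_norm)
    rw [polar_gauss hm _ hmeas]
    apply lintegral_congr
    intro u
    apply lintegral_congr
    intro r
    have hu : ‖(u : Euc m)‖ = 1 := by simp
    have hr : (0 : ℝ) < r := r.2
    rw [norm_smul, hu, mul_one, Real.norm_eq_abs, abs_of_pos hr, hhom _ hr]
  -- normalisation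
  have hnorm : σ univ * ∫⁻ r, radW m r ∂ρ = 1 := by
    have h1 := polar_gauss hm (fun _ => 1) measurable_const
    simp only [one_mul, lintegral_const, measure_univ, mul_one] at h1
    rw [← hσ, ← hρ] at h1
    rw [mul_comm]
    exact h1.symm
  -- the right side
  simp_rw [hinner]
  rw [polar_gauss hm (fun y => σ univ * A y) (hAm.const_mul _), hL]
  have hstep : ∀ u : Metric.sphere (0 : Euc m) 1,
      ∫⁻ r, σ univ * A ((r : ℝ) • (u : Euc m)) * radW m r ∂ρ = A u := by
    intro u
    have : ∀ r : Ioi (0 : ℝ), σ univ * A ((r : ℝ) • (u : Euc m)) * radW m r =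
        (σ univ * A u) * radW m r := by
      intro r
      rw [hAhom _ r.2]
    simp_rw [this]
    rw [lintegral_const_mul _ hrad, mul_right_comm, hnorm, one_mul]
  exact (lintegral_congr hstep).symm

end Vale.Agent.P226
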