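import Vale.Agent.P226.Moment

/-!
# Linear bound for the facet integrals, and the elementary cell bounds

`psiHat s = φ(s) - s Q(s)` is the value of `∫ (t - s)₊ dγ₁`.
-/

open MeasureTheory ProbabilityTheory Set Filter Topology

namespace Vale.Agent.P226

variable {d k : ℕ}

/-- The function `ψ̂(s) = φ(s) - s Q(s)`. -/
noncomputable def psiHat (s : ℝ) : ℝ := phi s - s * Qf s

lemma phi_mul_phi (a b : ℝ) : phi a * phi b = phi0 * phi (Real.sqrt (a ^ 2 + b ^ 2)) := by
  unfold phi phi0
  rw [Real.sq_sqrt (by positivity)]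
  have : Real.exp (-(a ^ 2 + b ^ 2) / 2) = Real.exp (-a ^ 2 / 2) * Real.exp (-b ^ 2 / 2) := by
    rw [← Real.exp_add]; congr 1; ring
  rw [this]; ring

lemma continuous_psiHat : Continuous psiHat := by
  unfold psiHat
  exact continuous_phi.sub (continuous_id.mul continuous_Qf)

lemma integrable_phi_mul_pos (c : ℝ) : Integrable (fun s => phi s * max (s - c) 0) := by
  have h1 : Integrable (fun s => phi s * |s - c|) := by
    have h2 : Integrable (fun s => phi s * |s| + |c| * phi s) :=
      (integrable_phi_mul_id.norm.congr (by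
        filter_upwards with s
        simp only [norm_mul, Real.norm_eq_abs, abs_of_pos (phi_pos s)])).add
        (integrable_phi.const_mul _)
    refine h2.mono' ?_ ?_
    · exact (continuous_phi.mul (by fun_prop)).aestronglyMeasurable
    · filter_upwards with s
      rw [Real.norm_eq_abs, abs_of_nonneg (mul_nonneg (phi_pos s).le (abs_nonneg _))]
      have h3 : |s - c| ≤ |s| + |c| := abs_sub _ _
      have := phi_pos s
      nlinarith
  refine h1.mono' (continuous_phi.mul (by fun_prop)).aestronglyMeasurable ?_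
  filter_upwards with s
  rw [Real.norm_eq_abs, abs_of_nonneg (mul_nonneg (phi_pos s).le (le_max_right _ _))]
  refine mul_le_mul_of_nonneg_left ?_ (phi_pos s).le
  exact max_le (le_abs_self _) (abs_nonneg _)

/-- `∫ φ(s) (s - c)₊ ds = ψ̂(c)`. -/
lemma integral_phi_mul_pos (c : ℝ) : ∫ s, phi s * max (s - c) 0 = psiHat c := by
  have h1 : ∫ s, phi s * max (s - c) 0 = ∫ s in Ioi c, (phi s * s - c * phi s) := by
    rw [← integral_indicator measurableSet_Ioi]
    congr 1
    funext s
    by_cases hs : s ∈ Ioi c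
    · rw [indicator_of_mem hs, max_eq_left (by have := mem_Ioi.1 hs; linarith)]
      ring
    · rw [indicator_of_notMem hs, max_eq_right (by have : s ≤ c := not_lt.1 hs; linarith)]
      ring
  rw [h1, integral_sub integrable_phi_mul_id.integrableOn
    (integrable_phi.const_mul c).integrableOn, integral_const_mul, ← Qf_eq,
    ← setIntegral_g1 _ measurableSet_Ioi, int_Ioi_id]
  rfl

lemma psiHat_nonneg (c : ℝ) : 0 ≤ psiHat c := by
  rw [← integral_phi_mul_pos]
  exact integral_nonneg fun s => mul_nonneg (phi_pos s).le (le_max_right _ _)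

/-- The one dimensional integral with the extra factor `φ(b t)`. -/
lemma integral_pos_mul_phi (b s : ℝ) :
    ∫ t, max (t - (Real.sqrt (1 + b ^ 2))⁻¹ * s) 0 * phi (b * t) ∂(gaussianReal 0 1) =
      phi0 * ((Real.sqrt (1 + b ^ 2))⁻¹) ^ 2 * psiHat s := by
  set r := Real.sqrt (1 + b ^ 2) with hr
  have hr2 : r ^ 2 = 1 + b ^ 2 := Real.sq_sqrt (by positivity)
  have hrpos : 0 < r := Real.sqrt_pos.2 (by positivity)
  rw [integral_g1, ← integral_phi_mul_pos]
  have hg := Measure.integral_comp_mul_left
    (fun t : ℝ => phi t * (max (t - r⁻¹ * s) 0 * phi (b * t))) (r⁻¹)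
  rw [inv_inv, abs_of_pos hrpos, smul_eq_mul] at hg
  have hg2 : ∫ t, phi t * (max (t - r⁻¹ * s) 0 * phi (b * t)) =
      r⁻¹ * ∫ u, phi (r⁻¹ * u) * (max (r⁻¹ * u - r⁻¹ * s) 0 * phi (b * (r⁻¹ * u))) := by
    rw [hg, ← mul_assoc, inv_mul_cancel₀ hrpos.ne', one_mul]
  rw [hg2, ← integral_const_mul, ← integral_const_mul]
  congr 1
  funext u
  have h1 : phi (r⁻¹ * u) * phi (b * (r⁻¹ * u)) = phi0 * phi u := by
    have : (r⁻¹ * u) ^ 2 + (b * (r⁻¹ * u)) ^ 2 = u ^ 2 := by
      field_simp
      nlinarith [hr2]
    rw [phi_mul_phi, this, Real.sqrt_sq_eq_abs]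
    congr 1
    unfold phi
    rw [sq_abs]
  have h2 : max (r⁻¹ * u - r⁻¹ * s) 0 = r⁻¹ * max (u - s) 0 := by
    rw [← mul_sub, mul_max_of_nonneg _ _ (inv_pos.2 hrpos).le, mul_zero]
  rw [h2]
  calc r⁻¹ * (phi (r⁻¹ * u) * (r⁻¹ * max (u - s) 0 * phi (b * (r⁻¹ * u))))
      = r⁻¹ * r⁻¹ * (phi (r⁻¹ * u) * phi (b * (r⁻¹ * u))) * max (u - s) 0 := by ring
    _ = _ := by rw [h1]; ring

section
variable {Z : Fin k → Euc d} {i : Fin k} (hZ : ObtuseFP Z) (hne : (Finset.univ.erase i).Nonempty)
include hZ

/-- **Facet linear bound.** For every `s`, the facet integral of `ζ φ(ζ)` is bounded by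
`s b σ β/k + φ(0) b σ² ψ̂(s)` with `b = ‖v_l‖`, `σ = (1 + b²)^(-1/2)`. -/
theorem facet_bound [NeZero k] {l : Fin k} (hl : l ≠ i) (s : ℝ) :
    ∫ x in regionR Z i hne l, inner ℝ x (cv Z i l) * phi (zeta Z i hne x) ∂(stdGaussian (Euc d)) ≤
      s * (‖cv Z i l‖ * (Real.sqrt (1 + ‖cv Z i l‖ ^ 2))⁻¹) * (cb Z i l / k) +
        phi0 * (‖cv Z i l‖ * ((Real.sqrt (1 + ‖cv Z i l‖ ^ 2))⁻¹) ^ 2) * psiHat s := by
  set v := cv Z i l with hv
  set b := ‖v‖ with hb
  set r := Real.sqrt (1 + b ^ 2) with hr
  have hrpos : 0 < r := Real.sqrt_pos.2 (by positivity)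
  have hzm := measurable_zeta (Z := Z) hne
  have hpeq := facetP_eq hZ hne hl
  by_cases hv0 : v = 0
  · have hb0 : b = 0 := by rw [hb, hv0, norm_zero]
    rw [hv0, hb0]
    simp
  have hbpos : 0 < b := norm_pos_iff.2 hv0
  set w := b⁻¹ • v with hw
  have hwn : ‖w‖ = 1 := by
    rw [hw, norm_smul, norm_inv, norm_norm]
    field_simp
  have hvw : ∀ x, inner ℝ x v = b * inner ℝ x w := by
    intro x
    rw [hw, real_inner_smul_right, ← mul_assoc, mul_inv_cancel₀ hbpos.ne', one_mul]
  set c := r⁻¹ * s with hc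
  -- the function on the right
  let G : Euc d → ℝ := fun x => max (inner ℝ x w - c) 0 * phi (b * inner ℝ x w)
  have hGm : Measurable G := by
    simp only [G]
    exact ((by fun_prop : Measurable fun x : Euc d => inner ℝ x w - c).max measurable_const).mul
      (measurable_phi.comp (by fun_prop))
  have hG0 : ∀ x, 0 ≤ G x := fun x => mul_nonneg (le_max_right _ _) (phi_pos _).le
  have hGint : ∫ x, G x ∂(stdGaussian (Euc d)) = phi0 * (r⁻¹) ^ 2 * psiHat s := by
    have h1 := integral_comp_inner w hwn
      (h := fun t => max (t - c) 0 * phi (b * t))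
      (by
        have : Measurable (fun t : ℝ => max (t - c) 0 * phi (b * t)) :=
          ((by fun_prop : Measurable fun t : ℝ => t - c).max measurable_const).mul
            (measurable_phi.comp (by fun_prop))
        exact this.aestronglyMeasurable)
    simp only [G]
    rw [h1, hc, hr]
    exact integral_pos_mul_phi b s
  have hGi : Integrable G (stdGaussian (Euc d)) := by
    have h2 : Integrable (fun t : ℝ => max (t - c) 0 * phi (b * t)) (gaussianReal 0 1) := by
      refine Integrable.mono' (g := fun t => (|t| + |c|) * phi0) ?_ ?_ ?_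
      · exact ((integrable_id_g1.abs).add (integrable_const _)).mul_const _
      · have : Measurable (fun t : ℝ => max (t - c) 0 * phi (b * t)) :=
          ((by fun_prop : Measurable fun t : ℝ => t - c).max measurable_const).mul
            (measurable_phi.comp (by fun_prop))
        exact this.aestronglyMeasurable
      · filter_upwards with t
        rw [Real.norm_eq_abs, abs_mul, abs_of_nonneg (le_max_right _ _), abs_of_pos (phi_pos _)]
        refine mul_le_mul ?_ (phi_le_phi0 _) (phi_pos _).le (by positivity)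
        refine max_le ?_ (by positivity)
        have := le_abs_self t
        have := neg_abs_le c
        linarith
    exact integrable_comp_inner w hwn h2
  have hI1 : Integrable (fun x => inner ℝ x v * phi (zeta Z i hne x)) (stdGaussian (Euc d)) := by
    refine (integrable_inner v).mul_bdd (c := phi0) (measurable_phi.comp hzm).aestronglyMeasurable ?_
    filter_upwards with x
    rw [Real.norm_eq_abs, abs_of_pos (phi_pos _)]
    exact phi_le_phi0 _
  have hIφ := integrable_phi_zeta (Z := Z) (i := i) hne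
  have hmono := setIntegral_mono_on (s := regionR Z i hne l) (μ := stdGaussian (Euc d))
    hI1.integrableOn
    (((hIφ.const_mul (b * c)).add (hGi.const_mul b)).integrableOn)
    (measurableSet_regionR hne l) (fun x hx => by
      have hzeta : zeta Z i hne x = inner ℝ x v := hx.2.1.symm
      simp only [Pi.add_apply]
      rw [hzeta, hvw x]
      simp only [G]
      set t := inner ℝ x w
      have h3 : t ≤ c + max (t - c) 0 := by
        have := le_max_left (t - c) 0
        linarith
      have h4 := mul_le_mul_of_nonneg_right h3 (mul_nonneg hbpos.le (phi_pos (b * t)).le)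
      nlinarith)
  refine hmono.trans ?_
  simp only [Pi.add_apply]
  rw [integral_add (hIφ.const_mul _).integrableOn (hGi.const_mul _).integrableOn,
    integral_const_mul, integral_const_mul]
  have h5 : ∫ x in regionR Z i hne l, phi (zeta Z i hne x) ∂(stdGaussian (Euc d)) = cb Z i l / k :=
    hpeq
  rw [h5]
  have h6 : ∫ x in regionR Z i hne l, G x ∂(stdGaussian (Euc d)) ≤ phi0 * (r⁻¹) ^ 2 * psiHat s := by
    rw [← hGint]
    exact setIntegral_le_integral hGi (Eventually.of_forall hG0)
  have h7 := mul_le_mul_of_nonneg_left h6 hbpos.le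
  rw [hc]
  nlinarith

end

end Vale.Agent.P226
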