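import Vale.Agent.P226.IBP1D

/-!
# Resampling one coordinate of the standard Gaussian
-/

open MeasureTheory ProbabilityTheory Set Filter Topology

namespace Vale.Agent.P226

variable {d : ℕ}

/-- Replace the `u`-coordinate of `p.1` with `p.2`. -/
noncomputable def resampleMap (u : Euc d) (p : Euc d × ℝ) : Euc d :=
  p.1 - (inner ℝ p.1 u) • u + p.2 • u

lemma measurable_resampleMap (u : Euc d) : Measurable (resampleMap u) := by
  unfold resampleMap
  fun_prop

/-- Resampling preserves the Gaussian law. -/
theorem resample_map (u : Euc d) (hu : ‖u‖ = 1) :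
    ((stdGaussian (Euc d)).prod (gaussianReal 0 1)).map (resampleMap u) = stdGaussian (Euc d) := by
  have : IsProbabilityMeasure
      (((stdGaussian (Euc d)).prod (gaussianReal 0 1)).map (resampleMap u)) :=
    Measure.isProbabilityMeasure_map (measurable_resampleMap u).aemeasurable
  apply Measure.ext_of_charFun
  funext t
  rw [charFun_apply, integral_map (measurable_resampleMap u).aemeasurable
    (Measurable.aestronglyMeasurable (by fun_prop)), charFun_stdGaussian]
  set c : ℝ := inner ℝ u t with hc
  set t' : Euc d := t - c • u with ht'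
  have hpt : ∀ p : Euc d × ℝ, inner ℝ (resampleMap u p) t = inner ℝ p.1 t' + p.2 * c := by
    intro p
    simp only [resampleMap, ht', inner_add_left, inner_sub_left, inner_smul_left, inner_sub_right,
      inner_smul_right, hc]
    simp
    ring
  have hsplit : ∀ p : Euc d × ℝ, Complex.exp (((inner ℝ (resampleMap u p) t : ℝ) : ℂ) * Complex.I) =
      Complex.exp (((inner ℝ p.1 t' : ℝ) : ℂ) * Complex.I) *
        Complex.exp (((p.2 * c : ℝ) : ℂ) * Complex.I) := by
    intro p
    rw [hpt, ← Complex.exp_add]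
    congr 1
    push_cast
    ring
  simp_rw [hsplit]
  rw [integral_prod_mul (fun x : Euc d => Complex.exp (((inner ℝ x t' : ℝ) : ℂ) * Complex.I))
    (fun g : ℝ => Complex.exp (((g * c : ℝ) : ℂ) * Complex.I))]
  have h1 : ∫ x : Euc d, Complex.exp (((inner ℝ x t' : ℝ) : ℂ) * Complex.I) ∂(stdGaussian (Euc d)) =
      Complex.exp (-(‖t'‖ : ℂ) ^ 2 / 2) := by
    have := charFun_stdGaussian (E := Euc d) t'
    rw [charFun_apply] at this
    simpa using this
  have h2 : ∫ g : ℝ, Complex.exp (((g * c : ℝ) : ℂ) * Complex.I) ∂(gaussianReal 0 1) =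
      Complex.exp (-((c : ℂ)) ^ 2 / 2) := by
    have := charFun_gaussianReal (μ := 0) (v := 1) c
    rw [charFun_apply_real] at this
    have h3 : ∀ g : ℝ, ((g * c : ℝ) : ℂ) * Complex.I = (c : ℂ) * (g : ℂ) * Complex.I := by
      intro g; push_cast; ring
    simp_rw [h3, this]
    congr 1
    simp
    ring
  rw [h1, h2, ← Complex.exp_add]
  congr 1
  have hnorm : ‖t‖ ^ 2 = ‖t'‖ ^ 2 + c ^ 2 := by
    have h4 : ‖t'‖ ^ 2 = ‖t‖ ^ 2 - c ^ 2 := by
      rw [ht', @norm_sub_sq_real, norm_smul, real_inner_smul_right, hu, real_inner_comm, ← hc]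
      simp
      ring
    linarith
  have : ((‖t‖ : ℂ)) ^ 2 = (‖t'‖ : ℂ) ^ 2 + (c : ℂ) ^ 2 := by exact_mod_cast hnorm
  rw [this]
  ring

/-- Integral form of resampling. -/
theorem resample_integral (u : Euc d) (hu : ‖u‖ = 1) {H : Euc d → ℝ}
    (hH : Integrable H (stdGaussian (Euc d))) :
    ∫ x, H x ∂(stdGaussian (Euc d)) =
      ∫ x, ∫ s, H (x - (inner ℝ x u) • u + s • u) ∂(gaussianReal 0 1) ∂(stdGaussian (Euc d)) := by
  have hmap := resample_map u hu
  have hHm : AEStronglyMeasurable H
      (((stdGaussian (Euc d)).prod (gaussianReal 0 1)).map (resampleMap u)) := by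
    rw [hmap]; exact hH.aestronglyMeasurable
  conv_lhs => rw [← hmap]
  rw [integral_map (measurable_resampleMap u).aemeasurable hHm]
  rw [integral_prod]
  · rfl
  · have : Integrable H (((stdGaussian (Euc d)).prod (gaussianReal 0 1)).map (resampleMap u)) := by
      rw [hmap]; exact hH
    exact this.comp_aemeasurable (measurable_resampleMap u).aemeasurable

/-- Law of a unit coordinate. -/
theorem law_inner (u : Euc d) (hu : ‖u‖ = 1) :
    (stdGaussian (Euc d)).map (fun x => inner ℝ x u) = gaussianReal 0 1 := by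
  conv_lhs => rw [← resample_map u hu]
  have h1 : Measurable (fun x : Euc d => inner ℝ x u) := by fun_prop
  rw [Measure.map_map h1 (measurable_resampleMap u)]
  have h2 : (fun x : Euc d => inner ℝ x u) ∘ resampleMap u = Prod.snd := by
    funext p
    simp only [Function.comp, resampleMap, inner_add_left, inner_sub_left, inner_smul_left]
    simp [hu]
  rw [h2]
  simp

/-- Coordinates are square integrable, in particular integrable, and have exponential moments. -/
lemma integrable_comp_inner (u : Euc d) (hu : ‖u‖ = 1) {h : ℝ → ℝ}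
    (hh : Integrable h (gaussianReal 0 1)) :
    Integrable (fun x : Euc d => h (inner ℝ x u)) (stdGaussian (Euc d)) := by
  have h1 : Measurable (fun x : Euc d => inner ℝ x u) := by fun_prop
  rw [← law_inner u hu] at hh
  exact hh.comp_measurable h1

lemma integral_comp_inner (u : Euc d) (hu : ‖u‖ = 1) {h : ℝ → ℝ}
    (hh : AEStronglyMeasurable h (gaussianReal 0 1)) :
    ∫ x : Euc d, h (inner ℝ x u) ∂(stdGaussian (Euc d)) = ∫ s, h s ∂(gaussianReal 0 1) := by
  have h1 : Measurable (fun x : Euc d => inner ℝ x u) := by fun_prop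
  rw [← law_inner u hu] at hh ⊢
  rw [integral_map h1.aemeasurable hh]

lemma integrable_inner (u : Euc d) :
    Integrable (fun x : Euc d => inner ℝ x u) (stdGaussian (Euc d)) := by
  have h := (IsGaussian.integrable_id (μ := stdGaussian (Euc d)))
  have := Integrable.inner_const (𝕜 := ℝ) h u
  simpa using this

lemma integrable_id_std : Integrable (fun x : Euc d => x) (stdGaussian (Euc d)) :=
  IsGaussian.integrable_id

lemma integrable_inner_sq (u : Euc d) (hu : ‖u‖ = 1) :
    Integrable (fun x : Euc d => (inner ℝ x u) ^ 2) (stdGaussian (Euc d)) :=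
  integrable_comp_inner u hu integrable_sq_g1

/-- Cell formula: if `{ζ < <x,u>} ⊆ A ⊆ {ζ ≤ <x,u>}` with `ζ` invariant under shifts along `u`,
then integrating over `A` amounts to integrating the `u`-coordinate over the half-line. -/
theorem cell_integral (u : Euc d) (hu : ‖u‖ = 1) (ζ : Euc d → ℝ)
    (hinv : ∀ (x : Euc d) (s : ℝ), ζ (x + s • u) = ζ x) (A : Set (Euc d)) (hA : MeasurableSet A)
    (h1 : ∀ x, ζ x < inner ℝ x u → x ∈ A) (h2 : ∀ x ∈ A, ζ x ≤ inner ℝ x u)
    {H : Euc d → ℝ} (hH : Integrable H (stdGaussian (Euc d))) :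
    ∫ x in A, H x ∂(stdGaussian (Euc d)) =
      ∫ x, ∫ s in Ioi (ζ x), H (x - (inner ℝ x u) • u + s • u) ∂(gaussianReal 0 1)
        ∂(stdGaussian (Euc d)) := by
  rw [← integral_indicator hA, resample_integral u hu (hH.indicator hA)]
  congr 1
  funext x
  rw [← integral_indicator measurableSet_Ioi]
  apply integral_congr_ae
  have hnull : ∀ᵐ s ∂(gaussianReal (0 : ℝ) 1), s ≠ ζ x := by
    have := nullSingletonClass_gaussianReal (μ := 0) (v := 1) (by norm_num)
    simp [ae_iff]
  filter_upwards [hnull] with s hs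
  set y := x - (inner ℝ x u) • u + s • u with hy
  have hyu : inner ℝ y u = s := by
    simp [hy, inner_add_left, inner_sub_left, inner_smul_left, hu]
  have hyz : ζ y = ζ x := by
    have : y = x + (s - inner ℝ x u) • u := by
      rw [hy, sub_smul]; abel
    rw [this, hinv]
  by_cases hs2 : s ∈ Ioi (ζ x)
  · have : y ∈ A := h1 y (by rw [hyz, hyu]; exact hs2)
    rw [indicator_of_mem this, indicator_of_mem hs2]
  · have hlt : s < ζ x := lt_of_le_of_ne (not_lt.1 hs2) hs
    have : y ∉ A := fun hyA => by
      have := h2 y hyA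
      rw [hyz, hyu] at this
      linarith
    rw [indicator_of_notMem this, indicator_of_notMem hs2]

/-- Integration by parts for the standard Gaussian in sandwich form. -/
theorem gauss_ibp (e : Euc d) (he : ‖e‖ = 1) (F ρ : Euc d → ℝ) (D : ℝ → Euc d → ℝ) (C C' Cρ : ℝ)
    (hF : Measurable F) (hFb : ∀ x, |F x| ≤ C) (hρ : Measurable ρ) (hρb : ∀ x, |ρ x| ≤ Cρ)
    (hD : ∀ h, Measurable (D h))
    (hsand : ∀ h x, F (x + h • e) - F x ≤ D h x)
    (hDb : ∀ h x, |D h x| ≤ C' * |h|)
    (hlim : ∀ x, Tendsto (fun h => D h x / h) (𝓝[≠] 0) (𝓝 (ρ x))) :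
    ∫ x, inner ℝ x e * F x ∂(stdGaussian (Euc d)) = ∫ x, ρ x ∂(stdGaussian (Euc d)) := by
  have hint1 : Integrable (fun x => inner ℝ x e * F x) (stdGaussian (Euc d)) := by
    refine (integrable_inner e).mul_bdd (c := C) hF.aestronglyMeasurable ?_
    filter_upwards with x
    simpa using hFb x
  have hint2 : Integrable ρ (stdGaussian (Euc d)) := by
    refine Integrable.of_bound hρ.aestronglyMeasurable Cρ ?_
    filter_upwards with x
    simpa using hρb x
  rw [resample_integral e he hint1, resample_integral e he hint2]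
  congr 1
  funext x
  set x0 := x - (inner ℝ x e) • e with hx0
  have hline : ∀ g : ℝ, inner ℝ (x0 + g • e) e = g := by
    intro g
    simp [hx0, inner_add_left, inner_sub_left, inner_smul_left, he]
  have hm : Measurable (fun g : ℝ => x0 + g • e) := by fun_prop
  have := ibp_sandwich (fun g => F (x0 + g • e)) (fun g => ρ (x0 + g • e))
    (fun h g => D h (x0 + g • e)) C C' (hF.comp hm) (fun g => hFb _)
    (fun h => (hD h).comp hm) ?_ (fun h g => hDb h _) (fun g => hlim _)
  · simpa only [hline] using this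
  · intro h g
    have : x0 + (g + h) • e = (x0 + g • e) + h • e := by
      rw [add_smul]; abel
    rw [this]
    exact hsand h _

end Vale.Agent.P226
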