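import Vale.Agent.P226.RadialM
import Vale.Agent.P226.Resample

/-!
# Projections of the Gaussian, Gaussian measure of circular cones, first moment of cones
-/

open MeasureTheory ProbabilityTheory Set Filter Topology

namespace Vale.Agent.P226

variable {d m : ℕ}

/-- Coordinates with respect to a subspace of dimension `n`, given by an orthonormal family. -/
noncomputable def coordMap {n : ℕ} (b : Fin n → Euc d) (x : Euc d) : Euc n :=
  WithLp.toLp 2 (fun j => inner ℝ x (b j))

lemma measurable_coordMap {n : ℕ} (b : Fin n → Euc d) : Measurable (coordMap b) := by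
  unfold coordMap
  fun_prop

lemma inner_coordMap {n : ℕ} (b : Fin n → Euc d) (x : Euc d) (t : Euc n) :
    inner ℝ (coordMap b x) t = inner ℝ x (∑ j, t j • b j) := by
  rw [inner_sum]
  simp only [inner_smul_right, PiLp.inner_apply, coordMap]
  apply Finset.sum_congr rfl
  intro j _
  simp [mul_comm]

lemma norm_sq_coordMap {n : ℕ} (b : Fin n → Euc d) (x : Euc d) :
    ‖coordMap b x‖ ^ 2 = ∑ j, (inner ℝ x (b j)) ^ 2 := by
  rw [EuclideanSpace.norm_sq_eq]
  simp [coordMap]

lemma norm_sq_orth_sum {n : ℕ} {b : Fin n → Euc d} (hb : Orthonormal ℝ b) (t : Euc n) :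
    ‖∑ j, t j • b j‖ ^ 2 = ‖t‖ ^ 2 := by
  rw [← real_inner_self_eq_norm_sq, hb.inner_sum, EuclideanSpace.norm_sq_eq]
  apply Finset.sum_congr rfl
  intro j _
  simp
  ring

/-- Orthonormal coordinates of the standard Gaussian are standard Gaussian. -/
theorem map_coordMap {n : ℕ} {b : Fin n → Euc d} (hb : Orthonormal ℝ b) :
    (stdGaussian (Euc d)).map (coordMap b) = stdGaussian (Euc n) := by
  have hm := measurable_coordMap b
  have : IsProbabilityMeasure ((stdGaussian (Euc d)).map (coordMap b)) :=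
    Measure.isProbabilityMeasure_map hm.aemeasurable
  apply Measure.ext_of_charFun
  funext t
  rw [charFun_apply, integral_map hm.aemeasurable
    (Measurable.aestronglyMeasurable (by fun_prop)), charFun_stdGaussian]
  simp_rw [inner_coordMap]
  have := charFun_stdGaussian (E := Euc d) (∑ j, t j • b j)
  rw [charFun_apply] at this
  have h2 : ((‖∑ j, t j • b j‖ : ℝ) : ℂ) ^ 2 = ((‖t‖ : ℝ) : ℂ) ^ 2 := by
    exact_mod_cast norm_sq_orth_sum hb t
  rw [h2] at this
  simpa using this

/-- A unit vector can be completed to an orthonormal family spanning its orthogonal complement. -/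
lemma exists_orth_complement {e : Euc (m + 1)} (he : ‖e‖ = 1) :
    ∃ b : Fin m → Euc (m + 1), Orthonormal ℝ b ∧
      ∀ y : Euc (m + 1), ‖y - (inner ℝ y e) • e‖ = ‖coordMap b y‖ := by
  have hv : Orthonormal ℝ (Set.domRestrict ({0} : Set (Fin (m + 1))) (fun _ : Fin (m + 1) => e)) := by
    constructor
    · intro i; simpa using he
    · intro i j hij
      exact absurd (Subtype.ext (by
        have hi := i.2; have hj := j.2
        simp only [mem_singleton_iff] at hi hj
        rw [hi, hj])) hij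
  obtain ⟨B, hB⟩ := hv.exists_orthonormalBasis_extension_of_card_eq (by simp)
  have hB0 : B 0 = e := hB 0 (by simp)
  refine ⟨fun j => B j.succ, ?_, fun y => ?_⟩
  · exact B.orthonormal.comp _ (Fin.succ_injective _)
  · have h1 : ‖y‖ ^ 2 = (inner ℝ y e) ^ 2 + ∑ j : Fin m, (inner ℝ y (B j.succ)) ^ 2 := by
      rw [← B.sum_sq_norm_inner_right y, Fin.sum_univ_succ, hB0]
      simp [real_inner_comm]
    have h2 : ‖y - (inner ℝ y e) • e‖ ^ 2 = ‖y‖ ^ 2 - (inner ℝ y e) ^ 2 := by
      rw [@norm_sub_sq_real, norm_smul, real_inner_smul_right, he]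
      simp
      ring
    have h3 := norm_sq_coordMap (fun j => B j.succ) y
    have h4 : ‖y - (inner ℝ y e) • e‖ ^ 2 = ‖coordMap (fun j => B j.succ) y‖ ^ 2 := by
      rw [h2, h1, h3]; ring
    exact (pow_left_inj₀ (norm_nonneg _) (norm_nonneg _) (by norm_num)).1 h4

/-- Law of the norm of the component orthogonal to a unit vector. -/
theorem integral_norm_orth {F : ℝ → ℝ} (hF : Measurable F) {e : Euc (m + 1)} (he : ‖e‖ = 1) :
    ∫ y : Euc (m + 1), F ‖y - (inner ℝ y e) • e‖ ∂(stdGaussian (Euc (m + 1))) =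
      ∫ z : Euc m, F ‖z‖ ∂(stdGaussian (Euc m)) := by
  obtain ⟨b, hb, hnorm⟩ := exists_orth_complement he
  simp_rw [hnorm]
  rw [← map_coordMap hb, integral_map (measurable_coordMap b).aemeasurable
    (Measurable.aestronglyMeasurable (by fun_prop))]

/-- The circular cone `{y : <y,e> ≥ h ‖y‖}`. -/
def capCone (e : Euc m) (h : ℝ) : Set (Euc m) := {y | h * ‖y‖ ≤ inner ℝ y e}

lemma measurableSet_capCone (e : Euc m) (h : ℝ) : MeasurableSet (capCone e h) := by
  unfold capCone
  exact measurableSet_le (by fun_prop) (by fun_prop)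

/-- In the decomposition `y = z + s e`, the cone condition becomes `τ ‖z‖ ≤ s`. -/
lemma mem_capCone_iff {e : Euc m} (he : ‖e‖ = 1) {τ : ℝ} (hτ : 0 ≤ τ) (x : Euc m) (s : ℝ) :
    x - (inner ℝ x e) • e + s • e ∈ capCone e (τ * (Real.sqrt (1 + τ ^ 2))⁻¹) ↔
      τ * ‖x - (inner ℝ x e) • e‖ ≤ s := by
  set z := x - (inner ℝ x e) • e with hz
  have hze : inner ℝ z e = 0 := by
    simp [hz, inner_sub_left, inner_smul_left, he]
  have hy : inner ℝ (z + s • e) e = s := by
    simp [inner_add_left, hze, inner_smul_left, he]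
  have hn : ‖z + s • e‖ ^ 2 = ‖z‖ ^ 2 + s ^ 2 := by
    rw [@norm_add_sq_real, norm_smul, real_inner_smul_right, hze, he]
    simp
  have hp : 0 < 1 + τ ^ 2 := by positivity
  have hq := Real.sqrt_pos.2 hp
  have hqs := Real.sq_sqrt hp.le
  change τ * (Real.sqrt (1 + τ ^ 2))⁻¹ * ‖z + s • e‖ ≤ inner ℝ (z + s • e) e ↔ _
  rw [hy]
  have hzn := norm_nonneg z
  have hyn := norm_nonneg (z + s • e)
  rw [show τ * (Real.sqrt (1 + τ ^ 2))⁻¹ * ‖z + s • e‖ = τ * ‖z + s • e‖ / Real.sqrt (1 + τ ^ 2) by
    ring, div_le_iff₀ hq]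
  constructor
  · intro h
    have hs : 0 ≤ s := by
      by_contra hneg
      push Not at hneg
      have : s * Real.sqrt (1 + τ ^ 2) < 0 := mul_neg_of_neg_of_pos hneg hq
      have h0 : 0 ≤ τ * ‖z + s • e‖ := by positivity
      linarith
    apply abs_le_of_sq_le_sq' _ hs |>.2
    have h2 : (τ * ‖z + s • e‖) ^ 2 ≤ (s * Real.sqrt (1 + τ ^ 2)) ^ 2 :=
      pow_le_pow_left₀ (by positivity) h 2
    rw [mul_pow, hn, mul_pow, hqs] at h2
    nlinarith
  · intro h
    have hs : 0 ≤ s := le_trans (by positivity) h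
    have h2 : (τ * ‖z‖) ^ 2 ≤ s ^ 2 := pow_le_pow_left₀ (by positivity) h 2
    apply abs_le_of_sq_le_sq' _ (by positivity) |>.2
    rw [mul_pow, hn, mul_pow, hqs]
    nlinarith

lemma integrable_norm_std' : Integrable (fun y : Euc m => ‖y‖) (stdGaussian (Euc m)) :=
  integrable_norm_std m

/-- The law of a half line. -/
lemma g1_Ici (a : ℝ) : ∫ s, (Ici a).indicator (fun _ => (1 : ℝ)) s ∂(gaussianReal 0 1) = Qf a := by
  have := nullSingletonClass_gaussianReal (μ := 0) (v := 1) (by norm_num)
  rw [integral_indicator measurableSet_Ici, setIntegral_congr_set Ioi_ae_eq_Ici.symm]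
  simp [Qf]

lemma g1_Ici_id (a : ℝ) : ∫ s, (Ici a).indicator (fun s => s) s ∂(gaussianReal 0 1) = phi a := by
  have := nullSingletonClass_gaussianReal (μ := 0) (v := 1) (by norm_num)
  rw [integral_indicator measurableSet_Ici, setIntegral_congr_set Ioi_ae_eq_Ici.symm]
  exact int_Ioi_id a

/-- Measure of a circular cone. -/
theorem measure_capCone {e : Euc (m + 1)} (he : ‖e‖ = 1) {τ : ℝ} (hτ : 0 ≤ τ) (hm : 1 ≤ m) :
    (stdGaussian (Euc (m + 1))).real
        (capCone e (τ * (Real.sqrt (1 + τ ^ 2))⁻¹)) = kap m * Wn (m + 1) τ := by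
  set C := capCone e (τ * (Real.sqrt (1 + τ ^ 2))⁻¹) with hC
  have hCm : MeasurableSet C := measurableSet_capCone _ _
  have h1 : (stdGaussian (Euc (m + 1))).real C =
      ∫ y, C.indicator (fun _ => (1 : ℝ)) y ∂(stdGaussian (Euc (m + 1))) := by
    rw [integral_indicator hCm]
    simp
  have hint : Integrable (C.indicator (fun _ => (1 : ℝ))) (stdGaussian (Euc (m + 1))) :=
    (integrable_const _).indicator hCm
  rw [h1, resample_integral e he hint]
  have h2 : ∀ x : Euc (m + 1),
      ∫ s, C.indicator (fun _ => (1 : ℝ)) (x - (inner ℝ x e) • e + s • e) ∂(gaussianReal 0 1) =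
        Qf (τ * ‖x - (inner ℝ x e) • e‖) := by
    intro x
    rw [← g1_Ici]
    congr 1
    funext s
    by_cases h : τ * ‖x - (inner ℝ x e) • e‖ ≤ s
    · rw [indicator_of_mem ((mem_capCone_iff he hτ x s).2 h), indicator_of_mem (mem_Ici.2 h)]
    · rw [indicator_of_notMem (fun h' => h ((mem_capCone_iff he hτ x s).1 h')),
        indicator_of_notMem (fun h' => h (mem_Ici.1 h'))]
  simp_rw [h2]
  rw [integral_norm_orth (F := fun r => Qf (τ * r)) (by
    exact measurable_Qf.comp (measurable_const.mul measurable_id)) he]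
  exact radial_Q hm hτ

/-- First moment of a circular cone. -/
theorem moment_capCone {e : Euc (m + 1)} (he : ‖e‖ = 1) {τ : ℝ} (hτ : 0 ≤ τ) :
    ∫ y in capCone e (τ * (Real.sqrt (1 + τ ^ 2))⁻¹), inner ℝ y e ∂(stdGaussian (Euc (m + 1))) =
      phi0 * (Real.sqrt (1 + τ ^ 2))⁻¹ ^ m := by
  set C := capCone e (τ * (Real.sqrt (1 + τ ^ 2))⁻¹) with hC
  have hCm : MeasurableSet C := measurableSet_capCone _ _
  rw [← integral_indicator hCm]
  have hint : Integrable (C.indicator (fun y => inner ℝ y e)) (stdGaussian (Euc (m + 1))) :=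
    (integrable_inner e).indicator hCm
  rw [resample_integral e he hint]
  have h2 : ∀ x : Euc (m + 1),
      ∫ s, C.indicator (fun y => inner ℝ y e) (x - (inner ℝ x e) • e + s • e) ∂(gaussianReal 0 1) =
        phi (τ * ‖x - (inner ℝ x e) • e‖) := by
    intro x
    rw [← g1_Ici_id]
    congr 1
    funext s
    have hys : inner ℝ (x - (inner ℝ x e) • e + s • e) e = s := by
      simp [inner_add_left, inner_sub_left, inner_smul_left, he]
    by_cases h : τ * ‖x - (inner ℝ x e) • e‖ ≤ s
    · rw [indicator_of_mem ((mem_capCone_iff he hτ x s).2 h), indicator_of_mem (mem_Ici.2 h), hys]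
    · rw [indicator_of_notMem (fun h' => h ((mem_capCone_iff he hτ x s).1 h')),
        indicator_of_notMem (fun h' => h (mem_Ici.1 h'))]
  simp_rw [h2]
  rw [integral_norm_orth (F := fun r => phi (τ * r)) (by
    exact measurable_phi.comp (measurable_const.mul measurable_id)) he]
  exact radial_phi m τ

/-- `∫_R ‖y‖ = E‖y‖ γ(R)` for a cone `R`. -/
theorem cone_norm (hm : 1 ≤ m) {R : Set (Euc m)} (hR : MeasurableSet R) (hc : IsConeSet R) :
    ∫ y in R, ‖y‖ ∂(stdGaussian (Euc m)) = cm m * (stdGaussian (Euc m)).real R := by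
  let H : Euc m → ℝ → ENNReal := fun y r => R.indicator (fun _ => ENNReal.ofReal r) y
  have hH : Measurable (Function.uncurry H) := by
    have h1 : MeasurableSet (R ×ˢ (univ : Set ℝ)) := hR.prod MeasurableSet.univ
    have h2 : Function.uncurry H =
        (R ×ˢ (univ : Set ℝ)).indicator (fun p : Euc m × ℝ => ENNReal.ofReal p.2) := by
      funext p
      by_cases hp : p.1 ∈ R
      · simp [H, Function.uncurry, hp]
      · simp [H, Function.uncurry, hp]
    rw [h2]
    exact (ENNReal.measurable_ofReal.comp measurable_snd).indicator h1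
  have hhom : ∀ c : ℝ, 0 < c → ∀ y r, H (c • y) r = H y r := by
    intro c hc0 y r
    by_cases hy : y ∈ R
    · have hy' : c • y ∈ R := (hc c hc0 y).2 hy
      simp [H, hy, hy']
    · have hy' : c • y ∉ R := fun h => hy ((hc c hc0 y).1 h)
      simp [H, hy, hy']
  have key := radial_indep hm H hH hhom
  have hL : ∫⁻ y, H y ‖y‖ ∂(stdGaussian (Euc m)) =
      ENNReal.ofReal (∫ y in R, ‖y‖ ∂(stdGaussian (Euc m))) := by
    rw [ofReal_integral_eq_lintegral_ofReal (integrable_norm_std m).integrableOn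
      (Eventually.of_forall fun _ => norm_nonneg _), ← lintegral_indicator hR]
    rfl
  have hinner : ∀ y, ∫⁻ y', H y ‖y'‖ ∂(stdGaussian (Euc m)) =
      R.indicator (fun _ => ENNReal.ofReal (cm m)) y := by
    intro y
    have hcm : ENNReal.ofReal (cm m) = ∫⁻ y', ENNReal.ofReal ‖y'‖ ∂(stdGaussian (Euc m)) := by
      unfold cm
      rw [ofReal_integral_eq_lintegral_ofReal (integrable_norm_std m)
        (Eventually.of_forall fun _ => norm_nonneg _)]
    by_cases hy : y ∈ R
    · simp only [H, indicator_of_mem hy, hcm]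
    · simp only [H, indicator_of_notMem hy, lintegral_zero]
  simp_rw [hinner] at key
  rw [hL, lintegral_indicator hR] at key
  simp only [lintegral_const, Measure.restrict_apply, MeasurableSet.univ, univ_inter] at key
  have h3 : 0 ≤ cm m := integral_nonneg fun _ => norm_nonneg _
  have h4 : 0 ≤ ∫ y in R, ‖y‖ ∂(stdGaussian (Euc m)) := integral_nonneg fun _ => norm_nonneg _
  have h5 : ENNReal.ofReal (cm m) * (stdGaussian (Euc m)) R =
      ENNReal.ofReal (cm m * (stdGaussian (Euc m)).real R) := by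
    rw [ENNReal.ofReal_mul h3, measureReal_def, ENNReal.ofReal_toReal (measure_ne_top _ _)]
  rw [h5] at key
  exact (ENNReal.ofReal_eq_ofReal_iff h4 (mul_nonneg h3 measureReal_nonneg)).1 key

lemma isConeSet_capCone (e : Euc m) (h : ℝ) : IsConeSet (capCone e h) := by
  intro c hc y
  simp only [capCone, mem_ofPred_eq, norm_smul, inner_smul_left, Real.norm_eq_abs, abs_of_pos hc]
  simp only [conj_trivial]
  constructor
  · intro h1
    have : c * (h * ‖y‖) ≤ c * inner ℝ y e := by nlinarith
    exact le_of_mul_le_mul_left this hc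
  · intro h1
    nlinarith

/-- **First moment of a cone.**  `φ(0) ∫_F <y,e> ≤ κ h (ν - ν_h) + φ(0)² (1+τ²)^(-m/2)`, where
`h = τ/√(1+τ²)`, `ν = γ(F)`, `ν_h = κ_m W_{m+1}(τ)`, in dimension `m + 1`. -/
theorem cone_moment {F : Set (Euc (m + 1))} (hm : 1 ≤ m) (hF : MeasurableSet F) (hc : IsConeSet F)
    {e : Euc (m + 1)} (he : ‖e‖ = 1) {τ : ℝ} (hτ : 0 ≤ τ) :
    phi0 * ∫ y in F, inner ℝ y e ∂(stdGaussian (Euc (m + 1))) ≤
      kap (m + 1) * (τ * (Real.sqrt (1 + τ ^ 2))⁻¹) *
          ((stdGaussian (Euc (m + 1))).real F - kap m * Wn (m + 1) τ) +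
        phi0 ^ 2 * (Real.sqrt (1 + τ ^ 2))⁻¹ ^ m := by
  set h := τ * (Real.sqrt (1 + τ ^ 2))⁻¹ with hh
  set C := capCone e h with hC
  have hCm : MeasurableSet C := measurableSet_capCone _ _
  have hm1 : 1 ≤ m + 1 := by omega
  set γ := stdGaussian (Euc (m + 1)) with hγ
  let ψ : Euc (m + 1) → ℝ := fun y => inner ℝ y e - h * ‖y‖
  have hin : Integrable (fun y : Euc (m + 1) => inner ℝ y e) γ := integrable_inner e
  have hno : Integrable (fun y : Euc (m + 1) => h * ‖y‖) γ :=
    (integrable_norm_std (m + 1)).const_mul h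
  have hψ : Integrable ψ γ := hin.sub hno
  have e1 : ∫ y in F, inner ℝ y e ∂γ = h * ∫ y in F, ‖y‖ ∂γ + ∫ y in F, ψ y ∂γ := by
    rw [← integral_const_mul, ← integral_add hno.integrableOn hψ.integrableOn]
    congr 1
    funext y
    simp [ψ]
  have e2 : ∫ y in F, ψ y ∂γ ≤ ∫ y in C, ψ y ∂γ := by
    have hi : Integrable (C.indicator ψ) γ := hψ.indicator hCm
    have h1 : ∫ y in F, ψ y ∂γ ≤ ∫ y in F, C.indicator ψ y ∂γ := by
      apply integral_mono hψ.integrableOn hi.integrableOn
      intro y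
      by_cases hy : y ∈ C
      · simp [indicator_of_mem hy]
      · simp only [indicator_of_notMem hy]
        have : ¬ h * ‖y‖ ≤ inner ℝ y e := hy
        simp only [ψ]
        linarith
    have h2 : ∫ y in F, C.indicator ψ y ∂γ ≤ ∫ y, C.indicator ψ y ∂γ := by
      apply setIntegral_le_integral hi
      filter_upwards with y
      by_cases hy : y ∈ C
      · simp only [indicator_of_mem hy, Pi.zero_apply]
        have : h * ‖y‖ ≤ inner ℝ y e := hy
        simp only [ψ]
        linarith
      · simp [indicator_of_notMem hy]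
    have h3 : ∫ y, C.indicator ψ y ∂γ = ∫ y in C, ψ y ∂γ := integral_indicator hCm
    rw [h3] at h2
    exact h1.trans h2
  have e3 : ∫ y in C, ψ y ∂γ =
      phi0 * (Real.sqrt (1 + τ ^ 2))⁻¹ ^ m - h * (cm (m + 1) * (kap m * Wn (m + 1) τ)) := by
    have := integral_sub (μ := γ.restrict C) hin.integrableOn hno.integrableOn
    change ∫ y in C, (inner ℝ y e - h * ‖y‖) ∂γ = _
    rw [this, moment_capCone he hτ, integral_const_mul,
      cone_norm hm1 hCm (isConeSet_capCone e h), measure_capCone he hτ hm]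
  have e4 := cone_norm hm1 hF hc
  rw [e4] at e1
  have hkap : kap (m + 1) = phi0 * cm (m + 1) := rfl
  have h0 := phi0_pos
  rw [e1, hkap]
  have key : h * (cm (m + 1) * γ.real F) + ∫ y in F, ψ y ∂γ ≤
      h * (cm (m + 1) * γ.real F) + (phi0 * (Real.sqrt (1 + τ ^ 2))⁻¹ ^ m -
        h * (cm (m + 1) * (kap m * Wn (m + 1) τ))) := by
    rw [← e3]; linarith
  have := mul_le_mul_of_nonneg_left key h0.le
  refine this.trans (le_of_eq ?_)
  ring

/-- Lintegral form of resampling. -/
lemma resample_lintegral (e : Euc m) (he : ‖e‖ = 1) {H : Euc m → ENNReal} (hH : Measurable H) :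
    ∫⁻ y, H y ∂(stdGaussian (Euc m)) =
      ∫⁻ x, ∫⁻ s, H (x - (inner ℝ x e) • e + s • e) ∂(gaussianReal 0 1) ∂(stdGaussian (Euc m)) := by
  conv_lhs => rw [← resample_map e he]
  rw [lintegral_map hH (measurable_resampleMap e),
    lintegral_prod (fun a => H (resampleMap e a)) (hH.comp (measurable_resampleMap e)).aemeasurable]
  rfl

lemma lintegral_g1 {f : ℝ → ENNReal} (hf : Measurable f) :
    ∫⁻ s, f s ∂(gaussianReal 0 1) = ∫⁻ s, ENNReal.ofReal (phi s) * f s := by
  rw [gaussianReal_of_var_ne_zero _ (by norm_num : (1 : NNReal) ≠ 0),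
    lintegral_withDensity_eq_lintegral_mul _ (measurable_gaussianPDF 0 1) hf]
  congr 1
  funext s
  simp [gaussianPDF, phi_eq_pdf]

/-- Scaling one coordinate: `∫ φ(b <y,e>) G(y) dγ = φ(0) c ∫ G(S f) dγ(f)` with
`c = (1+b²)^(-1/2)` and `S f = f + (c-1) <f,e> e`. -/
theorem scale_coord {e : Euc m} (he : ‖e‖ = 1) (b : ℝ) {G : Euc m → ℝ}
    (hG : Measurable G) (hG0 : ∀ y, 0 ≤ G y)
    (hGi : Integrable (fun y => G (y + ((Real.sqrt (1 + b ^ 2))⁻¹ - 1) • (inner ℝ y e) • e))
      (stdGaussian (Euc m))) :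
    ∫ y, phi (b * inner ℝ y e) * G y ∂(stdGaussian (Euc m)) =
      phi0 * (Real.sqrt (1 + b ^ 2))⁻¹ *
        ∫ y, G (y + ((Real.sqrt (1 + b ^ 2))⁻¹ - 1) • (inner ℝ y e) • e) ∂(stdGaussian (Euc m)) := by
  set c := (Real.sqrt (1 + b ^ 2))⁻¹ with hc
  have hp : 0 < 1 + b ^ 2 := by positivity
  have hq := Real.sqrt_pos.2 hp
  have hcpos : 0 < c := inv_pos.2 hq
  have hcsq : c ^ 2 * (1 + b ^ 2) = 1 := by
    rw [hc, inv_pow, Real.sq_sqrt hp.le]
    exact inv_mul_cancel₀ hp.ne'
  let S : Euc m → Euc m := fun y => y + (c - 1) • (inner ℝ y e) • e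
  have hSm : Measurable S := by
    simp only [S]
    fun_prop
  let H1 : Euc m → ENNReal := fun y => ENNReal.ofReal (phi (b * inner ℝ y e) * G y)
  let H2 : Euc m → ENNReal := fun y => ENNReal.ofReal (G (S y))
  have hH1 : Measurable H1 := by
    apply ENNReal.measurable_ofReal.comp
    exact (measurable_phi.comp (by fun_prop)).mul hG
  have hH2 : Measurable H2 := ENNReal.measurable_ofReal.comp (hG.comp hSm)
  have hinner : ∀ x : Euc m, ∫⁻ s, H1 (x - (inner ℝ x e) • e + s • e) ∂(gaussianReal 0 1) =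
      ENNReal.ofReal (phi0 * c) * ∫⁻ s, H2 (x - (inner ℝ x e) • e + s • e) ∂(gaussianReal 0 1) := by
    intro x
    set z := x - (inner ℝ x e) • e with hz
    have hze : inner ℝ z e = 0 := by
      simp [hz, inner_sub_left, inner_smul_left, he]
    have hys : ∀ s : ℝ, inner ℝ (z + s • e) e = s := by
      intro s
      simp [inner_add_left, hze, inner_smul_left, he]
    have hSy : ∀ s : ℝ, S (z + s • e) = z + (c * s) • e := by
      intro s
      simp only [S, hys, smul_smul]
      rw [add_assoc, ← add_smul]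
      congr 2
      ring
    have hm1 : Measurable fun s : ℝ => z + s • e := by fun_prop
    let g : ℝ → ENNReal := fun s => ENNReal.ofReal (phi (c⁻¹ * s)) * ENNReal.ofReal (G (z + s • e))
    have hg : Measurable g :=
      (ENNReal.measurable_ofReal.comp (measurable_phi.comp (measurable_const.mul measurable_id))).mul
        (ENNReal.measurable_ofReal.comp (hG.comp hm1))
    have hL : ∫⁻ s, H1 (z + s • e) ∂(gaussianReal 0 1) = ENNReal.ofReal phi0 * ∫⁻ s, g s := by
      rw [lintegral_g1 (f := fun s => H1 (z + s • e)) (hH1.comp hm1), ← lintegral_const_mul _ hg]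
      congr 1
      funext s
      simp only [H1, g, hys]
      rw [← ENNReal.ofReal_mul (phi_pos s).le, ← ENNReal.ofReal_mul (phi_pos (c⁻¹ * s)).le,
        ← ENNReal.ofReal_mul phi0_pos.le]
      congr 1
      have hexp : phi s * phi (b * s) = phi0 * phi (c⁻¹ * s) := by
        unfold phi phi0
        have e1 : (c⁻¹ * s) ^ 2 = s ^ 2 + (b * s) ^ 2 := by
          have : c⁻¹ ^ 2 = 1 + b ^ 2 := by
            rw [inv_pow]
            field_simp
            linarith
          rw [mul_pow, this]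
          ring
        rw [e1]
        have : Real.exp (-(s ^ 2 + (b * s) ^ 2) / 2) =
            Real.exp (-s ^ 2 / 2) * Real.exp (-(b * s) ^ 2 / 2) := by
          rw [← Real.exp_add]
          congr 1
          ring
        rw [this]
        ring
      rw [← mul_assoc, hexp]
      ring
    have hR : ∫⁻ s, H2 (z + s • e) ∂(gaussianReal 0 1) = ENNReal.ofReal c⁻¹ * ∫⁻ s, g s := by
      have hmap := Real.map_volume_mul_left hcpos.ne'
      have hab : |c⁻¹| = c⁻¹ := abs_of_pos (inv_pos.2 hcpos)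
      rw [hab] at hmap
      rw [lintegral_g1 (f := fun s => H2 (z + s • e)) (hH2.comp hm1)]
      have : ∫⁻ s, g s ∂(Measure.map (fun x => c * x) volume) = ∫⁻ s, g (c * s) :=
        lintegral_map hg (measurable_const.mul measurable_id)
      rw [hmap, lintegral_smul_measure] at this
      simp only [smul_eq_mul] at this
      rw [this]
      congr 1
      funext s
      simp only [H2, g, hSy]
      rw [inv_mul_cancel_left₀ hcpos.ne']
    rw [hL, hR, ← mul_assoc, ← ENNReal.ofReal_mul (mul_pos phi0_pos hcpos).le]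
    congr 2
    field_simp
  have hlin : ∫⁻ y, H1 y ∂(stdGaussian (Euc m)) =
      ENNReal.ofReal (phi0 * c) * ∫⁻ y, H2 y ∂(stdGaussian (Euc m)) := by
    rw [resample_lintegral e he hH1, resample_lintegral e he hH2]
    simp_rw [hinner]
    rw [lintegral_const_mul]
    exact (hH2.comp (measurable_resampleMap e)).lintegral_prod_right'
  have h1 : ∫ y, phi (b * inner ℝ y e) * G y ∂(stdGaussian (Euc m)) =
      (∫⁻ y, H1 y ∂(stdGaussian (Euc m))).toReal := by
    apply integral_eq_lintegral_of_nonneg_ae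
    · filter_upwards with y
      exact mul_nonneg (phi_pos _).le (hG0 y)
    · exact ((measurable_phi.comp (by fun_prop)).mul hG).aestronglyMeasurable
  have h2 : ∫ y, G (S y) ∂(stdGaussian (Euc m)) = (∫⁻ y, H2 y ∂(stdGaussian (Euc m))).toReal := by
    apply integral_eq_lintegral_of_nonneg_ae
    · filter_upwards with y
      exact hG0 _
    · exact (hG.comp hSm).aestronglyMeasurable
  change _ = phi0 * c * ∫ y, G (S y) ∂(stdGaussian (Euc m))
  rw [h1, h2, hlin, ENNReal.toReal_mul, ENNReal.toReal_ofReal (mul_pos phi0_pos hcpos).le]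

end Vale.Agent.P226
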