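import Vale.Agent.P226.WnCalc
import Vale.Agent.P226.ProjLaw
import Vale.Agent.P226.Facet

/-!
# Facet bounds in the exact dimension, for cones in `R^n`
-/

open MeasureTheory ProbabilityTheory Set Filter Topology
open scoped ENNReal

namespace Vale.Agent.P226

variable {n : ℕ}

section cone
variable {R : Set (Euc n)}

/-- The slope of a direction. -/
noncomputable def slopeT (v y : Euc n) : ℝ := inner ℝ y v / ‖y‖

lemma slopeT_smul (v y : Euc n) {c : ℝ} (hc : 0 < c) : slopeT v (c • y) = slopeT v y := by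
  unfold slopeT
  rw [inner_smul_left, norm_smul, Real.norm_eq_abs, abs_of_pos hc]
  simp only [conj_trivial]
  by_cases hy : ‖y‖ = 0
  · simp [hy]
  · field_simp

lemma measurable_slopeT (v : Euc n) : Measurable (slopeT v) := by
  unfold slopeT
  fun_prop

lemma norm_mul_slopeT (v y : Euc n) : ‖y‖ * slopeT v y = inner ℝ y v := by
  unfold slopeT
  by_cases hy : ‖y‖ = 0
  · have : y = 0 := norm_eq_zero.1 hy
    simp [this]
  · field_simp

/-- Radial averaging over a cone, for nonnegative functions. -/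
theorem cone_radial (hn : 1 ≤ n) (hR : MeasurableSet R) (hc : IsConeSet R) (v : Euc n)
    (f : ℝ → ℝ) (hf : Measurable f) (hf0 : ∀ t, 0 ≤ t → 0 ≤ f t)
    (hv : ∀ y ∈ R, 0 ≤ inner ℝ y v) (hfb : ∃ C, ∀ t, 0 ≤ t → f t ≤ C) :
    ∫ y in R, f (inner ℝ y v) ∂(stdGaussian (Euc n)) =
      ∫ y in R, (∫ y', f (‖y'‖ * slopeT v y) ∂(stdGaussian (Euc n))) ∂(stdGaussian (Euc n)) := by
  obtain ⟨C, hC⟩ := hfb
  have hslope : ∀ y ∈ R, 0 ≤ slopeT v y := fun y hy => div_nonneg (hv y hy) (norm_nonneg _)
  let H : Euc n → ℝ → ℝ≥0∞ := fun y r => R.indicator (fun y => ENNReal.ofReal (f (r * slopeT v y))) y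
  have hH : Measurable (Function.uncurry H) := by
    have h1 : Measurable (fun p : Euc n × ℝ => ENNReal.ofReal (f (p.2 * slopeT v p.1))) :=
      (hf.comp (measurable_snd.mul ((measurable_slopeT v).comp measurable_fst))).ennreal_ofReal
    have h2 : Function.uncurry H = (Prod.fst ⁻¹' R).indicator
        (fun p : Euc n × ℝ => ENNReal.ofReal (f (p.2 * slopeT v p.1))) := by
      funext p
      simp only [Function.uncurry, H, indicator]
      rfl
    rw [h2]
    exact h1.indicator (measurable_fst hR)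
  have hhom : ∀ c : ℝ, 0 < c → ∀ y r, H (c • y) r = H y r := by
    intro c hc0 y r
    simp only [H, indicator]
    by_cases hy : y ∈ R
    · have hy' : c • y ∈ R := (hc c hc0 y).2 hy
      simp [hy, hy', slopeT_smul v y hc0]
    · have hy' : c • y ∉ R := fun h => hy ((hc c hc0 y).1 h)
      simp [hy, hy']
  have hind := radial_indep hn H hH hhom
  have hbd : ∀ s, 0 ≤ s → Integrable (fun y' : Euc n => f (‖y'‖ * s)) (stdGaussian (Euc n)) := by
    intro s hs
    refine Integrable.of_bound (by
      have : Measurable (fun y' : Euc n => f (‖y'‖ * s)) := hf.comp (by fun_prop)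
      exact this.aestronglyMeasurable) C ?_
    filter_upwards with y'
    have h0 : 0 ≤ ‖y'‖ * s := mul_nonneg (norm_nonneg _) hs
    rw [Real.norm_eq_abs, abs_of_nonneg (hf0 _ h0)]
    exact hC _ h0
  -- left side
  have hL : ∫⁻ y, H y ‖y‖ ∂(stdGaussian (Euc n)) =
      ENNReal.ofReal (∫ y in R, f (inner ℝ y v) ∂(stdGaussian (Euc n))) := by
    rw [ofReal_integral_eq_lintegral_ofReal]
    · rw [← lintegral_indicator hR]
      refine lintegral_congr fun y => ?_
      simp only [H, indicator]
      by_cases hy : y ∈ R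
      · simp [hy, norm_mul_slopeT]
      · simp [hy]
    · refine Integrable.of_bound (by
        have : Measurable (fun y : Euc n => f (inner ℝ y v)) := hf.comp (by fun_prop)
        exact this.aestronglyMeasurable) C ?_
      refine (ae_restrict_iff' hR).2 (Eventually.of_forall fun y hy => ?_)
      rw [Real.norm_eq_abs, abs_of_nonneg (hf0 _ (hv y hy))]
      exact hC _ (hv y hy)
    · refine (ae_restrict_iff' hR).2 (Eventually.of_forall fun y hy => ?_)
      exact hf0 _ (hv y hy)
  have hR2 : ∫⁻ y, ∫⁻ y', H y ‖y'‖ ∂(stdGaussian (Euc n)) ∂(stdGaussian (Euc n)) =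
      ENNReal.ofReal (∫ y in R, (∫ y', f (‖y'‖ * slopeT v y) ∂(stdGaussian (Euc n)))
        ∂(stdGaussian (Euc n))) := by
    have hFm : Measurable (fun y => ∫ y', f (‖y'‖ * slopeT v y) ∂(stdGaussian (Euc n))) := by
      have h3 : Measurable (fun p : Euc n × Euc n => f (‖p.2‖ * slopeT v p.1)) :=
        hf.comp ((by fun_prop : Measurable fun p : Euc n × Euc n => ‖p.2‖).mul
          ((measurable_slopeT v).comp measurable_fst))
      exact (h3.stronglyMeasurable.integral_prod_right'
        (ν := stdGaussian (Euc n))).measurable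
    have hF0 : ∀ y ∈ R, 0 ≤ ∫ y', f (‖y'‖ * slopeT v y) ∂(stdGaussian (Euc n)) := by
      intro y hy
      refine integral_nonneg fun y' => ?_
      exact hf0 _ (mul_nonneg (norm_nonneg _) (hslope y hy))
    have hFC : ∀ y ∈ R, ∫ y', f (‖y'‖ * slopeT v y) ∂(stdGaussian (Euc n)) ≤ C := by
      intro y hy
      have h4 : ∫ y', f (‖y'‖ * slopeT v y) ∂(stdGaussian (Euc n)) ≤
          ∫ _y' : Euc n, C ∂(stdGaussian (Euc n)) := by
        refine integral_mono (hbd _ (hslope y hy)) (integrable_const _) fun y' => ?_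
        exact hC _ (mul_nonneg (norm_nonneg _) (hslope y hy))
      simpa using h4
    rw [ofReal_integral_eq_lintegral_ofReal]
    · rw [← lintegral_indicator hR]
      refine lintegral_congr fun y => ?_
      by_cases hy : y ∈ R
      · simp only [H, indicator, hy, if_true]
        rw [ofReal_integral_eq_lintegral_ofReal (hbd _ (hslope y hy))]
        exact Eventually.of_forall fun y' => hf0 _ (mul_nonneg (norm_nonneg _) (hslope y hy))
      · simp [H, indicator, hy]
    · refine Integrable.of_bound hFm.aestronglyMeasurable C ?_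
      refine (ae_restrict_iff' hR).2 (Eventually.of_forall fun y hy => ?_)
      rw [Real.norm_eq_abs, abs_of_nonneg (hF0 y hy)]
      exact hFC y hy
    · exact (ae_restrict_iff' hR).2 (Eventually.of_forall hF0)
  rw [hL, hR2] at hind
  have hnn1 : 0 ≤ ∫ y in R, f (inner ℝ y v) ∂(stdGaussian (Euc n)) :=
    setIntegral_nonneg hR fun y hy => hf0 _ (hv y hy)
  have hnn2 : 0 ≤ ∫ y in R, (∫ y', f (‖y'‖ * slopeT v y) ∂(stdGaussian (Euc n)))
      ∂(stdGaussian (Euc n)) :=
    setIntegral_nonneg hR fun y hy =>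
      integral_nonneg fun y' => hf0 _ (mul_nonneg (norm_nonneg _) (hslope y hy))
  exact (ENNReal.ofReal_eq_ofReal_iff hnn1 hnn2).1 hind

lemma measurable_radialAvg (v : Euc n) {f : ℝ → ℝ} (hf : Measurable f) :
    Measurable (fun y => ∫ y', f (‖y'‖ * slopeT v y) ∂(stdGaussian (Euc n))) := by
  have h3 : Measurable (fun p : Euc n × Euc n => f (‖p.2‖ * slopeT v p.1)) :=
    hf.comp ((by fun_prop : Measurable fun p : Euc n × Euc n => ‖p.2‖).mul
      ((measurable_slopeT v).comp measurable_fst))
  exact (h3.stronglyMeasurable.integral_prod_right'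
    (ν := stdGaussian (Euc n))).measurable

lemma integrableOn_radialAvg (hR : MeasurableSet R) (v : Euc n) {f : ℝ → ℝ} (hf : Measurable f)
    (hf0 : ∀ t, 0 ≤ t → 0 ≤ f t) (hv : ∀ y ∈ R, 0 ≤ inner ℝ y v) {C : ℝ}
    (hC : ∀ t, 0 ≤ t → f t ≤ C) :
    IntegrableOn (fun y => ∫ y', f (‖y'‖ * slopeT v y) ∂(stdGaussian (Euc n))) R
      (stdGaussian (Euc n)) := by
  have hslope : ∀ y ∈ R, 0 ≤ slopeT v y := fun y hy => div_nonneg (hv y hy) (norm_nonneg _)
  refine Integrable.of_bound (measurable_radialAvg v hf).aestronglyMeasurable C ?_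
  refine (ae_restrict_iff' hR).2 (Eventually.of_forall fun y hy => ?_)
  have hint : Integrable (fun y' : Euc n => f (‖y'‖ * slopeT v y)) (stdGaussian (Euc n)) := by
    refine Integrable.of_bound (by
      have : Measurable (fun y' : Euc n => f (‖y'‖ * slopeT v y)) := hf.comp (by fun_prop)
      exact this.aestronglyMeasurable) C ?_
    filter_upwards with y'
    have h0 : 0 ≤ ‖y'‖ * slopeT v y := mul_nonneg (norm_nonneg _) (hslope y hy)
    rw [Real.norm_eq_abs, abs_of_nonneg (hf0 _ h0)]
    exact hC _ h0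
  rw [Real.norm_eq_abs, abs_of_nonneg
    (integral_nonneg fun y' => hf0 _ (mul_nonneg (norm_nonneg _) (hslope y hy)))]
  have h4 : ∫ y', f (‖y'‖ * slopeT v y) ∂(stdGaussian (Euc n)) ≤
      ∫ _y' : Euc n, C ∂(stdGaussian (Euc n)) := by
    refine integral_mono hint (integrable_const _) fun y' => ?_
    exact hC _ (mul_nonneg (norm_nonneg _) (hslope y hy))
  simpa using h4

lemma mul_phi_le_phi0 (t : ℝ) : t * phi t ≤ phi0 :=
  (le_abs_self _).trans (abs_mul_phi_le t)

lemma kap_pos (hn : 1 ≤ n) : 0 < kap n := mul_pos phi0_pos (cm_pos hn)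

/-- The radial average of `t φ(t)`. -/
lemma radial_t_phi (v y : Euc n) :
    ∫ y', (‖y'‖ * slopeT v y) * phi (‖y'‖ * slopeT v y) ∂(stdGaussian (Euc n)) =
      slopeT v y * (kap n * (Real.sqrt (1 + slopeT v y ^ 2))⁻¹ ^ (n + 1)) := by
  rw [← radial_norm_phi, ← integral_const_mul]
  refine integral_congr_ae (Eventually.of_forall fun y' => ?_)
  simp only
  rw [mul_comm ‖y'‖ (slopeT v y)]
  ring

/-- **Line bound on a cone.** -/
theorem cone_line (hn : 1 ≤ n) (hR : MeasurableSet R) (hc : IsConeSet R) (v : Euc n)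
    (hv : ∀ y ∈ R, 0 ≤ inner ℝ y v) {Λ A B : ℝ} (hline : LineValid n Λ A B) :
    A / phi0 * (∫ y in R, phi (inner ℝ y v) ∂(stdGaussian (Euc n))) -
        B / kap n * (∫ y in R, inner ℝ y v * phi (inner ℝ y v) ∂(stdGaussian (Euc n))) ≤
      (∫ y in R, Qf (inner ℝ y v) ∂(stdGaussian (Euc n))) +
        Λ * (stdGaussian (Euc n)).real R := by
  have hslope : ∀ y ∈ R, 0 ≤ slopeT v y := fun y hy => div_nonneg (hv y hy) (norm_nonneg _)
  have hmt : Measurable (fun t : ℝ => t * phi t) := measurable_id.mul measurable_phi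
  have h1 := cone_radial hn hR hc v Qf measurable_Qf (fun t _ => Qf_nonneg t) hv
    ⟨1, fun t _ => Qf_le_one t⟩
  have h2 := cone_radial hn hR hc v phi measurable_phi (fun t _ => (phi_pos t).le) hv
    ⟨phi0, fun t _ => phi_le_phi0 t⟩
  have h3 := cone_radial hn hR hc v (fun t => t * phi t) hmt
    (fun t ht => mul_nonneg ht (phi_pos t).le) hv ⟨phi0, fun t _ => mul_phi_le_phi0 t⟩
  simp only at h3
  rw [h1, h2, h3]
  have i1 := integrableOn_radialAvg hR v measurable_Qf (fun t _ => Qf_nonneg t) hv
    (fun t _ => Qf_le_one t)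
  have i2 := integrableOn_radialAvg hR v measurable_phi (fun t _ => (phi_pos t).le) hv
    (fun t _ => phi_le_phi0 t)
  have i3 := integrableOn_radialAvg hR v hmt (fun t ht => mul_nonneg ht (phi_pos t).le) hv
    (fun t _ => mul_phi_le_phi0 t)
  have hκ := kap_pos hn
  have hφ := phi0_pos
  have key : ∫ y in R, (A / phi0 * (∫ y', phi (‖y'‖ * slopeT v y) ∂(stdGaussian (Euc n))) -
      B / kap n * ∫ y', (‖y'‖ * slopeT v y) * phi (‖y'‖ * slopeT v y) ∂(stdGaussian (Euc n)))
        ∂(stdGaussian (Euc n)) ≤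
      ∫ y in R, ((∫ y', Qf (‖y'‖ * slopeT v y) ∂(stdGaussian (Euc n))) + Λ)
        ∂(stdGaussian (Euc n)) := by
    refine setIntegral_mono_on ((i2.const_mul _).sub (i3.const_mul _))
      (i1.add (integrableOn_const (by simp))) hR fun y hy => ?_
    have hs := hslope y hy
    have hl := hline (slopeT v y) hs
    have e1 : ∫ y', phi (‖y'‖ * slopeT v y) ∂(stdGaussian (Euc n)) =
        phi0 * (Real.sqrt (1 + slopeT v y ^ 2))⁻¹ ^ n := by
      rw [← radial_phi]
      refine integral_congr_ae (Eventually.of_forall fun y' => ?_)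
      simp only
      rw [mul_comm]
    have e2 := radial_t_phi (n := n) v y
    have e3 : ∫ y', Qf (‖y'‖ * slopeT v y) ∂(stdGaussian (Euc n)) =
        kap n * Wn (n + 1) (slopeT v y) := by
      rw [← radial_Q hn hs]
      refine integral_congr_ae (Eventually.of_forall fun y' => ?_)
      simp only
      rw [mul_comm]
    rw [e1, e2, e3]
    refine le_trans (le_of_eq ?_) hl
    generalize (Real.sqrt (1 + slopeT v y ^ 2))⁻¹ = u
    field_simp
    ring
  rw [integral_sub (i2.const_mul _) (i3.const_mul _), integral_const_mul, integral_const_mul,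
    integral_add i1 (integrableOn_const (by simp))] at key
  simpa [mul_comm] using key

end cone

section scale
variable {m : ℕ} {R : Set (Euc (m + 1))}

/-- The map scaling the direction `e` by `c`. -/
noncomputable def scaleMap (e : Euc (m + 1)) (c : ℝ) (y : Euc (m + 1)) : Euc (m + 1) :=
  y + (c - 1) • (inner ℝ y e) • e

lemma measurable_scaleMap (e : Euc (m + 1)) (c : ℝ) : Measurable (scaleMap e c) := by
  unfold scaleMap
  fun_prop

lemma scaleMap_smul (e : Euc (m + 1)) (c a : ℝ) (y : Euc (m + 1)) :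
    scaleMap e c (a • y) = a • scaleMap e c y := by
  unfold scaleMap
  rw [inner_smul_left, smul_add]
  simp only [conj_trivial]
  rw [mul_smul, smul_comm (c - 1) a]

lemma inner_scaleMap {e : Euc (m + 1)} (he : ‖e‖ = 1) (c : ℝ) (y : Euc (m + 1)) :
    inner ℝ (scaleMap e c y) e = c * inner ℝ y e := by
  unfold scaleMap
  rw [inner_add_left, inner_smul_left, inner_smul_left, real_inner_self_eq_norm_sq, he]
  simp only [conj_trivial]
  ring

/-- **Facet bound on a cone.** -/
theorem cone_facet (hm : 1 ≤ m) (hR : MeasurableSet R) (hc : IsConeSet R) {e : Euc (m + 1)}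
    (he : ‖e‖ = 1) {b : ℝ} (hb : 0 ≤ b) (hv : ∀ y ∈ R, 0 ≤ inner ℝ y (b • e)) {τ : ℝ} (hτ : 0 ≤ τ) :
    ∫ y in R, inner ℝ y (b • e) * phi (inner ℝ y (b • e)) ∂(stdGaussian (Euc (m + 1))) ≤
      ((Real.sqrt (1 + b ^ 2))⁻¹) ^ 2 * b *
        (kap (m + 1) * (τ * (Real.sqrt (1 + τ ^ 2))⁻¹) *
            ((∫ y in R, phi (inner ℝ y (b • e)) ∂(stdGaussian (Euc (m + 1)))) /
                (phi0 * (Real.sqrt (1 + b ^ 2))⁻¹) - kap m * Wn (m + 1) τ) +
          phi0 ^ 2 * (Real.sqrt (1 + τ ^ 2))⁻¹ ^ m) := by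
  set c := (Real.sqrt (1 + b ^ 2))⁻¹ with hcdef
  have hcpos : 0 < c := by positivity
  let F : Set (Euc (m + 1)) := scaleMap e c ⁻¹' R
  have hFm : MeasurableSet F := measurable_scaleMap e c hR
  have hFc : IsConeSet F := by
    intro a ha y
    simp only [F, mem_preimage, scaleMap_smul]
    exact hc a ha _
  have hin : ∀ y : Euc (m + 1), inner ℝ y (b • e) = b * inner ℝ y e := by
    intro y
    rw [inner_smul_right]
  have hS : ∀ y : Euc (m + 1), y + (c - 1) • (inner ℝ y e) • e = scaleMap e c y := fun y => rfl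
  -- the mass
  have hp : ∫ y in R, phi (inner ℝ y (b • e)) ∂(stdGaussian (Euc (m + 1))) =
      phi0 * c * (stdGaussian (Euc (m + 1))).real F := by
    have h := scale_coord he b (G := R.indicator fun _ => (1 : ℝ))
      (measurable_const.indicator hR) (fun y => indicator_nonneg (fun _ _ => zero_le_one) y)
      (by
        refine Integrable.of_bound ?_ 1 ?_
        · exact (((measurable_const.indicator hR).comp
            (measurable_scaleMap e c)).aestronglyMeasurable)
        · filter_upwards with y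
          simp only [← hcdef, hS]
          by_cases hy : scaleMap e c y ∈ R <;> simp [hy])
    simp only [← hcdef, hS] at h
    have h1 : ∫ y, phi (b * inner ℝ y e) * R.indicator (fun _ => (1 : ℝ)) y
        ∂(stdGaussian (Euc (m + 1))) = ∫ y in R, phi (inner ℝ y (b • e))
          ∂(stdGaussian (Euc (m + 1))) := by
      rw [← integral_indicator hR]
      refine integral_congr_ae (Eventually.of_forall fun y => ?_)
      by_cases hy : y ∈ R <;> simp [hy, hin]
    have h2 : ∫ y, R.indicator (fun _ => (1 : ℝ)) (scaleMap e c y) ∂(stdGaussian (Euc (m + 1))) =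
        (stdGaussian (Euc (m + 1))).real F := by
      have : (fun y => R.indicator (fun _ => (1 : ℝ)) (scaleMap e c y)) =
          F.indicator (fun _ => (1 : ℝ)) := by
        funext y
        by_cases hy : scaleMap e c y ∈ R
        · have hy' : y ∈ F := hy
          simp [hy, hy']
        · have hy' : y ∉ F := hy
          simp [hy, hy']
      rw [this, integral_indicator hFm]
      simp
    rw [← h1, h, h2]
  -- the moment
  have hM : ∫ y in R, inner ℝ y (b • e) * phi (inner ℝ y (b • e)) ∂(stdGaussian (Euc (m + 1))) =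
      c ^ 2 * b * (phi0 * ∫ y in F, inner ℝ y e ∂(stdGaussian (Euc (m + 1)))) := by
    let G : Euc (m + 1) → ℝ := R.indicator fun y => inner ℝ y (b • e)
    have hGm : Measurable G := (by fun_prop : Measurable fun y : Euc (m + 1) => inner ℝ y (b • e)).indicator hR
    have hG0 : ∀ y, 0 ≤ G y := fun y => indicator_nonneg (fun y hy => hv y hy) y
    have hGS : ∀ y, G (scaleMap e c y) = F.indicator (fun y => b * c * inner ℝ y e) y := by
      intro y
      by_cases hy : scaleMap e c y ∈ R
      · have hy' : y ∈ F := hy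
        simp only [G, indicator_of_mem hy, indicator_of_mem hy', hin, inner_scaleMap he]
        ring
      · have hy' : y ∉ F := hy
        simp only [G, indicator_of_notMem hy, indicator_of_notMem hy']
    have hint : Integrable (fun y : Euc (m + 1) => b * c * inner ℝ y e) (stdGaussian (Euc (m + 1))) :=
      (integrable_inner e).const_mul _
    have h := scale_coord he b (G := G) hGm hG0 (by
      simp only [← hcdef, hS]
      have : (fun y => G (scaleMap e c y)) = F.indicator (fun y => b * c * inner ℝ y e) :=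
        funext hGS
      rw [this]
      exact hint.indicator hFm)
    simp only [← hcdef, hS] at h
    have h1 : ∫ y, phi (b * inner ℝ y e) * G y ∂(stdGaussian (Euc (m + 1))) =
        ∫ y in R, inner ℝ y (b • e) * phi (inner ℝ y (b • e)) ∂(stdGaussian (Euc (m + 1))) := by
      rw [← integral_indicator hR]
      refine integral_congr_ae (Eventually.of_forall fun y => ?_)
      by_cases hy : y ∈ R
      · simp only [G, indicator_of_mem hy, hin]
        ring
      · simp [G, indicator_of_notMem hy]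
    have h2 : ∫ y, G (scaleMap e c y) ∂(stdGaussian (Euc (m + 1))) =
        b * c * ∫ y in F, inner ℝ y e ∂(stdGaussian (Euc (m + 1))) := by
      have : (fun y => G (scaleMap e c y)) = F.indicator (fun y => b * c * inner ℝ y e) :=
        funext hGS
      rw [this, integral_indicator hFm, integral_const_mul]
    rw [← h1, h, h2]
    ring
  have hmom := cone_moment hm hFm hFc he hτ
  have hφc : 0 < phi0 * c := mul_pos phi0_pos hcpos
  have hγ : (∫ y in R, phi (inner ℝ y (b • e)) ∂(stdGaussian (Euc (m + 1)))) / (phi0 * c) =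
      (stdGaussian (Euc (m + 1))).real F := by
    rw [hp]
    exact mul_div_cancel_left₀ _ hφc.ne'
  rw [hM, hγ]
  exact mul_le_mul_of_nonneg_left hmom (by positivity)

/-- Combination of the line bound and the facet bound. -/
theorem cone_combined (hm : 1 ≤ m) (hR : MeasurableSet R) (hc : IsConeSet R) {e : Euc (m + 1)}
    (he : ‖e‖ = 1) {b : ℝ} (hb : 0 ≤ b) (hv : ∀ y ∈ R, 0 ≤ inner ℝ y (b • e)) {τ : ℝ} (hτ : 0 ≤ τ)
    {Λ A B : ℝ} (hline : LineValid (m + 1) Λ A B) (hB : 0 ≤ B) :
    A / phi0 * (∫ y in R, phi (inner ℝ y (b • e)) ∂(stdGaussian (Euc (m + 1)))) -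
        B * (((Real.sqrt (1 + b ^ 2))⁻¹) ^ 2 * b *
          ((τ * (Real.sqrt (1 + τ ^ 2))⁻¹) *
            ((∫ y in R, phi (inner ℝ y (b • e)) ∂(stdGaussian (Euc (m + 1)))) /
                (phi0 * (Real.sqrt (1 + b ^ 2))⁻¹) - kap m * Wn (m + 1) τ) +
          phi0 ^ 2 * (Real.sqrt (1 + τ ^ 2))⁻¹ ^ m / kap (m + 1))) ≤
      (∫ y in R, Qf (inner ℝ y (b • e)) ∂(stdGaussian (Euc (m + 1)))) +
        Λ * (stdGaussian (Euc (m + 1))).real R := by
  have hκ : 0 < kap (m + 1) := kap_pos (by omega)
  have h1 := cone_line (n := m + 1) (by omega) hR hc (b • e) hv hline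
  have h2 := cone_facet hm hR hc he hb hv hτ
  have h3 := mul_le_mul_of_nonneg_left h2 (div_nonneg hB hκ.le)
  have e : ∀ c2b h Y E : ℝ, B / kap (m + 1) * (c2b * (kap (m + 1) * h * Y + E)) =
      B * (c2b * (h * Y + E / kap (m + 1))) := by
    intro c2b h Y E
    field_simp
  rw [e] at h3
  linarith

end scale

end Vale.Agent.P226
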