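import Mathlib

/-!
# Fixed point arithmetic on natural numbers

A natural number `n` stands for the real number `n / 2 ^ 32`.  The operations `mulU` and `mulD`
are rounded products, the first rounded up and the second rounded down.  These functions are
evaluated by the kernel in the numerical certificates.
-/

namespace Vale.Agent.P226

/-- The real number represented by a natural number. -/
noncomputable def val (n : ℕ) : ℝ := (n : ℝ) / 2 ^ 32

/-- Rounded up product. -/
def mulU (a b : ℕ) : ℕ := (a * b) >>> 32 + 1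

/-- Rounded down product. -/
def mulD (a b : ℕ) : ℕ := (a * b) >>> 32

/-- The number one. -/
def fone : ℕ := 4294967296

lemma val_nonneg (n : ℕ) : 0 ≤ val n := by unfold val; positivity

lemma val_zero : val 0 = 0 := by simp [val]

lemma val_fone : val fone = 1 := by norm_num [val, fone]

lemma val_add (a b : ℕ) : val (a + b) = val a + val b := by
  unfold val; push_cast; ring

lemma val_sub {a b : ℕ} (h : b ≤ a) : val (a - b) = val a - val b := by
  unfold val; rw [Nat.cast_sub h]; ring

lemma val_le_val {a b : ℕ} (h : a ≤ b) : val a ≤ val b := by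
  unfold val
  have : (a : ℝ) ≤ b := by exact_mod_cast h
  gcongr

lemma val_mul_two (a : ℕ) : val (2 * a) = 2 * val a := by
  unfold val; push_cast; ring

lemma val_mulU (a b : ℕ) : val a * val b ≤ val (mulU a b) := by
  unfold val mulU
  rw [Nat.shiftRight_eq_div_pow]
  have h : a * b < (a * b / 2 ^ 32 + 1) * 2 ^ 32 := by
    have := Nat.lt_mul_div_succ (a * b) (by positivity : 0 < 2 ^ 32)
    nlinarith
  have h2 : ((a * b : ℕ) : ℝ) ≤ (((a * b / 2 ^ 32 + 1) * 2 ^ 32 : ℕ) : ℝ) := by
    exact_mod_cast h.le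
  push_cast at h2 ⊢
  field_simp
  nlinarith

lemma val_mulD (a b : ℕ) : val (mulD a b) ≤ val a * val b := by
  unfold val mulD
  rw [Nat.shiftRight_eq_div_pow]
  have h : a * b / 2 ^ 32 * 2 ^ 32 ≤ a * b := Nat.div_mul_le_self _ _
  have h2 : (((a * b / 2 ^ 32) * 2 ^ 32 : ℕ) : ℝ) ≤ ((a * b : ℕ) : ℝ) := by
    exact_mod_cast h
  push_cast at h2 ⊢
  field_simp
  nlinarith

/-- Floor division in fixed point. -/
def divD (a b : ℕ) : ℕ := (a <<< 32) / b

/-- Ceiling division in fixed point. -/
def divU (a b : ℕ) : ℕ := (a <<< 32) / b + 1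

lemma val_divD (a b : ℕ) : val (divD a b) * val b ≤ val a := by
  unfold val divD
  rw [Nat.shiftLeft_eq]
  have h : a * 2 ^ 32 / b * b ≤ a * 2 ^ 32 := Nat.div_mul_le_self _ _
  have h2 : ((a * 2 ^ 32 / b * b : ℕ) : ℝ) ≤ ((a * 2 ^ 32 : ℕ) : ℝ) := by exact_mod_cast h
  push_cast at h2 ⊢
  field_simp
  nlinarith

lemma val_divU {a b : ℕ} (hb : 0 < b) : val a ≤ val (divU a b) * val b := by
  unfold val divU
  rw [Nat.shiftLeft_eq]
  have h : a * 2 ^ 32 < (a * 2 ^ 32 / b + 1) * b := by
    have := Nat.lt_mul_div_succ (a * 2 ^ 32) hb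
    nlinarith
  have h2 : ((a * 2 ^ 32 : ℕ) : ℝ) ≤ (((a * 2 ^ 32 / b + 1) * b : ℕ) : ℝ) := by
    exact_mod_cast h.le
  push_cast at h2 ⊢
  field_simp
  nlinarith

end Vale.Agent.P226
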