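import Vale.Agent.P226.Tangent
import Vale.Agent.P226.Fix

/-!
# A checker for the pair inequality

The pair inequality bounds the contribution of one facet of a cell by a quadratic expression in the
norm of the neighbouring vector.  It is verified on boxes of the parameters `(x, y, t)` where
`t = tan(θ/2)`, with `θ` the angle of the neighbour.
-/

namespace Vale.Agent.P226

/-- `cos θ` in terms of `t = tan (θ / 2)`. -/
noncomputable def cosT (t : ℝ) : ℝ := (1 - t ^ 2) / (1 + t ^ 2)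

/-- `sin θ` in terms of `t = tan (θ / 2)`. -/
noncomputable def sinT (t : ℝ) : ℝ := 2 * t / (1 + t ^ 2)

/-- The squared distance. -/
noncomputable def pairD2 (x y t : ℝ) : ℝ := x ^ 2 + y ^ 2 + 2 * x * y * cosT t

/-- The pair inequality at the point `(x, y, t)`. -/
def PairProp (K f0 f1 f2 tp tm x y t : ℝ) : Prop :=
  ∃ s : ℝ, 0 ≤ s ∧
    y * sinT t * (x + y * cosT t) * (s / K * Real.sqrt (pairD2 x y t) + phi0 * psiHat s) /
      pairD2 x y t ≤ f0 + y * (f1 - f2 * y + (tp - tm) * cosT t)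

lemma cosT_nonneg {t : ℝ} (h0 : 0 ≤ t) (h1 : t ≤ 1) : 0 ≤ cosT t := by
  unfold cosT
  apply div_nonneg <;> nlinarith

lemma sinT_nonneg {t : ℝ} (h0 : 0 ≤ t) : 0 ≤ sinT t := by
  unfold sinT; positivity

lemma cosT_le {t u : ℝ} (hu : 0 ≤ u) (h : u ≤ t ^ 2) : cosT t ≤ (1 - u) / (1 + u) := by
  unfold cosT
  rw [div_le_div_iff₀ (by positivity) (by positivity)]
  nlinarith

lemma le_cosT {t u : ℝ} (h : t ^ 2 ≤ u) : (1 - u) / (1 + u) ≤ cosT t := by
  unfold cosT
  have : 0 ≤ t ^ 2 := sq_nonneg t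
  rw [div_le_div_iff₀ (by linarith) (by positivity)]
  nlinarith

lemma sinT_le {t t2 : ℝ} (h0 : 0 ≤ t) (h : t ≤ t2) (h2 : t2 ≤ 1) :
    sinT t ≤ 2 * t2 / (1 + t2 ^ 2) := by
  unfold sinT
  rw [div_le_div_iff₀ (by positivity) (by positivity)]
  have h3 : 0 ≤ (t2 - t) * (1 - t * t2) := by
    apply mul_nonneg (by linarith)
    nlinarith
  nlinarith

/-- Core real inequality, first form. -/
lemma pair_core_A {y W Wn d2 dL c f0 f1 f2 tp tm P N : ℝ} (hy : 0 ≤ y) (hf0 : 0 ≤ f0)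
    (hW : W ≤ Wn) (hWn : 0 ≤ Wn) (hdL : 0 < dL) (hd : dL ≤ d2)
    (hP : P ≤ f1 + tp * c) (hN : f2 * y + tm * c ≤ N) (hA : Wn ≤ (P - N) * dL) :
    y * W / d2 ≤ f0 + y * (f1 - f2 * y + (tp - tm) * c) := by
  have hd2 : 0 < d2 := hdL.trans_le hd
  have h1 : W / d2 ≤ P - N := by
    rw [div_le_iff₀ hd2]
    have hPN : 0 ≤ P - N := by
      by_contra hneg
      push Not at hneg
      have : (P - N) * dL < 0 := mul_neg_of_neg_of_pos hneg hdL
      linarith
    have := mul_le_mul_of_nonneg_left hd hPN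
    linarith
  have h2 : W / d2 ≤ f1 - f2 * y + (tp - tm) * c := by linarith
  have h3 := mul_le_mul_of_nonneg_left h2 hy
  have h4 : y * W / d2 = y * (W / d2) := by ring
  rw [h4]
  linarith

/-- Core real inequality, second form. -/
lemma pair_core_B {y y2 W Wn d2 dL c f0 f1 f2 tp tm G H : ℝ} (hy : 0 ≤ y) (hy2 : y ≤ y2)
    (hW : W ≤ Wn) (hWn : 0 ≤ Wn) (hdL : 0 < dL) (hd : dL ≤ d2)
    (hG : G ≤ f0 + y * (f1 + tp * c)) (hH : y * (f2 * y + tm * c) ≤ H)
    (hB : y2 * Wn ≤ (G - H) * dL) :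
    y * W / d2 ≤ f0 + y * (f1 - f2 * y + (tp - tm) * c) := by
  have hd2 : 0 < d2 := hdL.trans_le hd
  have h0 : y * W ≤ y2 * Wn :=
    (mul_le_mul_of_nonneg_left hW hy).trans (mul_le_mul_of_nonneg_right hy2 hWn)
  have hy20 : 0 ≤ y2 := hy.trans hy2
  have hGH : 0 ≤ G - H := by
    by_contra hneg
    push Not at hneg
    have h1 : (G - H) * dL < 0 := mul_neg_of_neg_of_pos hneg hdL
    have h2 : 0 ≤ y2 * Wn := mul_nonneg hy20 hWn
    linarith
  have h1 : y * W / d2 ≤ G - H := by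
    rw [div_le_iff₀ hd2]
    have := mul_le_mul_of_nonneg_left hd hGH
    linarith
  have e : f0 + y * (f1 - f2 * y + (tp - tm) * c) = f0 + y * (f1 + tp * c) - y * (f2 * y + tm * c) := by
    ring
  rw [e]
  linarith

/-- One Newton step for the square root in fixed point. -/
def newton (n g : ℕ) : ℕ := (g + divD n g) >>> 1

/-- Approximate square root from above, starting at `g`. -/
def sqrtU (n g : ℕ) : ℕ := newton n (newton n (newton n (newton n g))) + 2

/-- The entry of the table of tangents for the value `ν` (which is about `d / (K φ(0))`). -/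
def tanIndex (nu : ℕ) : ℕ :=
  let e := Nat.log2 nu
  4 * (31 - e) + (7 - (nu >>> (e - 2)))

/-- Look up a tangent. -/
def tanLookup (T : List (ℕ × ℕ)) (i : ℕ) : ℕ × ℕ :=
  match T[i]? with
  | some e => e
  | none => (0, fone)

/-- Parameters of the pair test. -/
structure PairData where
  T : List (ℕ × ℕ)
  cK : ℕ
  invK : ℕ
  f0 : ℕ
  f1 : ℕ
  f2 : ℕ
  tp : ℕ
  tm : ℕ

/-- Upper bound for the cosine. -/
def cUof (t1 : ℕ) : ℕ := divU (fone - mulD t1 t1) (fone + mulD t1 t1)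

/-- Lower bound for the cosine. -/
def cLof (t2 : ℕ) : ℕ := divD (fone - mulU t2 t2) (fone + mulU t2 t2)

/-- Upper bound for the sine. -/
def snUof (t2 : ℕ) : ℕ := divU (2 * t2) (fone + mulD t2 t2)

/-- Lower bound for the squared distance. -/
def d2Lof (x1 y1 cL : ℕ) : ℕ := mulD x1 x1 + mulD y1 y1 + 2 * mulD (mulD x1 y1) cL

/-- Upper bound for the squared distance. -/
def d2Uof (x2 y2 cU : ℕ) : ℕ := mulU x2 x2 + mulU y2 y2 + 2 * mulU (mulU x2 y2) cU

/-- The quantity bounding the left side of the pair inequality. -/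
def wnOf (p : PairData) (snU bU D : ℕ) : ℕ :=
  mulU (mulU snU bU) (mulU (mulU (tanLookup p.T (tanIndex (mulU D p.cK))).1 p.invK) D +
    (tanLookup p.T (tanIndex (mulU D p.cK))).2)

/-- The final comparison of the box test. -/
def pairCmp (f0 y1 y2 Wn d2L P N : ℕ) : Bool :=
  (Nat.ble N P && Nat.ble Wn (mulD (P - N) d2L)) ||
    (Nat.ble (mulU y2 N) (f0 + mulD y1 P) &&
      Nat.ble (mulU y2 Wn) (mulD (f0 + mulD y1 P - mulU y2 N) d2L))

/-- The box test. -/
def pairTest (p : PairData) (x1 x2 y1 y2 t1 t2 : ℕ) : Bool :=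
  let cU := cUof t1
  let cL := cLof t2
  let d2U := d2Uof x2 y2 cU
  let d2L := d2Lof x1 y1 cL
  let D := sqrtU d2U (x2 + y2)
  Nat.ble t2 fone && Nat.ble d2U (mulD D D) && Nat.blt 0 d2L &&
    pairCmp p.f0 y1 y2 (wnOf p (snUof t2) (x2 + mulU y2 cU) D) d2L (p.f1 + mulD p.tp cL)
      (mulU p.f2 y2 + mulU p.tm cU)

/-- The recursive checker. -/
def pairChk (p : PairData) : ℕ → ℕ → ℕ → ℕ → ℕ → ℕ → ℕ → Bool
  | 0, x1, x2, y1, y2, t1, t2 => pairTest p x1 x2 y1 y2 t1 t2
  | f + 1, x1, x2, y1, y2, t1, t2 =>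
    pairTest p x1 x2 y1 y2 t1 t2 ||
      (let wx := x2 - x1
       let wy := y2 - y1
       let wt := mulU (t2 - t1) (x2 + y2)
       if Nat.ble wx wy && Nat.ble wt wy then
         (let m := (y1 + y2) >>> 1
          pairChk p f x1 x2 y1 m t1 t2 && pairChk p f x1 x2 m y2 t1 t2)
       else if Nat.ble wx wt then
         (let m := (t1 + t2) >>> 1
          pairChk p f x1 x2 y1 y2 t1 m && pairChk p f x1 x2 y1 y2 m t2)
       else
         (let m := (x1 + x2) >>> 1
          pairChk p f x1 m y1 y2 t1 t2 && pairChk p f m x2 y1 y2 t1 t2))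

/-- Validity of a table of tangents. -/
def TanValid (T : List (ℕ × ℕ)) : Prop := ∀ e ∈ T, phi0 * psiHat (val e.1) ≤ val e.2

lemma tanLookup_valid {T : List (ℕ × ℕ)} (hT : TanValid T) (i : ℕ) :
    phi0 * psiHat (val (tanLookup T i).1) ≤ val (tanLookup T i).2 := by
  unfold tanLookup
  cases h : T[i]? with
  | some e =>
    simp only
    exact hT e (List.mem_of_getElem? h)
  | none =>
    simp only
    rw [val_zero, val_fone]
    unfold psiHat
    rw [zero_mul, sub_zero, phi_zero]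
    have h1 : phi0 ≤ 1 := by
      unfold phi0
      have h2pi : 1 ≤ Real.sqrt (2 * Real.pi) := by
        rw [Real.one_le_sqrt]
        have := Real.pi_gt_three
        linarith
      exact inv_le_one_of_one_le₀ h2pi
    have := phi0_pos
    nlinarith

section bounds

lemma cosT_le_cU {t1 t2 : ℕ} (h1 : t2 ≤ fone) {t : ℝ} (ht1 : val t1 ≤ t) (ht2 : t ≤ val t2) :
    cosT t ≤ val (cUof t1) := by
  have ht2' : val t2 ≤ 1 := by
    rw [← val_fone]; exact val_le_val h1
  have ht1' : t ≤ 1 := ht2.trans ht2'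
  have ht0 : 0 ≤ t := (val_nonneg _).trans ht1
  have ht1sle : val (mulD t1 t1) ≤ t ^ 2 := by
    refine (val_mulD t1 t1).trans ?_
    have := val_nonneg t1
    nlinarith
  have ht1sone : mulD t1 t1 ≤ fone := by
    have h5 : val (mulD t1 t1) ≤ 1 := ht1sle.trans (by nlinarith)
    have h6 : ((mulD t1 t1 : ℕ) : ℝ) ≤ fone := by
      unfold val at h5
      rw [div_le_iff₀ (by positivity)] at h5
      have : ((fone : ℕ) : ℝ) = 1 * 2 ^ 32 := by norm_num [fone]
      rw [this]; exact h5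
    exact_mod_cast h6
  have h5 := cosT_le (val_nonneg _) ht1sle
  have h6 := val_divU (a := fone - mulD t1 t1) (b := fone + mulD t1 t1) (by simp [fone])
  rw [val_sub ht1sone, val_add, val_fone] at h6
  refine h5.trans ?_
  rw [div_le_iff₀ (by have := val_nonneg (mulD t1 t1); linarith)]
  exact h6

lemma cL_le_cosT {t2 : ℕ} {t : ℝ} (ht0 : 0 ≤ t) (ht1' : t ≤ 1) (ht2 : t ≤ val t2) :
    val (cLof t2) ≤ cosT t := by
  by_cases hs : mulU t2 t2 ≤ fone
  · have h5 : t ^ 2 ≤ val (mulU t2 t2) := by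
      refine le_trans ?_ (val_mulU t2 t2)
      nlinarith [val_nonneg t2]
    have h6 := le_cosT h5
    have h7 := val_divD (fone - mulU t2 t2) (fone + mulU t2 t2)
    rw [val_sub hs, val_add, val_fone] at h7
    refine le_trans ?_ h6
    rw [le_div_iff₀ (by have := val_nonneg (mulU t2 t2); linarith)]
    exact h7
  · have h5 : fone - mulU t2 t2 = 0 := by omega
    have h6 : cLof t2 = 0 := by
      unfold cLof
      rw [h5]; simp [divD]
    rw [h6, val_zero]
    exact cosT_nonneg ht0 ht1'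

lemma sinT_le_snU {t2 : ℕ} (h1 : t2 ≤ fone) {t : ℝ} (ht0 : 0 ≤ t) (ht2 : t ≤ val t2) :
    sinT t ≤ val (snUof t2) := by
  have ht2' : val t2 ≤ 1 := by
    rw [← val_fone]; exact val_le_val h1
  have h5 := sinT_le ht0 ht2 ht2'
  refine h5.trans ?_
  have h6 := val_divU (a := 2 * t2) (b := fone + mulD t2 t2) (by simp [fone])
  rw [val_mul_two, val_add, val_fone] at h6
  have h7 : val (mulD t2 t2) ≤ val t2 ^ 2 := by
    have := val_mulD t2 t2
    nlinarith
  have h8 : 0 ≤ val (mulD t2 t2) := val_nonneg _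
  rw [div_le_iff₀ (by positivity)]
  unfold snUof
  have h9 : 0 ≤ val (divU (2 * t2) (fone + mulD t2 t2)) := val_nonneg _
  have := mul_le_mul_of_nonneg_left h7 h9
  linarith

lemma d2L_le {x1 y1 cL : ℕ} {x y c : ℝ} (hx1 : val x1 ≤ x) (hy1 : val y1 ≤ y)
    (hc : val cL ≤ c) : val (d2Lof x1 y1 cL) ≤ x ^ 2 + y ^ 2 + 2 * x * y * c := by
  have hx0 : 0 ≤ x := (val_nonneg _).trans hx1
  have hy0 : 0 ≤ y := (val_nonneg _).trans hy1
  unfold d2Lof
  rw [val_add, val_add, val_mul_two]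
  have h5 : val (mulD x1 x1) ≤ x ^ 2 := by
    refine (val_mulD x1 x1).trans ?_
    nlinarith [val_nonneg x1]
  have h6 : val (mulD y1 y1) ≤ y ^ 2 := by
    refine (val_mulD y1 y1).trans ?_
    nlinarith [val_nonneg y1]
  have h7 : val (mulD (mulD x1 y1) cL) ≤ x * y * c := by
    refine (val_mulD _ _).trans ?_
    have h8 : val (mulD x1 y1) ≤ x * y := by
      refine (val_mulD x1 y1).trans ?_
      exact mul_le_mul hx1 hy1 (val_nonneg _) hx0
    exact mul_le_mul h8 hc (val_nonneg _) (mul_nonneg hx0 hy0)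
  nlinarith

lemma le_d2U {x2 y2 cU : ℕ} {x y c : ℝ} (hx0 : 0 ≤ x) (hy0 : 0 ≤ y) (hc0 : 0 ≤ c)
    (hx2 : x ≤ val x2) (hy2 : y ≤ val y2)
    (hc : c ≤ val cU) : x ^ 2 + y ^ 2 + 2 * x * y * c ≤ val (d2Uof x2 y2 cU) := by
  unfold d2Uof
  rw [val_add, val_add, val_mul_two]
  have hx20 : 0 ≤ val x2 := val_nonneg _
  have hy20 : 0 ≤ val y2 := val_nonneg _
  have h5 : x ^ 2 ≤ val (mulU x2 x2) := by
    refine le_trans ?_ (val_mulU x2 x2)
    nlinarith
  have h6 : y ^ 2 ≤ val (mulU y2 y2) := by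
    refine le_trans ?_ (val_mulU y2 y2)
    nlinarith
  have h7 : x * y * c ≤ val (mulU (mulU x2 y2) cU) := by
    refine le_trans ?_ (val_mulU _ _)
    have h8 : x * y ≤ val (mulU x2 y2) := by
      refine le_trans ?_ (val_mulU x2 y2)
      exact mul_le_mul hx2 hy2 hy0 hx20
    exact mul_le_mul h8 hc hc0 (val_nonneg _)
  nlinarith

/-- Bound for the left side with the tangent from the table. -/
lemma wn_bound {K : ℝ} (hK : 0 < K) (p : PairData) (hT : TanValid p.T)
    (hinv : 1 / K ≤ val p.invK) {snU bU D : ℕ} {sn β d : ℝ} (hβ0 : 0 ≤ β)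
    (hd0 : 0 ≤ d) (hsn : sn ≤ val snU) (hβ : β ≤ val bU) (hd : d ≤ val D) :
    ∃ s : ℝ, 0 ≤ s ∧ sn * β * (s / K * d + phi0 * psiHat s) ≤ val (wnOf p snU bU D) := by
  have htan := tanLookup_valid hT (tanIndex (mulU D p.cK))
  set e := tanLookup p.T (tanIndex (mulU D p.cK)) with he
  refine ⟨val e.1, val_nonneg _, ?_⟩
  have hs0 : 0 ≤ val e.1 := val_nonneg _
  have hpsi := mul_nonneg phi0_pos.le (psiHat_nonneg (val e.1))
  have hsK : val e.1 / K ≤ val (mulU e.1 p.invK) := by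
    refine le_trans ?_ (val_mulU e.1 p.invK)
    rw [div_eq_mul_one_div]
    exact mul_le_mul_of_nonneg_left hinv hs0
  unfold wnOf
  rw [← he]
  refine le_trans ?_ (val_mulU _ _)
  have h5 : sn * β ≤ val (mulU snU bU) := by
    refine le_trans ?_ (val_mulU _ _)
    exact mul_le_mul hsn hβ hβ0 (val_nonneg _)
  have h6 : val e.1 / K * d + phi0 * psiHat (val e.1) ≤ val (mulU (mulU e.1 p.invK) D + e.2) := by
    rw [val_add]
    have h7 : val e.1 / K * d ≤ val (mulU (mulU e.1 p.invK) D) := by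
      refine le_trans ?_ (val_mulU _ _)
      exact mul_le_mul hsK hd hd0 (val_nonneg _)
    linarith
  exact mul_le_mul h5 h6 (by positivity) (val_nonneg _)

/-- Soundness of the final comparison. -/
lemma pairCmp_sound {f0 f1 f2 tp tm y1 y2 Wn d2L P N : ℕ} {y c W d2 : ℝ} (hc0 : 0 ≤ c)
    (h : pairCmp f0 y1 y2 Wn d2L P N = true) (hy1 : val y1 ≤ y) (hy2 : y ≤ val y2)
    (hWb : W ≤ val Wn) (hdLpos : 0 < val d2L) (hdL : val d2L ≤ d2)
    (hPb : val P ≤ val f1 + val tp * c) (hNb : val f2 * y + val tm * c ≤ val N) :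
    y * W / d2 ≤ val f0 + y * (val f1 - val f2 * y + (val tp - val tm) * c) := by
  have hy0 : 0 ≤ y := (val_nonneg _).trans hy1
  have hWn0 : 0 ≤ val Wn := val_nonneg _
  unfold pairCmp at h
  simp only [Bool.and_eq_true, Bool.or_eq_true, Nat.ble_eq] at h
  rcases h with ⟨h5, h6⟩ | ⟨h5, h6⟩
  · refine pair_core_A hy0 (val_nonneg _) hWb hWn0 hdLpos hdL hPb hNb ?_
    have h7 : val Wn ≤ val (mulD (P - N) d2L) := val_le_val h6
    have h8 := val_mulD (P - N) d2L
    rw [val_sub h5] at h8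
    linarith
  · refine pair_core_B hy0 hy2 hWb hWn0 hdLpos hdL
      (G := val (f0 + mulD y1 P)) (H := val (mulU y2 N)) ?_ ?_ ?_
    · rw [val_add]
      have h7 := val_mulD y1 P
      have h8 : val y1 * val P ≤ y * (val f1 + val tp * c) := by
        exact mul_le_mul hy1 hPb (val_nonneg _) hy0
      linarith
    · refine le_trans ?_ (val_mulU _ _)
      have h0 : 0 ≤ val f2 * y + val tm * c :=
        add_nonneg (mul_nonneg (val_nonneg _) hy0) (mul_nonneg (val_nonneg _) hc0)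
      exact mul_le_mul hy2 hNb h0 (val_nonneg _)
    · have h7 := val_mulU y2 Wn
      have h8 : val (mulU y2 Wn) ≤ val (mulD (f0 + mulD y1 P - mulU y2 N) d2L) := val_le_val h6
      have h9 := val_mulD (f0 + mulD y1 P - mulU y2 N) d2L
      rw [val_sub h5] at h9
      linarith

end bounds

/-- Soundness of the box test. -/
theorem pairTest_sound {K : ℝ} (hK : 0 < K) (p : PairData) (hT : TanValid p.T)
    (hinv : 1 / K ≤ val p.invK) {x1 x2 y1 y2 t1 t2 : ℕ}
    (h : pairTest p x1 x2 y1 y2 t1 t2 = true) {x y t : ℝ}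
    (hx1 : val x1 ≤ x) (hx2 : x ≤ val x2) (hy1 : val y1 ≤ y) (hy2 : y ≤ val y2)
    (ht1 : val t1 ≤ t) (ht2 : t ≤ val t2) :
    PairProp K (val p.f0) (val p.f1) (val p.f2) (val p.tp) (val p.tm) x y t := by
  simp only [pairTest, Bool.and_eq_true, Nat.ble_eq, Nat.blt_eq] at h
  obtain ⟨⟨⟨h1, h2⟩, h3⟩, h4⟩ := h
  have hx0 : 0 ≤ x := (val_nonneg _).trans hx1
  have hy0 : 0 ≤ y := (val_nonneg _).trans hy1
  have ht0 : 0 ≤ t := (val_nonneg _).trans ht1
  have ht2' : val t2 ≤ 1 := by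
    rw [← val_fone]; exact val_le_val h1
  have ht1' : t ≤ 1 := ht2.trans ht2'
  have hc0 := cosT_nonneg ht0 ht1'
  have hsn0 := sinT_nonneg ht0
  have hcU := cosT_le_cU h1 ht1 ht2
  have hcL := cL_le_cosT ht0 ht1' ht2
  have hsn := sinT_le_snU h1 ht0 ht2
  have hβ0 : 0 ≤ x + y * cosT t := by positivity
  have hβU : x + y * cosT t ≤ val (x2 + mulU y2 (cUof t1)) := by
    rw [val_add]
    have : y * cosT t ≤ val (mulU y2 (cUof t1)) := by
      refine le_trans ?_ (val_mulU y2 _)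
      exact mul_le_mul hy2 hcU hc0 (val_nonneg _)
    linarith
  have hdL : val (d2Lof x1 y1 (cLof t2)) ≤ pairD2 x y t := d2L_le hx1 hy1 hcL
  have hdU : pairD2 x y t ≤ val (d2Uof x2 y2 (cUof t1)) := le_d2U hx0 hy0 hc0 hx2 hy2 hcU
  have hdLpos : 0 < val (d2Lof x1 y1 (cLof t2)) := by
    unfold val
    have : (0 : ℝ) < (d2Lof x1 y1 (cLof t2) : ℕ) := by exact_mod_cast h3
    positivity
  have hDb : Real.sqrt (pairD2 x y t) ≤ val (sqrtU (d2Uof x2 y2 (cUof t1)) (x2 + y2)) := by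
    apply Real.sqrt_le_iff.2
    refine ⟨val_nonneg _, ?_⟩
    have h5 := val_le_val h2
    have h6 := val_mulD (sqrtU (d2Uof x2 y2 (cUof t1)) (x2 + y2)) (sqrtU (d2Uof x2 y2 (cUof t1)) (x2 + y2))
    nlinarith
  obtain ⟨s, hs0, hs⟩ := wn_bound hK p hT hinv hβ0 (Real.sqrt_nonneg _) hsn hβU hDb
  refine ⟨s, hs0, ?_⟩
  have hPb : val (p.f1 + mulD p.tp (cLof t2)) ≤ val p.f1 + val p.tp * cosT t := by
    rw [val_add]
    have := val_mulD p.tp (cLof t2)
    have h5 := mul_le_mul_of_nonneg_left hcL (val_nonneg p.tp)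
    linarith
  have hNb : val p.f2 * y + val p.tm * cosT t ≤ val (mulU p.f2 y2 + mulU p.tm (cUof t1)) := by
    rw [val_add]
    have h5 : val p.f2 * y ≤ val (mulU p.f2 y2) := by
      refine le_trans ?_ (val_mulU _ _)
      exact mul_le_mul_of_nonneg_left hy2 (val_nonneg _)
    have h6 : val p.tm * cosT t ≤ val (mulU p.tm (cUof t1)) := by
      refine le_trans ?_ (val_mulU _ _)
      exact mul_le_mul_of_nonneg_left hcU (val_nonneg _)
    linarith
  have hfin := pairCmp_sound hc0 h4 hy1 hy2 hs hdLpos hdL hPb hNb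
  refine le_trans (le_of_eq ?_) hfin
  ring

/-- Soundness of the recursive checker. -/
theorem pairChk_sound {K : ℝ} (hK : 0 < K) (p : PairData) (hT : TanValid p.T)
    (hinv : 1 / K ≤ val p.invK) (fuel : ℕ) :
    ∀ {x1 x2 y1 y2 t1 t2 : ℕ}, pairChk p fuel x1 x2 y1 y2 t1 t2 = true →
    ∀ {x y t : ℝ}, val x1 ≤ x → x ≤ val x2 → val y1 ≤ y → y ≤ val y2 → val t1 ≤ t → t ≤ val t2 →
    PairProp K (val p.f0) (val p.f1) (val p.f2) (val p.tp) (val p.tm) x y t := by
  induction fuel with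
  | zero =>
    intro x1 x2 y1 y2 t1 t2 h x y t hx1 hx2 hy1 hy2 ht1 ht2
    exact pairTest_sound hK p hT hinv h hx1 hx2 hy1 hy2 ht1 ht2
  | succ f ih =>
    intro x1 x2 y1 y2 t1 t2 h x y t hx1 hx2 hy1 hy2 ht1 ht2
    rw [pairChk, Bool.or_eq_true] at h
    rcases h with h | h
    · exact pairTest_sound hK p hT hinv h hx1 hx2 hy1 hy2 ht1 ht2
    · simp only at h
      split_ifs at h with hc1 hc2
      · rw [Bool.and_eq_true] at h
        rcases le_total y (val ((y1 + y2) >>> 1)) with hm | hm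
        · exact ih h.1 hx1 hx2 hy1 hm ht1 ht2
        · exact ih h.2 hx1 hx2 hm hy2 ht1 ht2
      · rw [Bool.and_eq_true] at h
        rcases le_total t (val ((t1 + t2) >>> 1)) with hm | hm
        · exact ih h.1 hx1 hx2 hy1 hy2 ht1 hm
        · exact ih h.2 hx1 hx2 hy1 hy2 hm ht2
      · rw [Bool.and_eq_true] at h
        rcases le_total x (val ((x1 + x2) >>> 1)) with hm | hm
        · exact ih h.1 hx1 hm hy1 hy2 ht1 ht2
        · exact ih h.2 hm hx2 hy1 hy2 ht1 ht2

end Vale.Agent.P226
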