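import Vale.Agent.P226.FacetM
import Vale.Agent.P226.PairChk
import Vale.Agent.P226.Assemble

/-!
# Transfer of the cone bounds to the facets of a cell of an obtuse fixed point
-/

open MeasureTheory ProbabilityTheory Set Filter Topology
open scoped ENNReal

namespace Vale.Agent.P226

variable {d k n : ℕ}

/-- The adjoint of the coordinate map. -/
noncomputable def coordAdj (b : Fin n → Euc d) (y : Euc n) : Euc d := ∑ j, y j • b j

lemma measurable_coordAdj (b : Fin n → Euc d) : Measurable (coordAdj b) := by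
  unfold coordAdj
  refine Finset.measurable_sum _ fun j _ => ?_
  exact (by fun_prop : Measurable fun y : Euc n => y j).smul_const _

lemma inner_coordAdj (b : Fin n → Euc d) (y : Euc n) (w : Euc d) :
    inner ℝ (coordAdj b y) w = inner ℝ y (coordMap b w) := by
  unfold coordAdj coordMap
  rw [sum_inner, PiLp.inner_apply]
  refine Finset.sum_congr rfl fun j _ => ?_
  simp [mul_comm, real_inner_comm, real_inner_smul_right]

lemma coordAdj_smul (b : Fin n → Euc d) (c : ℝ) (y : Euc n) :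
    coordAdj b (c • y) = c • coordAdj b y := by
  unfold coordAdj
  rw [Finset.smul_sum]
  refine Finset.sum_congr rfl fun j _ => ?_
  simp [mul_smul]

lemma sum_inner_smul_of_mem {b : Fin n → Euc d} (hb : Orthonormal ℝ b) {w : Euc d}
    (hw : w ∈ Submodule.span ℝ (range b)) : ∑ j, (inner ℝ w (b j)) • b j = w := by
  induction hw using Submodule.span_induction with
  | mem x hx =>
    obtain ⟨a, rfl⟩ := hx
    rw [Finset.sum_eq_single a]
    · rw [real_inner_self_eq_norm_sq, hb.1 a]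
      simp
    · intro c _ hc
      rw [hb.2 hc.symm]
      simp
    · simp
  | zero => simp
  | add x y _ _ hx hy =>
    simp only [inner_add_left, add_smul]
    rw [Finset.sum_add_distrib, hx, hy]
  | smul c x _ hx =>
    simp only [real_inner_smul_left, mul_smul]
    rw [← Finset.smul_sum, hx]

lemma inner_coord_coord {b : Fin n → Euc d} (hb : Orthonormal ℝ b) (x : Euc d) {w : Euc d}
    (hw : w ∈ Submodule.span ℝ (range b)) :
    inner ℝ (coordMap b x) (coordMap b w) = inner ℝ x w := by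
  have h := sum_inner_smul_of_mem hb hw
  conv_rhs => rw [← h]
  unfold coordMap
  rw [PiLp.inner_apply, inner_sum]
  refine Finset.sum_congr rfl fun j _ => ?_
  simp [real_inner_smul_right, mul_comm]

lemma norm_coord {b : Fin n → Euc d} (hb : Orthonormal ℝ b) {w : Euc d}
    (hw : w ∈ Submodule.span ℝ (range b)) : ‖coordMap b w‖ = ‖w‖ := by
  have h := inner_coord_coord hb w hw
  rw [real_inner_self_eq_norm_sq, real_inner_self_eq_norm_sq] at h
  exact (sq_eq_sq₀ (norm_nonneg _) (norm_nonneg _)).1 h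

/-- Orthonormal family of exact size whose span contains given vectors. -/
lemma exists_orthonormal_span {E : Submodule ℝ (Euc d)} (hE : Module.finrank ℝ E ≤ n) (hn : n ≤ d) :
    ∃ b : Fin n → Euc d, Orthonormal ℝ b ∧ E ≤ Submodule.span ℝ (range b) := by
  set r := Module.finrank ℝ E with hr
  let b0 : OrthonormalBasis (Fin r) ℝ E := stdOrthonormalBasis ℝ E
  have hrd : r ≤ d := hE.trans hn
  let v : Fin d → Euc d := fun j => if h : (j : ℕ) < r then ((b0 ⟨j, h⟩ : E) : Euc d) else 0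
  let s : Set (Fin d) := {j | (j : ℕ) < r}
  have hv : Orthonormal ℝ (s.domRestrict v) := by
    have h0 : Orthonormal ℝ (fun j : Fin r => ((b0 j : E) : Euc d)) :=
      b0.orthonormal.comp_linearIsometry E.subtypeₗᵢ
    have hfun : s.domRestrict v = (fun j : Fin r => ((b0 j : E) : Euc d)) ∘
        (fun j : s => (⟨(j : Fin d), j.2⟩ : Fin r)) := by
      funext j
      have hj : ((j : Fin d) : ℕ) < r := j.2
      simp [Set.domRestrict, v, hj]
    rw [hfun]
    refine h0.comp _ ?_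
    intro a c hac
    apply Subtype.ext
    apply Fin.ext
    have := congrArg Fin.val hac
    simpa using this
  obtain ⟨B, hB⟩ := hv.exists_orthonormalBasis_extension_of_card_eq (by simp)
  refine ⟨fun j => B (Fin.castLE hn j), ?_, ?_⟩
  · exact B.orthonormal.comp _ (Fin.castLE_injective hn)
  · intro w hw
    have h1 := b0.sum_repr ⟨w, hw⟩
    have h2 : w = ∑ j, (b0.repr ⟨w, hw⟩ j) • ((b0 j : E) : Euc d) := by
      conv_lhs => rw [show w = ((⟨w, hw⟩ : E) : Euc d) from rfl, ← h1]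
      simp
    rw [h2]
    refine Submodule.sum_mem _ fun j _ => Submodule.smul_mem _ _ (Submodule.subset_span ?_)
    refine ⟨⟨j, by have := j.2; omega⟩, ?_⟩
    have hj : ((Fin.castLE hn ⟨j, by have := j.2; omega⟩ : Fin d) : ℕ) < r := by simp
    have := hB (Fin.castLE hn ⟨j, by have := j.2; omega⟩) hj
    simp only [this, v]
    simp

section cell
variable {Z : Fin k → Euc d} {i : Fin k} (hZ : ObtuseFP Z) (hne : (Finset.univ.erase i).Nonempty)

omit hZ in
lemma zeta_smul {c : ℝ} (hc : 0 < c) (x : Euc d) : zeta Z i hne (c • x) = c * zeta Z i hne x := by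
  apply le_antisymm
  · refine Finset.sup'_le hne _ fun j hj => ?_
    rw [real_inner_smul_left]
    exact mul_le_mul_of_nonneg_left (le_zeta hne x (Finset.mem_erase.1 hj).1) hc.le
  · obtain ⟨j, hj, hjz⟩ := exists_zeta_eq (Z := Z) hne x
    rw [hjz, ← real_inner_smul_left]
    exact le_zeta hne _ hj

omit hZ in
lemma regionR_smul {c : ℝ} (hc : 0 < c) (x : Euc d) (l : Fin k) :
    c • x ∈ regionR Z i hne l ↔ x ∈ regionR Z i hne l := by
  simp only [regionR, mem_ofPred_eq, zeta_smul hne hc, real_inner_smul_left]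
  constructor
  · rintro ⟨h1, h2, h3⟩
    refine ⟨h1, mul_left_cancel₀ hc.ne' h2, fun j hj hjl => ?_⟩
    exact lt_of_mul_lt_mul_left (h3 j hj hjl) hc.le
  · rintro ⟨h1, h2, h3⟩
    refine ⟨h1, by rw [h2], fun j hj hjl => ?_⟩
    exact mul_lt_mul_of_pos_left (h3 j hj hjl) hc

omit hZ in
lemma zeta_congr {x x' : Euc d} (h : ∀ j, j ≠ i → inner ℝ x (cv Z i j) = inner ℝ x' (cv Z i j)) :
    zeta Z i hne x = zeta Z i hne x' := by
  unfold zeta
  refine Finset.sup'_congr hne rfl fun j hj => ?_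
  exact h j (Finset.mem_erase.1 hj).1

omit hZ in
lemma regionR_congr {x x' : Euc d}
    (h : ∀ j, j ≠ i → inner ℝ x (cv Z i j) = inner ℝ x' (cv Z i j)) (l : Fin k) :
    x ∈ regionR Z i hne l ↔ x' ∈ regionR Z i hne l := by
  simp only [regionR, mem_ofPred_eq, zeta_congr hne h]
  constructor
  · rintro ⟨h1, h2, h3⟩
    refine ⟨h1, by rw [← h l h1]; exact h2, fun j hj hjl => ?_⟩
    rw [← h j hj]; exact h3 j hj hjl
  · rintro ⟨h1, h2, h3⟩
    refine ⟨h1, by rw [h l h1]; exact h2, fun j hj hjl => ?_⟩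
    rw [h j hj]; exact h3 j hj hjl

include hZ hne

/-- All the vectors `v_j` lie in a subspace of dimension `k - 2`, with orthonormal basis `b`. -/
lemma exists_family [NeZero k] (hk : k = n + 2) :
    ∃ b : Fin n → Euc d, Orthonormal ℝ b ∧ ∀ j, j ≠ i → cv Z i j ∈ Submodule.span ℝ (range b) := by
  obtain ⟨j0, hj0⟩ := exists_ne hne
  set S := Finset.univ.erase i with hS
  have hj0S : j0 ∈ S := Finset.mem_erase.2 ⟨hj0, Finset.mem_univ _⟩
  set S' := S.erase j0 with hS'
  let E : Submodule ℝ (Euc d) := Submodule.span ℝ ((S' : Set (Fin k)).image (cv Z i))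
  have hcardS : S.card = k - 1 := by
    rw [hS, Finset.card_erase_of_mem (Finset.mem_univ i), Finset.card_univ, Fintype.card_fin]
  have hcardS' : S'.card = n := by
    rw [hS', Finset.card_erase_of_mem hj0S, hcardS]
    omega
  have hE : Module.finrank ℝ E ≤ n := by
    have h1 : (((S'.image (cv Z i)) : Finset (Euc d)) : Set (Euc d)) =
        (S' : Set (Fin k)).image (cv Z i) := by
      simp
    have h2 := finrank_span_finset_le_card (R := ℝ) (S'.image (cv Z i))
    rw [h1] at h2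
    exact h2.trans (Finset.card_image_le.trans hcardS'.le)
  have hnd : n ≤ d := by
    have hli : LinearIndependent ℝ (fun j : S => Z (j : Fin k)) := by
      rw [Fintype.linearIndependent_iff]
      intro g hg j
      let c : Fin k → ℝ := fun j => if h : j ∈ S then g ⟨j, h⟩ else 0
      have hcg : ∀ j : S, c j = g j := by
        intro j
        simp [c, j.2]
      have h1 : ∑ j ∈ S, c j • Z j = 0 := by
        rw [← Finset.sum_coe_sort S (fun j => c j • Z j), ← hg]
        refine Finset.sum_congr rfl fun j _ => ?_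
        rw [hcg]
      have h2 := indep_of_neg hZ c h1 j j.2
      rw [hcg] at h2
      exact h2
    have h3 := hli.fintype_card_le_finrank
    simp only [Fintype.card_coe, finrank_euclideanSpace, Fintype.card_fin] at h3
    omega
  obtain ⟨b, hb, hEb⟩ := exists_orthonormal_span hE hnd
  refine ⟨b, hb, fun j hj => ?_⟩
  by_cases hjj : j = j0
  · subst hjj
    have h1 := sum_cb_smul_cv hZ hj0
    rw [← hS, ← Finset.add_sum_erase _ _ hj0S, ← hS'] at h1
    have hne0 : cb Z i j ≠ 0 := (cb_pos hZ hj).ne'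
    have h2 : cv Z i j = -(cb Z i j)⁻¹ • ∑ x ∈ S', cb Z i x • cv Z i x := by
      have h3 : cb Z i j • cv Z i j = -∑ x ∈ S', cb Z i x • cv Z i x := eq_neg_of_add_eq_zero_left h1
      have h4 : cv Z i j = (cb Z i j)⁻¹ • (cb Z i j • cv Z i j) := by
        rw [smul_smul, inv_mul_cancel₀ hne0, one_smul]
      rw [h4, h3, smul_neg, neg_smul]
    rw [h2]
    refine Submodule.smul_mem _ _ (Submodule.sum_mem _ fun x hx => Submodule.smul_mem _ _ ?_)
    exact hEb (Submodule.subset_span (Set.mem_image_of_mem _ hx))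
  · refine hEb (Submodule.subset_span (Set.mem_image_of_mem _ ?_))
    exact Finset.mem_coe.2 (Finset.mem_erase.2 ⟨hjj, Finset.mem_erase.2 ⟨hj, Finset.mem_univ _⟩⟩)

/-- **The facet bound of a cell**, in terms of the balance identity. -/
theorem facet_line [NeZero k] {m : ℕ} (hm : 1 ≤ m) (hk : k = m + 3) {l : Fin k} (hl : l ≠ i)
    {τ : ℝ} (hτ : 0 ≤ τ) {Λ A B : ℝ} (hline : LineValid (m + 1) Λ A B) (hB : 0 ≤ B) :
    A / phi0 * (cb Z i l / k) -
        B * (((Real.sqrt (1 + ‖cv Z i l‖ ^ 2))⁻¹) ^ 2 * ‖cv Z i l‖ *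
          ((τ * (Real.sqrt (1 + τ ^ 2))⁻¹) *
            ((cb Z i l / k) / (phi0 * (Real.sqrt (1 + ‖cv Z i l‖ ^ 2))⁻¹) - kap m * Wn (m + 1) τ) +
          phi0 ^ 2 * (Real.sqrt (1 + τ ^ 2))⁻¹ ^ m / kap (m + 1))) ≤
      (∫ x in regionR Z i hne l, Qf (zeta Z i hne x) ∂(stdGaussian (Euc d))) +
        Λ * (stdGaussian (Euc d)).real (regionR Z i hne l) := by
  obtain ⟨b, hb, hbv⟩ := exists_family (Z := Z) (i := i) hZ hne (n := m + 1) (by omega)
  set T := coordMap b with hT
  set Ta := coordAdj b with hTa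
  have hTm : Measurable T := measurable_coordMap b
  have hTam : Measurable Ta := measurable_coordAdj b
  have hmap : (stdGaussian (Euc d)).map T = stdGaussian (Euc (m + 1)) := map_coordMap hb
  let R : Set (Euc (m + 1)) := Ta ⁻¹' regionR Z i hne l
  have hRm : MeasurableSet R := hTam (measurableSet_regionR hne l)
  have hRc : IsConeSet R := by
    intro c hc y
    simp only [R, mem_preimage]
    rw [hTa, coordAdj_smul]
    exact regionR_smul hne hc _ l
  have hinner : ∀ (x : Euc d) j, j ≠ i → inner ℝ (Ta (T x)) (cv Z i j) = inner ℝ x (cv Z i j) := by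
    intro x j hj
    rw [hTa, inner_coordAdj, hT]
    exact inner_coord_coord hb x (hbv j hj)
  have hpre : T ⁻¹' R = regionR Z i hne l := by
    ext x
    simp only [R, mem_preimage]
    exact regionR_congr hne (fun j hj => hinner x j hj) l
  set v' := T (cv Z i l) with hv'
  have hnv : ‖v'‖ = ‖cv Z i l‖ := norm_coord hb (hbv l hl)
  obtain ⟨e, he, hev⟩ : ∃ e : Euc (m + 1), ‖e‖ = 1 ∧ ‖v'‖ • e = v' := by
    by_cases h0 : v' = 0
    · refine ⟨EuclideanSpace.single 0 1, by simp, ?_⟩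
      simp [h0]
    · have hpos : 0 < ‖v'‖ := norm_pos_iff.2 h0
      refine ⟨(‖v'‖)⁻¹ • v', ?_, ?_⟩
      · rw [norm_smul, norm_inv, norm_norm]
        field_simp
      · rw [smul_smul, mul_inv_cancel₀ hpos.ne', one_smul]
  have hin2 : ∀ x : Euc d, inner ℝ (T x) v' = inner ℝ x (cv Z i l) := fun x =>
    inner_coord_coord hb x (hbv l hl)
  have hv : ∀ y ∈ R, 0 ≤ inner ℝ y (‖v'‖ • e) := by
    intro y hy
    rw [hev, hv', hT, ← inner_coordAdj]
    have h1 : inner ℝ (coordAdj b y) (cv Z i l) = zeta Z i hne (Ta y) := hy.2.1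
    rw [h1]
    exact zeta_nonneg hZ hne _
  have hcomb := cone_combined hm hRm hRc he (norm_nonneg v') hv hτ hline hB
  rw [hev, hnv] at hcomb
  -- transfer
  have htr : ∀ g : ℝ → ℝ, Measurable g → ∫ y in R, g (inner ℝ y v') ∂(stdGaussian (Euc (m + 1))) =
      ∫ x in regionR Z i hne l, g (zeta Z i hne x) ∂(stdGaussian (Euc d)) := by
    intro g hg
    rw [← hmap, setIntegral_map hRm
      (by
        have : Measurable (fun y : Euc (m + 1) => g (inner ℝ y v')) := hg.comp (by fun_prop)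
        exact this.aestronglyMeasurable) hTm.aemeasurable, hpre]
    refine setIntegral_congr_fun (measurableSet_regionR hne l) fun x hx => ?_
    rw [hin2, hx.2.1]
  have hφ := htr phi measurable_phi
  have hQ := htr Qf measurable_Qf
  have hfp : ∫ y in R, phi (inner ℝ y v') ∂(stdGaussian (Euc (m + 1))) = cb Z i l / k := by
    rw [hφ]
    exact facetP_eq hZ hne hl
  have hmeas : (stdGaussian (Euc (m + 1))).real R = (stdGaussian (Euc d)).real (regionR Z i hne l) := by
    rw [← hmap, map_measureReal_apply hTm hRm, hpre]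
  rw [hfp, hQ, hmeas] at hcomb
  exact hcomb

end cell

/-- Cap data: a number `hU` above `h(τ)` and a number `eU` above the remainder. -/
def CapValid (m : ℕ) (hU eU : ℝ) : Prop :=
  ∃ τ : ℝ, 0 ≤ τ ∧ τ * (Real.sqrt (1 + τ ^ 2))⁻¹ ≤ hU ∧
    phi0 ^ 2 * (Real.sqrt (1 + τ ^ 2))⁻¹ ^ m / kap (m + 1) -
      (τ * (Real.sqrt (1 + τ ^ 2))⁻¹) * (kap m * Wn (m + 1) τ) ≤ eU

/-- The pair inequality in polar coordinates: here `(D c, D s)` are the components of the difference
of two vectors of a fixed point along and across the direction of the first one, and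
`x` is the norm of the first vector.  The lower bound of the mass of the pyramid over a facet
dominates a quadratic expression in the norm of the second vector. -/
def PairPolar (K : ℝ) (m : ℕ) (Λ f0 f4 f1m f2 f3 x D c s : ℝ) : Prop :=
  ∃ A B hU eU : ℝ, LineValid (m + 1) Λ A B ∧ 0 ≤ B ∧ CapValid m hU eU ∧
    f0 + f4 * x - f1m * Real.sqrt ((D * c - x) ^ 2 + (D * s) ^ 2) +
        f2 * ((D * c - x) ^ 2 + (D * s) ^ 2) + f3 * (D * c - x) ≤
      A * D * c / (K * phi0) - B * (c * s) * (hU * (D / (K * phi0)) + eU)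

section cell2
variable {Z : Fin k → Euc d} {i : Fin k} (hZ : ObtuseFP Z) (hne : (Finset.univ.erase i).Nonempty)
include hZ

/-- The pair inequality gives a lower bound for the pyramid over a facet. -/
theorem facet_polar [NeZero k] {m : ℕ} (hm : 1 ≤ m) (hk : k = m + 3) {l : Fin k} (hl : l ≠ i)
    {Λ f0 f4 f1m f2 f3 Y : ℝ} (hY : ‖Z l‖ ≤ Y)
    (hp : ∀ D c s : ℝ, 0 ≤ D → 0 ≤ c → 0 ≤ s → c ^ 2 + s ^ 2 = 1 → ‖Z i‖ ≤ D * c →
      Real.sqrt ((D * c - ‖Z i‖) ^ 2 + (D * s) ^ 2) ≤ Y →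
      PairPolar k m Λ f0 f4 f1m f2 f3 ‖Z i‖ D c s) :
    f0 + f4 * ‖Z i‖ - f1m * ‖Z l‖ + f2 * ‖Z l‖ ^ 2 + f3 * (-inner ℝ (Z l) (cu Z i)) ≤
      (∫ x in regionR Z i hne l, Qf (zeta Z i hne x) ∂(stdGaussian (Euc d))) +
        Λ * (stdGaussian (Euc d)).real (regionR Z i hne l) := by
  set x := ‖Z i‖ with hx
  set y := ‖Z l‖ with hy
  set g := -inner ℝ (Z l) (cu Z i) with hg
  set β := cb Z i l with hβ
  set b := ‖cv Z i l‖ with hb
  have hkpos : (0 : ℝ) < k := by
    have : 0 < k := Nat.pos_of_ne_zero (NeZero.ne k)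
    exact_mod_cast this
  have hxpos : 0 < x := norm_pos' hZ hl
  have hgpos : 0 < g := by
    have := inner_other_cu_neg hZ hl
    rw [hg]; linarith
  have hβeq : β = x + g := cb_eq hZ hl
  have hβpos : 0 < β := cb_pos hZ hl
  have hb0 : 0 ≤ b := norm_nonneg _
  have hzsq : (β * b) ^ 2 = y ^ 2 - g ^ 2 := by
    rw [cb_mul_norm_cv_sq hZ hl, hg]
    ring
  set r := Real.sqrt (1 + b ^ 2) with hr
  have hrpos : 0 < r := Real.sqrt_pos.2 (by positivity)
  have hr2 : r ^ 2 = 1 + b ^ 2 := Real.sq_sqrt (by positivity)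
  have hy0 : 0 ≤ y := norm_nonneg _
  have hDc : β * r * r⁻¹ = β := by field_simp
  have hDs : β * r * (b * r⁻¹) = β * b := by field_simp
  have hRsq : (β * r * r⁻¹ - x) ^ 2 + (β * r * (b * r⁻¹)) ^ 2 = y ^ 2 := by
    rw [hDc, hDs, hzsq, hβeq]
    ring
  have hR : Real.sqrt ((β * r * r⁻¹ - x) ^ 2 + (β * r * (b * r⁻¹)) ^ 2) = y := by
    rw [hRsq, Real.sqrt_sq hy0]
  have hcs : (r⁻¹) ^ 2 + (b * r⁻¹) ^ 2 = 1 := by
    field_simp
    rw [hr2]
  obtain ⟨A, B, hU, eU, hline, hB, ⟨τ, hτ, hτU, hτe⟩, hpair⟩ :=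
    hp (β * r) r⁻¹ (b * r⁻¹) (by positivity) (by positivity) (by positivity) hcs
      (by rw [hDc, hβeq]; linarith) (by rw [hR]; exact hY)
  have hfl := facet_line hZ hne hm hk hl hτ hline hB
  rw [← hb, ← hβ, ← hr] at hfl
  rw [hR, hRsq, hDc] at hpair
  have hφ := phi0_pos
  have hν : (β / k) / (phi0 * r⁻¹) = β * r / (k * phi0) := by
    field_simp
  rw [hν] at hfl
  have hνnn : 0 ≤ β * r / (k * phi0) := by positivity
  have hbr : 0 ≤ (r⁻¹) ^ 2 * b := by positivity
  have hbracket : (τ * (Real.sqrt (1 + τ ^ 2))⁻¹) * (β * r / (k * phi0) - kap m * Wn (m + 1) τ) +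
      phi0 ^ 2 * (Real.sqrt (1 + τ ^ 2))⁻¹ ^ m / kap (m + 1) ≤ hU * (β * r / (k * phi0)) + eU := by
    have h1 := mul_le_mul_of_nonneg_right hτU hνnn
    linarith
  have h5 := mul_le_mul_of_nonneg_left hbracket (mul_nonneg hB hbr)
  have h6 : A * (β * r) * r⁻¹ / (k * phi0) = A / phi0 * (β / k) := by
    field_simp
  have h7 : r⁻¹ * (b * r⁻¹) = (r⁻¹) ^ 2 * b := by ring
  rw [h6, h7] at hpair
  have hgg : β - x = g := by rw [hβeq]; ring
  rw [hgg] at hpair
  linarith

include hne in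
/-- Summing over the facets. -/
theorem cell_of_polar [NeZero k] {m : ℕ} (hm : 1 ≤ m) (hk : k = m + 3)
    {Λ f0 f4 f1m f2 f3 Y : ℝ} (hY : ∀ l, ‖Z l‖ ≤ Y)
    (hp : ∀ D c s : ℝ, 0 ≤ D → 0 ≤ c → 0 ≤ s → c ^ 2 + s ^ 2 = 1 → ‖Z i‖ ≤ D * c →
      Real.sqrt ((D * c - ‖Z i‖) ^ 2 + (D * s) ^ 2) ≤ Y →
      PairPolar k m Λ f0 f4 f1m f2 f3 ‖Z i‖ D c s) :
    ((k : ℝ) - 1) * (f0 + f4 * ‖Z i‖) - f1m * (∑ j, ‖Z j‖ - ‖Z i‖) +
        f2 * (∑ j, ‖Z j‖ ^ 2 - ‖Z i‖ ^ 2) + f3 * ‖Z i‖ ≤
      (stdGaussian (Euc d)).real (argCell Z i) + Λ := by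
  obtain ⟨j0, hj0⟩ := exists_ne hne
  have hself : regionR Z i hne i = ∅ := by
    ext x; simp [regionR]
  have hsum := Finset.sum_le_sum (s := Finset.univ.erase i)
    (fun l hl => facet_polar hZ hne hm hk (Finset.mem_erase.1 hl).1 (hY l) hp)
  have h1 : ∑ l ∈ Finset.univ.erase i, ((∫ x in regionR Z i hne l, Qf (zeta Z i hne x)
      ∂(stdGaussian (Euc d))) + Λ * (stdGaussian (Euc d)).real (regionR Z i hne l)) =
      (stdGaussian (Euc d)).real (argCell Z i) + Λ := by
    rw [Finset.sum_add_distrib, ← Finset.mul_sum]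
    have h2 : ∑ l ∈ Finset.univ.erase i, ∫ x in regionR Z i hne l, Qf (zeta Z i hne x)
        ∂(stdGaussian (Euc d)) = (stdGaussian (Euc d)).real (argCell Z i) := by
      rw [cell_mass hZ hne, ← sum_setIntegral_partition (isMeasPartition_regionR hne)
        (integrable_Qf_zeta hne), ← Finset.add_sum_erase _ _ (Finset.mem_univ i), hself]
      simp
    have h3 : ∑ l ∈ Finset.univ.erase i, (stdGaussian (Euc d)).real (regionR Z i hne l) = 1 := by
      have h4 := sum_setIntegral_partition (isMeasPartition_regionR (Z := Z) (i := i) hne)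
        (integrable_const (1 : ℝ) (μ := stdGaussian (Euc d)))
      simp only [smul_eq_mul, mul_one, integral_const, probReal_univ] at h4
      rw [← Finset.add_sum_erase _ _ (Finset.mem_univ i), hself] at h4
      simpa using h4
    rw [h2, h3, mul_one]
  rw [h1] at hsum
  refine le_trans (le_of_eq ?_) hsum
  have h5 : ∑ l ∈ Finset.univ.erase i, ‖Z l‖ = ∑ j, ‖Z j‖ - ‖Z i‖ := by
    rw [← Finset.add_sum_erase _ _ (Finset.mem_univ i)]; ring
  have h6 : ∑ l ∈ Finset.univ.erase i, ‖Z l‖ ^ 2 = ∑ j, ‖Z j‖ ^ 2 - ‖Z i‖ ^ 2 := by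
    rw [← Finset.add_sum_erase _ _ (Finset.mem_univ i)]; ring
  have h7 : ∑ l ∈ Finset.univ.erase i, -inner ℝ (Z l) (cu Z i) = ‖Z i‖ := by
    have h4 : ∑ x, inner ℝ (Z x) (cu Z i) = 0 := by
      rw [← sum_inner, sum_Z_eq_zero hZ, inner_zero_left]
    rw [← Finset.add_sum_erase _ _ (Finset.mem_univ i), inner_Z_cu hZ hj0] at h4
    rw [Finset.sum_neg_distrib]
    linarith
  have hcard : (((Finset.univ.erase i).card : ℕ) : ℝ) = k - 1 := by
    rw [Finset.card_erase_of_mem (Finset.mem_univ i), Finset.card_univ, Fintype.card_fin,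
      Nat.cast_pred (Nat.pos_of_ne_zero (NeZero.ne k))]
  have e : ∑ l ∈ Finset.univ.erase i, (f0 + f4 * ‖Z i‖ - f1m * ‖Z l‖ + f2 * ‖Z l‖ ^ 2 +
      f3 * -inner ℝ (Z l) (cu Z i)) = (((Finset.univ.erase i).card : ℕ) : ℝ) * (f0 + f4 * ‖Z i‖) -
        f1m * ∑ l ∈ Finset.univ.erase i, ‖Z l‖ + f2 * ∑ l ∈ Finset.univ.erase i, ‖Z l‖ ^ 2 +
        f3 * ∑ l ∈ Finset.univ.erase i, -inner ℝ (Z l) (cu Z i) := by
    simp only [Finset.sum_add_distrib, Finset.sum_sub_distrib, Finset.sum_const, ← Finset.mul_sum,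
      nsmul_eq_mul]
    ring
  rw [e, h5, h6, h7, hcard]

end cell2

end Vale.Agent.P226
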