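import Vale.Agent.P226.Defs

/-!
# One-dimensional Gaussian facts
-/

open MeasureTheory ProbabilityTheory Set Filter Topology

namespace Vale.Agent.P226

/-- Standard Gaussian density. -/
noncomputable def phi (t : ℝ) : ℝ := (Real.sqrt (2 * Real.pi))⁻¹ * Real.exp (-t ^ 2 / 2)

/-- The value of the density at zero. -/
noncomputable def phi0 : ℝ := (Real.sqrt (2 * Real.pi))⁻¹

/-- Gaussian tail. -/
noncomputable def Qf (t : ℝ) : ℝ := (gaussianReal 0 1).real (Ioi t)

lemma phi_eq_pdf (t : ℝ) : phi t = gaussianPDFReal 0 1 t := by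
  simp [phi, gaussianPDFReal]

lemma phi_pos (t : ℝ) : 0 < phi t := by
  unfold phi; positivity

lemma phi0_pos : 0 < phi0 := by
  unfold phi0; positivity

lemma phi_le_phi0 (t : ℝ) : phi t ≤ phi0 := by
  unfold phi phi0
  have h : Real.exp (-t ^ 2 / 2) ≤ 1 := by
    rw [Real.exp_le_one_iff]; nlinarith [sq_nonneg t]
  have h2 : 0 < (Real.sqrt (2 * Real.pi))⁻¹ := by positivity
  nlinarith

lemma phi_zero : phi 0 = phi0 := by
  simp [phi, phi0]

lemma continuous_phi : Continuous phi := by
  unfold phi; fun_prop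

lemma measurable_phi : Measurable phi := continuous_phi.measurable

lemma hasDerivAt_phi (t : ℝ) : HasDerivAt phi (-t * phi t) t := by
  unfold phi
  have h1 : HasDerivAt (fun t : ℝ => -t ^ 2 / 2) (-t) t := by
    have := ((hasDerivAt_pow 2 t).fun_neg).div_const 2
    refine this.congr_deriv ?_
    simp
    ring
  have h2 := h1.exp
  have h3 := h2.const_mul (Real.sqrt (2 * Real.pi))⁻¹
  have h4 : -t * ((Real.sqrt (2 * Real.pi))⁻¹ * Real.exp (-t ^ 2 / 2)) =
      (Real.sqrt (2 * Real.pi))⁻¹ * (Real.exp (-t ^ 2 / 2) * -t) := by ring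
  rw [h4]
  exact h3

lemma integral_g1 {f : ℝ → ℝ} : ∫ t, f t ∂(gaussianReal 0 1) = ∫ t, phi t * f t := by
  rw [integral_gaussianReal_eq_integral_smul (by norm_num)]
  simp [phi_eq_pdf]

lemma setIntegral_g1 (S : Set ℝ) (hS : MeasurableSet S) {f : ℝ → ℝ} :
    ∫ t in S, f t ∂(gaussianReal 0 1) = ∫ t in S, phi t * f t := by
  rw [← integral_indicator hS, ← integral_indicator hS, integral_g1]
  congr 1
  ext t
  by_cases h : t ∈ S <;> simp [h]

lemma integrable_g1_iff {f : ℝ → ℝ} :
    Integrable f (gaussianReal 0 1) ↔ Integrable (fun t => phi t * f t) := by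
  rw [gaussianReal_of_var_ne_zero _ (by norm_num : (1 : NNReal) ≠ 0)]
  rw [integrable_withDensity_iff_integrable_smul₀' (measurable_gaussianPDF 0 1).aemeasurable
    (by simp [gaussianPDF_lt_top])]
  apply integrable_congr
  filter_upwards with t
  simp [gaussianPDF, phi_eq_pdf, ENNReal.toReal_ofReal (gaussianPDFReal_nonneg 0 1 t)]

lemma integrable_id_g1 : Integrable (fun t : ℝ => t) (gaussianReal 0 1) := by
  have := (memLp_id_gaussianReal (μ := 0) (v := 1) 1).integrable (by norm_num)
  exact this

lemma integrable_sq_g1 : Integrable (fun t : ℝ => t ^ 2) (gaussianReal 0 1) := by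
  have := (memLp_id_gaussianReal (μ := 0) (v := 1) 2).integrable_norm_pow (by norm_num)
  simpa using this

lemma integrable_phi : Integrable phi := by
  have : phi = gaussianPDFReal 0 1 := funext phi_eq_pdf
  rw [this]
  exact integrable_gaussianPDFReal 0 1

lemma integrable_phi_mul_id : Integrable (fun t : ℝ => phi t * t) :=
  integrable_g1_iff.1 integrable_id_g1

lemma integrable_phi_mul_sq : Integrable (fun t : ℝ => phi t * t ^ 2) :=
  integrable_g1_iff.1 integrable_sq_g1

lemma tendsto_phi_atTop : Tendsto phi atTop (𝓝 0) := by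
  have h := (tendsto_rpow_abs_mul_exp_neg_mul_sq_cocompact (a := 1 / 2) (by norm_num) 0).mono_left
    atTop_le_cocompact
  have h2 := h.const_mul (Real.sqrt (2 * Real.pi))⁻¹
  simp only [mul_zero] at h2
  refine h2.congr ?_
  intro t
  unfold phi
  simp only [Real.rpow_zero, one_mul]
  congr 2
  ring

lemma tendsto_id_mul_phi_atTop : Tendsto (fun t => t * phi t) atTop (𝓝 0) := by
  have h := (tendsto_rpow_abs_mul_exp_neg_mul_sq_cocompact (a := 1 / 2) (by norm_num) 1).mono_left
    atTop_le_cocompact
  have h2 := h.const_mul (Real.sqrt (2 * Real.pi))⁻¹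
  simp only [mul_zero] at h2
  refine h2.congr' ?_
  filter_upwards [eventually_ge_atTop (0 : ℝ)] with t ht
  unfold phi
  simp only [Real.rpow_one, abs_of_nonneg ht]
  have : -(1 / 2) * t ^ 2 = -t ^ 2 / 2 := by ring
  rw [this]
  ring

lemma Qf_eq (t : ℝ) : Qf t = ∫ s in Ioi t, phi s := by
  have := setIntegral_g1 (Ioi t) measurableSet_Ioi (f := fun _ => (1 : ℝ))
  simp only [mul_one] at this
  rw [← this]
  simp [Qf]

lemma int_Ioi_id (t : ℝ) : ∫ s in Ioi t, s ∂(gaussianReal 0 1) = phi t := by
  rw [setIntegral_g1 _ measurableSet_Ioi]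
  have h := integral_Ioi_of_hasDerivAt_of_tendsto' (a := t) (f := fun s => -phi s)
    (f' := fun s => phi s * s) (m := 0) (fun x _ => ?_) integrable_phi_mul_id.integrableOn
    (by simpa using tendsto_phi_atTop.neg)
  · rw [h]; simp
  · have := (hasDerivAt_phi x).neg
    refine this.congr_deriv ?_
    ring

lemma int_Ioi_sq (t : ℝ) : ∫ s in Ioi t, s ^ 2 ∂(gaussianReal 0 1) = t * phi t + Qf t := by
  rw [setIntegral_g1 _ measurableSet_Ioi, Qf_eq]
  have h := integral_Ioi_of_hasDerivAt_of_tendsto' (a := t) (f := fun s => -(s * phi s))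
    (f' := fun s => phi s * s ^ 2 - phi s) (m := 0) (fun x _ => ?_)
    (integrable_phi_mul_sq.sub integrable_phi).integrableOn
    (by simpa using tendsto_id_mul_phi_atTop.neg)
  · rw [integral_sub integrable_phi_mul_sq.integrableOn integrable_phi.integrableOn] at h
    linarith
  · have := ((hasDerivAt_id x).mul (hasDerivAt_phi x)).neg
    refine this.congr_deriv ?_
    simp only [id]
    ring

lemma Qf_nonneg (t : ℝ) : 0 ≤ Qf t := measureReal_nonneg

lemma Qf_le_one (t : ℝ) : Qf t ≤ 1 := by
  unfold Qf; exact measureReal_le_one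

lemma Qf_antitone : Antitone Qf := by
  intro a b hab
  unfold Qf
  exact measureReal_mono (Ioi_subset_Ioi hab)

lemma hasDerivAt_Qf (t : ℝ) : HasDerivAt Qf (-phi t) t := by
  have h0 : Qf = fun u => Qf 0 - ∫ x in (0 : ℝ)..u, phi x := by
    funext u
    have := intervalIntegral.integral_Ioi_sub_Ioi' (a := 0) (b := u) (f := fun x => phi x)
      (μ := volume) integrable_phi.integrableOn integrable_phi.integrableOn
    rw [Qf_eq, Qf_eq]
    linarith
  rw [h0]
  have h1 : HasDerivAt (fun u => ∫ x in (0 : ℝ)..u, phi x) (phi t) t :=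
    intervalIntegral.integral_hasDerivAt_right (continuous_phi.intervalIntegrable _ _)
      (continuous_phi.stronglyMeasurableAtFilter _ _) continuous_phi.continuousAt
  exact h1.const_sub _

lemma continuous_Qf : Continuous Qf :=
  continuous_iff_continuousAt.2 fun t => (hasDerivAt_Qf t).continuousAt

lemma measurable_Qf : Measurable Qf := continuous_Qf.measurable

lemma Qf_zero : Qf 0 = 1 / 2 := by
  rw [Qf_eq]
  unfold phi
  rw [integral_const_mul]
  have h := integral_gaussian_Ioi (1 / 2)
  have h2 : ∀ x : ℝ, Real.exp (-x ^ 2 / 2) = Real.exp (-(1 / 2) * x ^ 2) := by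
    intro x; congr 1; ring
  simp_rw [h2]
  rw [h]
  have h3 : Real.pi / (1 / 2) = 2 * Real.pi := by ring
  rw [h3]
  have h4 : 0 < Real.sqrt (2 * Real.pi) := by positivity
  field_simp

/-- `√(π/2) * phi0 = 1/2`. -/
lemma sqrt_mul_phi0 : Real.sqrt (Real.pi / 2) * phi0 = 1 / 2 := by
  unfold phi0
  have h1 : (2 * Real.pi) = 4 * (Real.pi / 2) := by ring
  rw [h1, Real.sqrt_mul (by norm_num)]
  have h2 : Real.sqrt 4 = 2 := by
    rw [show (4 : ℝ) = 2 ^ 2 by norm_num]
    exact Real.sqrt_sq (by norm_num)
  rw [h2]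
  have h3 : 0 < Real.sqrt (Real.pi / 2) := by positivity
  field_simp

/-- Pointwise tangent bound for the Mills ratio at zero. -/
lemma Qf_lower {t : ℝ} (ht : 0 ≤ t) :
    (Real.sqrt (Real.pi / 2) - t) * phi t ≤ Qf t := by
  set c := Real.sqrt (Real.pi / 2) with hc
  have hcpos : 0 < c := by positivity
  by_cases htc : c ≤ t
  · have : (c - t) * phi t ≤ 0 :=
      mul_nonpos_of_nonpos_of_nonneg (by linarith) (phi_pos t).le
    exact this.trans (Qf_nonneg t)
  · push Not at htc
    -- the difference has nonnegative derivative on [0,c]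
    let g : ℝ → ℝ := fun s => Qf s - (c - s) * phi s
    have hg : ∀ s, HasDerivAt g ((c - s) * s * phi s) s := by
      intro s
      have h1 := (hasDerivAt_id s).const_sub c
      have h2 := h1.mul (hasDerivAt_phi s)
      have h3 := (hasDerivAt_Qf s).sub h2
      refine h3.congr_deriv ?_
      simp only [id]
      ring
    have hmono : MonotoneOn g (Icc 0 c) := by
      apply monotoneOn_of_deriv_nonneg (convex_Icc 0 c)
      · exact fun s _ => (hg s).continuousAt.continuousWithinAt
      · exact fun s _ => (hg s).differentiableAt.differentiableWithinAt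
      · intro s hs
        rw [interior_Icc] at hs
        rw [(hg s).deriv]
        have : 0 ≤ c - s := by linarith [hs.2]
        have h5 : 0 ≤ s := hs.1.le
        have := phi_pos s
        positivity
    have h0 : g 0 = 0 := by
      simp only [g, Qf_zero, phi_zero, sub_zero]
      rw [hc, sqrt_mul_phi0]
      norm_num
    have := hmono (left_mem_Icc.2 hcpos.le) (⟨ht, htc.le⟩ : t ∈ Icc 0 c) ht
    rw [h0] at this
    simp only [g] at this
    linarith

/-- `Qf` is Lipschitz with constant `phi0`. -/
lemma abs_Qf_sub_le (a b : ℝ) : |Qf a - Qf b| ≤ phi0 * |a - b| := by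
  have := Convex.norm_image_sub_le_of_norm_hasDerivWithin_le (f := Qf) (f' := fun t => -phi t)
    (s := univ) (C := phi0) (x := b) (y := a)
    (fun t _ => (hasDerivAt_Qf t).hasDerivWithinAt) (fun t _ => by
      simp only [norm_neg, Real.norm_eq_abs, abs_of_pos (phi_pos t)]
      exact phi_le_phi0 t) convex_univ (mem_univ _) (mem_univ _)
  simpa [Real.norm_eq_abs] using this

end Vale.Agent.P226
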