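import Vale.Agent.P226.Gauss1D

/-!
# One-dimensional Gaussian integration by parts, sandwich form
-/

open MeasureTheory ProbabilityTheory Set Filter Topology

namespace Vale.Agent.P226

lemma phi_sub (s h : ℝ) : phi (s - h) = phi s * Real.exp (h * s - h ^ 2 / 2) := by
  unfold phi
  rw [mul_assoc, ← Real.exp_add]
  congr 2
  ring

/-- Shift formula for the one-dimensional Gaussian. -/
lemma shift_g1 (ψ : ℝ → ℝ) (h : ℝ) :
    ∫ g, ψ (g + h) ∂(gaussianReal 0 1) =
      ∫ s, ψ s * Real.exp (h * s - h ^ 2 / 2) ∂(gaussianReal 0 1) := by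
  rw [integral_g1, integral_g1]
  have := integral_sub_right_eq_self (μ := (volume : Measure ℝ))
    (fun s => phi s * ψ (s + h)) h
  rw [← this]
  congr 1
  ext s
  simp only [sub_add_cancel]
  rw [phi_sub]
  ring

lemma integrable_exp_g1 (t : ℝ) : Integrable (fun x => Real.exp (t * x)) (gaussianReal 0 1) :=
  integrable_exp_mul_gaussianReal t

/-- derivative at zero of the Gaussian shift integral of a bounded measurable function. -/
lemma hasDerivAt_shift (ψ : ℝ → ℝ) (C : ℝ) (hψ : Measurable ψ) (hb : ∀ g, |ψ g| ≤ C) :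
    HasDerivAt (fun h => ∫ g, ψ (g + h) ∂(gaussianReal 0 1))
      (∫ s, s * ψ s ∂(gaussianReal 0 1)) 0 := by
  have hC : 0 ≤ C := (abs_nonneg _).trans (hb 0)
  have hform : (fun h => ∫ g, ψ (g + h) ∂(gaussianReal 0 1)) =
      fun h => ∫ s, ψ s * Real.exp (h * s - h ^ 2 / 2) ∂(gaussianReal 0 1) := by
    funext h; exact shift_g1 ψ h
  rw [hform]
  let F : ℝ → ℝ → ℝ := fun h s => ψ s * Real.exp (h * s - h ^ 2 / 2)
  let F' : ℝ → ℝ → ℝ := fun h s => ψ s * (Real.exp (h * s - h ^ 2 / 2) * (s - h))
  let bound : ℝ → ℝ := fun s => C * (Real.exp (2 * s) + 2 + Real.exp (-2 * s))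
  have hbound : Integrable bound (gaussianReal 0 1) :=
    (((integrable_exp_g1 2).add (integrable_const 2)).add (integrable_exp_g1 (-2))).const_mul C
  have hexp : ∀ s : ℝ, |s| + 1 ≤ Real.exp s + Real.exp (-s) := by
    intro s
    rcases abs_cases s with ⟨h1, _⟩ | ⟨h1, _⟩ <;> rw [h1]
    · nlinarith [Real.add_one_le_exp s, Real.exp_pos (-s)]
    · nlinarith [Real.add_one_le_exp (-s), Real.exp_pos s]
  have hmain := hasDerivAt_integral_of_dominated_loc_of_deriv_le (μ := gaussianReal 0 1)
    (F := F) (F' := F') (x₀ := 0) (s := Metric.ball 0 1) (bound := bound)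
    (Metric.ball_mem_nhds 0 one_pos) ?_ ?_ ?_ ?_ hbound ?_
  · have h2 := hmain.2
    have : (fun s => F' 0 s) = fun s => s * ψ s := by
      funext s; simp [F']; ring
    rw [this] at h2
    exact h2
  · filter_upwards with h
    exact (hψ.mul (by fun_prop)).aestronglyMeasurable
  · have : (F 0) = ψ := by funext s; simp [F]
    rw [this]
    refine Integrable.of_bound hψ.aestronglyMeasurable C ?_
    filter_upwards with g
    simpa using hb g
  · exact (hψ.mul (by fun_prop)).aestronglyMeasurable
  · filter_upwards with s h hh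
    have hh' : |h| < 1 := by simpa using hh
    have h1 : |h| ≤ 1 := hh'.le
    have h2 : |F' h s| ≤ C * ((Real.exp s + Real.exp (-s)) * (Real.exp s + Real.exp (-s))) := by
      simp only [F', abs_mul, abs_of_pos (Real.exp_pos _)]
      refine mul_le_mul (hb s) ?_ (by positivity) hC
      have h3 : Real.exp (h * s - h ^ 2 / 2) ≤ Real.exp s + Real.exp (-s) := by
        have h4 : h * s - h ^ 2 / 2 ≤ |s| := by
          have : h * s ≤ |h * s| := le_abs_self _
          rw [abs_mul] at this
          have : |h| * |s| ≤ |s| := by nlinarith [abs_nonneg s]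
          nlinarith [sq_nonneg h]
        calc Real.exp (h * s - h ^ 2 / 2) ≤ Real.exp |s| := Real.exp_le_exp.2 h4
          _ ≤ _ := by
            rcases abs_cases s with ⟨h1, _⟩ | ⟨h1, _⟩ <;> rw [h1]
            · linarith [Real.exp_pos (-s)]
            · linarith [Real.exp_pos s]
      have h5 : |s - h| ≤ Real.exp s + Real.exp (-s) := by
        calc |s - h| ≤ |s| + |h| := abs_sub _ _
          _ ≤ |s| + 1 := by linarith
          _ ≤ _ := hexp s
      exact mul_le_mul h3 h5 (abs_nonneg _) (by positivity)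
    have h3 : (Real.exp s + Real.exp (-s)) * (Real.exp s + Real.exp (-s)) =
        Real.exp (2 * s) + 2 + Real.exp (-2 * s) := by
      have e1 : Real.exp (2 * s) = Real.exp s * Real.exp s := by
        rw [← Real.exp_add]; congr 1; ring
      have e2 : Real.exp (-2 * s) = Real.exp (-s) * Real.exp (-s) := by
        rw [← Real.exp_add]; congr 1; ring
      have e3 : Real.exp s * Real.exp (-s) = 1 := by
        rw [← Real.exp_add]; simp
      rw [e1, e2]
      nlinarith
    simp only [bound]
    rw [← h3]
    simpa using h2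
  · filter_upwards with s h _
    have h1 : HasDerivAt (fun h : ℝ => h * s - h ^ 2 / 2) (s - h) h := by
      have a1 := (hasDerivAt_id h).mul_const s
      have a2 := (hasDerivAt_pow 2 h).div_const 2
      have a3 := a1.sub a2
      refine a3.congr_deriv ?_
      simp
    exact (h1.exp).const_mul (ψ s)

/-- Sandwich form of Gaussian integration by parts. -/
theorem ibp_sandwich (ψ ρ : ℝ → ℝ) (D : ℝ → ℝ → ℝ) (C C' : ℝ)
    (hψ : Measurable ψ) (hb : ∀ g, |ψ g| ≤ C)
    (hD : ∀ h, Measurable (D h))
    (hsand : ∀ h g, ψ (g + h) - ψ g ≤ D h g)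
    (hDb : ∀ h g, |D h g| ≤ C' * |h|)
    (hlim : ∀ g, Tendsto (fun h => D h g / h) (𝓝[≠] 0) (𝓝 (ρ g))) :
    ∫ g, g * ψ g ∂(gaussianReal 0 1) = ∫ g, ρ g ∂(gaussianReal 0 1) := by
  have hder := hasDerivAt_shift ψ C hψ hb
  have hC' : 0 ≤ C' := by
    have := (abs_nonneg _).trans (hDb 1 0)
    simpa using this
  -- the limit of the averaged quotients
  have hL : Tendsto (fun h => ∫ g, D h g / h ∂(gaussianReal 0 1)) (𝓝[≠] 0)
      (𝓝 (∫ g, ρ g ∂(gaussianReal 0 1))) := by
    refine tendsto_integral_filter_of_dominated_convergence (fun _ => C') ?_ ?_ ?_ ?_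
    · filter_upwards with h
      exact ((hD h).div_const h).aestronglyMeasurable
    · filter_upwards [self_mem_nhdsWithin] with h hh
      filter_upwards with g
      have hne : h ≠ 0 := hh
      rw [Real.norm_eq_abs, abs_div]
      rw [div_le_iff₀ (abs_pos.2 hne)]
      exact hDb h g
    · exact integrable_const _
    · filter_upwards with g using hlim g
  have hψint : ∀ h, Integrable (fun g => ψ (g + h)) (gaussianReal 0 1) := by
    intro h
    refine Integrable.of_bound ?_ C ?_
    · exact (hψ.comp (measurable_add_const h)).aestronglyMeasurable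
    · filter_upwards with g
      simpa using hb (g + h)
  have hDint : ∀ h, Integrable (D h) (gaussianReal 0 1) := by
    intro h
    refine Integrable.of_bound (hD h).aestronglyMeasurable (C' * |h|) ?_
    filter_upwards with g
    simpa using hDb h g
  -- slopes
  have hslope := hasDerivAt_iff_tendsto_slope.1 hder
  have hstep : ∀ h, (∫ g, ψ (g + h) ∂(gaussianReal 0 1)) - ∫ g, ψ (g + 0) ∂(gaussianReal 0 1) ≤
      ∫ g, D h g ∂(gaussianReal 0 1) := by
    intro h
    rw [← integral_sub (hψint h) (hψint 0)]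
    refine integral_mono ((hψint h).sub (hψint 0)) (hDint h) ?_
    intro g
    simpa using hsand h g
  apply le_antisymm
  · -- right limit
    have hne : (𝓝[>] (0 : ℝ)).NeBot := inferInstance
    have hle : 𝓝[>] (0 : ℝ) ≤ 𝓝[≠] 0 := nhdsWithin_mono _ (fun x hx => ne_of_gt hx)
    refine le_of_tendsto_of_tendsto (hslope.mono_left hle) (hL.mono_left hle) ?_
    filter_upwards [self_mem_nhdsWithin] with h hh
    have hpos : (0 : ℝ) < h := hh
    rw [slope_def_field, integral_div, sub_zero]
    exact div_le_div_of_nonneg_right (hstep h) hpos.le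
  · have hne : (𝓝[<] (0 : ℝ)).NeBot := inferInstance
    have hle : 𝓝[<] (0 : ℝ) ≤ 𝓝[≠] 0 := nhdsWithin_mono _ (fun x hx => ne_of_lt hx)
    refine le_of_tendsto_of_tendsto (hL.mono_left hle) (hslope.mono_left hle) ?_
    filter_upwards [self_mem_nhdsWithin] with h hh
    have hneg : h < 0 := hh
    rw [slope_def_field, integral_div, sub_zero]
    exact div_le_div_of_nonpos_of_le hneg.le (hstep h)

end Vale.Agent.P226
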