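import Vale.Agent.P226.KTabOK
import Vale.Agent.P226.KTabK4
import Vale.Agent.P226.KDataK4_0
import Vale.Agent.P226.KDataK4_1
import Vale.Agent.P226.KDataK4_2
import Vale.Agent.P226.KDataK4_3
import Vale.Agent.P226.KDataK4_4
import Vale.Agent.P226.KDataK4_5
import Vale.Agent.P226.KDataK4_6
import Vale.Agent.P226.KDataK4_7
import Vale.Agent.P226.KDataK4_8
import Vale.Agent.P226.KDataK4_9
import Vale.Agent.P226.KDataK4_10
import Vale.Agent.P226.KDataK4_11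
import Vale.Agent.P226.KDataK4_12
import Vale.Agent.P226.KDataK4_13
import Vale.Agent.P226.KDataK4_14
import Vale.Agent.P226.KDataK4_15
import Vale.Agent.P226.KDataK4_16
import Vale.Agent.P226.KDataK4_17
import Vale.Agent.P226.KDataK4_18

/-!
# Obtuse fixed points with 4 cells
-/

namespace Vale.Agent.P226

/-- The tables for 4 cells are valid. -/
theorem ktabK4 : TabOK 1 kTLK4 128 kTCK4 176 :=
  tabOK_of_checks (lp := kLPK4) (cp := kCPK4) (by norm_num) (by norm_num) (by decide +kernel) (by decide +kernel)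
    (by norm_num) (by norm_num) (by decide +kernel) (by decide +kernel)

/-- The strips of certificate 0. -/
theorem kxK4_0 : KXCovers 1 ((4 : ℕ) : ℝ) koK4_0 0 1713444048 :=
  (kchunk rfl ktabK4 kokK4_0 kcK4_0_0).trans
    ((kchunk rfl ktabK4 kokK4_0 kcK4_0_1).trans
    ((kchunk rfl ktabK4 kokK4_0 kcK4_0_2).trans
    ((kchunk rfl ktabK4 kokK4_0 kcK4_0_3).trans
    ((kchunk rfl ktabK4 kokK4_0 kcK4_0_4)))))

/-- The strips of certificate 1. -/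
theorem kxK4_1 : KXCovers 1 ((4 : ℕ) : ℝ) koK4_1 0 1713444048 :=
  (kchunk rfl ktabK4 kokK4_1 kcK4_1_0).trans
    ((kchunk rfl ktabK4 kokK4_1 kcK4_1_1).trans
    ((kchunk rfl ktabK4 kokK4_1 kcK4_1_2).trans
    ((kchunk rfl ktabK4 kokK4_1 kcK4_1_3).trans
    ((kchunk rfl ktabK4 kokK4_1 kcK4_1_4)))))

/-- The strips of certificate 2. -/
theorem kxK4_2 : KXCovers 1 ((4 : ℕ) : ℝ) koK4_2 0 1713444048 :=
  (kchunk rfl ktabK4 kokK4_2 kcK4_2_0).trans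
    ((kchunk rfl ktabK4 kokK4_2 kcK4_2_1).trans
    ((kchunk rfl ktabK4 kokK4_2 kcK4_2_2).trans
    ((kchunk rfl ktabK4 kokK4_2 kcK4_2_3).trans
    ((kchunk rfl ktabK4 kokK4_2 kcK4_2_4).trans
    ((kchunk rfl ktabK4 kokK4_2 kcK4_2_5).trans
    ((kchunk rfl ktabK4 kokK4_2 kcK4_2_6)))))))

/-- The strips of certificate 3. -/
theorem kxK4_3 : KXCovers 1 ((4 : ℕ) : ℝ) koK4_3 0 1713444048 :=
  (kchunk rfl ktabK4 kokK4_3 kcK4_3_0).trans
    ((kchunk rfl ktabK4 kokK4_3 kcK4_3_1).trans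
    ((kchunk rfl ktabK4 kokK4_3 kcK4_3_2).trans
    ((kchunk rfl ktabK4 kokK4_3 kcK4_3_3).trans
    ((kchunk rfl ktabK4 kokK4_3 kcK4_3_4).trans
    ((kchunk rfl ktabK4 kokK4_3 kcK4_3_5).trans
    ((kchunk rfl ktabK4 kokK4_3 kcK4_3_6).trans
    ((kchunk rfl ktabK4 kokK4_3 kcK4_3_7))))))))

/-- The strips of certificate 4. -/
theorem kxK4_4 : KXCovers 1 ((4 : ℕ) : ℝ) koK4_4 0 1713444048 :=
  (kchunk rfl ktabK4 kokK4_4 kcK4_4_0).trans
    ((kchunk rfl ktabK4 kokK4_4 kcK4_4_1).trans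
    ((kchunk rfl ktabK4 kokK4_4 kcK4_4_2).trans
    ((kchunk rfl ktabK4 kokK4_4 kcK4_4_3).trans
    ((kchunk rfl ktabK4 kokK4_4 kcK4_4_4).trans
    ((kchunk rfl ktabK4 kokK4_4 kcK4_4_5).trans
    ((kchunk rfl ktabK4 kokK4_4 kcK4_4_6).trans
    ((kchunk rfl ktabK4 kokK4_4 kcK4_4_7).trans
    ((kchunk rfl ktabK4 kokK4_4 kcK4_4_8).trans
    ((kchunk rfl ktabK4 kokK4_4 kcK4_4_9).trans
    ((kchunk rfl ktabK4 kokK4_4 kcK4_4_10).trans
    ((kchunk rfl ktabK4 kokK4_4 kcK4_4_11))))))))))))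

/-- The strips of certificate 5. -/
theorem kxK4_5 : KXCovers 1 ((4 : ℕ) : ℝ) koK4_5 0 1713444048 :=
  (kchunk rfl ktabK4 kokK4_5 kcK4_5_0).trans
    ((kchunk rfl ktabK4 kokK4_5 kcK4_5_1).trans
    ((kchunk rfl ktabK4 kokK4_5 kcK4_5_2).trans
    ((kchunk rfl ktabK4 kokK4_5 kcK4_5_3).trans
    ((kchunk rfl ktabK4 kokK4_5 kcK4_5_4).trans
    ((kchunk rfl ktabK4 kokK4_5 kcK4_5_5).trans
    ((kchunk rfl ktabK4 kokK4_5 kcK4_5_6).trans
    ((kchunk rfl ktabK4 kokK4_5 kcK4_5_7).trans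
    ((kchunk rfl ktabK4 kokK4_5 kcK4_5_8).trans
    ((kchunk rfl ktabK4 kokK4_5 kcK4_5_9).trans
    ((kchunk rfl ktabK4 kokK4_5 kcK4_5_10)))))))))))

/-- The strips of certificate 6. -/
theorem kxK4_6 : KXCovers 1 ((4 : ℕ) : ℝ) koK4_6 0 1713444048 :=
  (kchunk rfl ktabK4 kokK4_6 kcK4_6_0).trans
    ((kchunk rfl ktabK4 kokK4_6 kcK4_6_1).trans
    ((kchunk rfl ktabK4 kokK4_6 kcK4_6_2).trans
    ((kchunk rfl ktabK4 kokK4_6 kcK4_6_3).trans
    ((kchunk rfl ktabK4 kokK4_6 kcK4_6_4).trans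
    ((kchunk rfl ktabK4 kokK4_6 kcK4_6_5).trans
    ((kchunk rfl ktabK4 kokK4_6 kcK4_6_6).trans
    ((kchunk rfl ktabK4 kokK4_6 kcK4_6_7).trans
    ((kchunk rfl ktabK4 kokK4_6 kcK4_6_8).trans
    ((kchunk rfl ktabK4 kokK4_6 kcK4_6_9).trans
    ((kchunk rfl ktabK4 kokK4_6 kcK4_6_10)))))))))))

/-- The strips of certificate 7. -/
theorem kxK4_7 : KXCovers 1 ((4 : ℕ) : ℝ) koK4_7 0 1713444048 :=
  (kchunk rfl ktabK4 kokK4_7 kcK4_7_0).trans
    ((kchunk rfl ktabK4 kokK4_7 kcK4_7_1).trans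
    ((kchunk rfl ktabK4 kokK4_7 kcK4_7_2).trans
    ((kchunk rfl ktabK4 kokK4_7 kcK4_7_3).trans
    ((kchunk rfl ktabK4 kokK4_7 kcK4_7_4).trans
    ((kchunk rfl ktabK4 kokK4_7 kcK4_7_5).trans
    ((kchunk rfl ktabK4 kokK4_7 kcK4_7_6).trans
    ((kchunk rfl ktabK4 kokK4_7 kcK4_7_7).trans
    ((kchunk rfl ktabK4 kokK4_7 kcK4_7_8).trans
    ((kchunk rfl ktabK4 kokK4_7 kcK4_7_9).trans
    ((kchunk rfl ktabK4 kokK4_7 kcK4_7_10).trans
    ((kchunk rfl ktabK4 kokK4_7 kcK4_7_11))))))))))))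

/-- The strips of certificate 8. -/
theorem kxK4_8 : KXCovers 1 ((4 : ℕ) : ℝ) koK4_8 0 1713444048 :=
  (kchunk rfl ktabK4 kokK4_8 kcK4_8_0).trans
    ((kchunk rfl ktabK4 kokK4_8 kcK4_8_1).trans
    ((kchunk rfl ktabK4 kokK4_8 kcK4_8_2).trans
    ((kchunk rfl ktabK4 kokK4_8 kcK4_8_3).trans
    ((kchunk rfl ktabK4 kokK4_8 kcK4_8_4).trans
    ((kchunk rfl ktabK4 kokK4_8 kcK4_8_5).trans
    ((kchunk rfl ktabK4 kokK4_8 kcK4_8_6).trans
    ((kchunk rfl ktabK4 kokK4_8 kcK4_8_7).trans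
    ((kchunk rfl ktabK4 kokK4_8 kcK4_8_8).trans
    ((kchunk rfl ktabK4 kokK4_8 kcK4_8_9).trans
    ((kchunk rfl ktabK4 kokK4_8 kcK4_8_10).trans
    ((kchunk rfl ktabK4 kokK4_8 kcK4_8_11).trans
    ((kchunk rfl ktabK4 kokK4_8 kcK4_8_12).trans
    ((kchunk rfl ktabK4 kokK4_8 kcK4_8_13).trans
    ((kchunk rfl ktabK4 kokK4_8 kcK4_8_14)))))))))))))))

/-- The strips of certificate 9. -/
theorem kxK4_9 : KXCovers 1 ((4 : ℕ) : ℝ) koK4_9 0 1713444048 :=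
  (kchunk rfl ktabK4 kokK4_9 kcK4_9_0).trans
    ((kchunk rfl ktabK4 kokK4_9 kcK4_9_1).trans
    ((kchunk rfl ktabK4 kokK4_9 kcK4_9_2).trans
    ((kchunk rfl ktabK4 kokK4_9 kcK4_9_3).trans
    ((kchunk rfl ktabK4 kokK4_9 kcK4_9_4).trans
    ((kchunk rfl ktabK4 kokK4_9 kcK4_9_5).trans
    ((kchunk rfl ktabK4 kokK4_9 kcK4_9_6).trans
    ((kchunk rfl ktabK4 kokK4_9 kcK4_9_7).trans
    ((kchunk rfl ktabK4 kokK4_9 kcK4_9_8).trans
    ((kchunk rfl ktabK4 kokK4_9 kcK4_9_9).trans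
    ((kchunk rfl ktabK4 kokK4_9 kcK4_9_10).trans
    ((kchunk rfl ktabK4 kokK4_9 kcK4_9_11).trans
    ((kchunk rfl ktabK4 kokK4_9 kcK4_9_12).trans
    ((kchunk rfl ktabK4 kokK4_9 kcK4_9_13).trans
    ((kchunk rfl ktabK4 kokK4_9 kcK4_9_14).trans
    ((kchunk rfl ktabK4 kokK4_9 kcK4_9_15).trans
    ((kchunk rfl ktabK4 kokK4_9 kcK4_9_16).trans
    ((kchunk rfl ktabK4 kokK4_9 kcK4_9_17).trans
    ((kchunk rfl ktabK4 kokK4_9 kcK4_9_18).trans
    ((kchunk rfl ktabK4 kokK4_9 kcK4_9_19).trans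
    ((kchunk rfl ktabK4 kokK4_9 kcK4_9_20).trans
    ((kchunk rfl ktabK4 kokK4_9 kcK4_9_21).trans
    ((kchunk rfl ktabK4 kokK4_9 kcK4_9_22).trans
    ((kchunk rfl ktabK4 kokK4_9 kcK4_9_23).trans
    ((kchunk rfl ktabK4 kokK4_9 kcK4_9_24).trans
    ((kchunk rfl ktabK4 kokK4_9 kcK4_9_25).trans
    ((kchunk rfl ktabK4 kokK4_9 kcK4_9_26)))))))))))))))))))))))))))

/-- The strips of certificate 10. -/
theorem kxK4_10 : KXCovers 1 ((4 : ℕ) : ℝ) koK4_10 0 1713444048 :=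
  (kchunk rfl ktabK4 kokK4_10 kcK4_10_0).trans
    ((kchunk rfl ktabK4 kokK4_10 kcK4_10_1).trans
    ((kchunk rfl ktabK4 kokK4_10 kcK4_10_2).trans
    ((kchunk rfl ktabK4 kokK4_10 kcK4_10_3).trans
    ((kchunk rfl ktabK4 kokK4_10 kcK4_10_4).trans
    ((kchunk rfl ktabK4 kokK4_10 kcK4_10_5).trans
    ((kchunk rfl ktabK4 kokK4_10 kcK4_10_6).trans
    ((kchunk rfl ktabK4 kokK4_10 kcK4_10_7).trans
    ((kchunk rfl ktabK4 kokK4_10 kcK4_10_8).trans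
    ((kchunk rfl ktabK4 kokK4_10 kcK4_10_9).trans
    ((kchunk rfl ktabK4 kokK4_10 kcK4_10_10).trans
    ((kchunk rfl ktabK4 kokK4_10 kcK4_10_11).trans
    ((kchunk rfl ktabK4 kokK4_10 kcK4_10_12).trans
    ((kchunk rfl ktabK4 kokK4_10 kcK4_10_13).trans
    ((kchunk rfl ktabK4 kokK4_10 kcK4_10_14).trans
    ((kchunk rfl ktabK4 kokK4_10 kcK4_10_15).trans
    ((kchunk rfl ktabK4 kokK4_10 kcK4_10_16)))))))))))))))))

/-- The strips of certificate 11. -/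
theorem kxK4_11 : KXCovers 1 ((4 : ℕ) : ℝ) koK4_11 0 1713444048 :=
  (kchunk rfl ktabK4 kokK4_11 kcK4_11_0).trans
    ((kchunk rfl ktabK4 kokK4_11 kcK4_11_1).trans
    ((kchunk rfl ktabK4 kokK4_11 kcK4_11_2).trans
    ((kchunk rfl ktabK4 kokK4_11 kcK4_11_3).trans
    ((kchunk rfl ktabK4 kokK4_11 kcK4_11_4).trans
    ((kchunk rfl ktabK4 kokK4_11 kcK4_11_5).trans
    ((kchunk rfl ktabK4 kokK4_11 kcK4_11_6).trans
    ((kchunk rfl ktabK4 kokK4_11 kcK4_11_7).trans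
    ((kchunk rfl ktabK4 kokK4_11 kcK4_11_8)))))))))

/-- The strips of certificate 12. -/
theorem kxK4_12 : KXCovers 1 ((4 : ℕ) : ℝ) koK4_12 0 1713444048 :=
  (kchunk rfl ktabK4 kokK4_12 kcK4_12_0).trans
    ((kchunk rfl ktabK4 kokK4_12 kcK4_12_1).trans
    ((kchunk rfl ktabK4 kokK4_12 kcK4_12_2).trans
    ((kchunk rfl ktabK4 kokK4_12 kcK4_12_3).trans
    ((kchunk rfl ktabK4 kokK4_12 kcK4_12_4).trans
    ((kchunk rfl ktabK4 kokK4_12 kcK4_12_5).trans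
    ((kchunk rfl ktabK4 kokK4_12 kcK4_12_6).trans
    ((kchunk rfl ktabK4 kokK4_12 kcK4_12_7))))))))

/-- The strips of certificate 13. -/
theorem kxK4_13 : KXCovers 1 ((4 : ℕ) : ℝ) koK4_13 0 1713444048 :=
  (kchunk rfl ktabK4 kokK4_13 kcK4_13_0).trans
    ((kchunk rfl ktabK4 kokK4_13 kcK4_13_1).trans
    ((kchunk rfl ktabK4 kokK4_13 kcK4_13_2).trans
    ((kchunk rfl ktabK4 kokK4_13 kcK4_13_3).trans
    ((kchunk rfl ktabK4 kokK4_13 kcK4_13_4).trans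
    ((kchunk rfl ktabK4 kokK4_13 kcK4_13_5).trans
    ((kchunk rfl ktabK4 kokK4_13 kcK4_13_6)))))))

/-- The strips of certificate 14. -/
theorem kxK4_14 : KXCovers 1 ((4 : ℕ) : ℝ) koK4_14 0 1713444048 :=
  (kchunk rfl ktabK4 kokK4_14 kcK4_14_0).trans
    ((kchunk rfl ktabK4 kokK4_14 kcK4_14_1).trans
    ((kchunk rfl ktabK4 kokK4_14 kcK4_14_2).trans
    ((kchunk rfl ktabK4 kokK4_14 kcK4_14_3))))

/-- The strips of certificate 15. -/
theorem kxK4_15 : KXCovers 1 ((4 : ℕ) : ℝ) koK4_15 0 1713444048 :=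
  (kchunk rfl ktabK4 kokK4_15 kcK4_15_0).trans
    ((kchunk rfl ktabK4 kokK4_15 kcK4_15_1).trans
    ((kchunk rfl ktabK4 kokK4_15 kcK4_15_2).trans
    ((kchunk rfl ktabK4 kokK4_15 kcK4_15_3))))

/-- The strips of certificate 16. -/
theorem kxK4_16 : KXCovers 1 ((4 : ℕ) : ℝ) koK4_16 0 1713444048 :=
  (kchunk rfl ktabK4 kokK4_16 kcK4_16_0)

/-- The strips of certificate 17. -/
theorem kxK4_17 : KXCovers 1 ((4 : ℕ) : ℝ) koK4_17 0 1713444048 :=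
  (kchunk rfl ktabK4 kokK4_17 kcK4_17_0)

/-- The strips of certificate 18. -/
theorem kxK4_18 : KXCovers 1 ((4 : ℕ) : ℝ) koK4_18 0 1713444048 :=
  (kchunk rfl ktabK4 kokK4_18 kcK4_18_0)

/-- The bound for obtuse fixed points with 4 cells. -/
theorem kobtuse_K4 {d : ℕ} {Z : Fin 4 → Euc d} (hZ : ObtuseFP Z) :
    ∑ i, ‖Z i‖ ^ 2 ≤ 9 / (8 * Real.pi) :=
  obtuse_of_covers (K := 4) (S0 := 3854733148) (Top := 5459371948) (s := 2896912384) (ψ := 640614891) (by norm_num)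
    (by decide +kernel) (by decide +kernel) (by decide +kernel)
    (KCovers.step (by norm_num) rfl kokK4_0 kxK4_0 (by decide +kernel)
    (KCovers.step (by norm_num) rfl kokK4_1 kxK4_1 (by decide +kernel)
    (KCovers.step (by norm_num) rfl kokK4_2 kxK4_2 (by decide +kernel)
    (KCovers.step (by norm_num) rfl kokK4_3 kxK4_3 (by decide +kernel)
    (KCovers.step (by norm_num) rfl kokK4_4 kxK4_4 (by decide +kernel)
    (KCovers.step (by norm_num) rfl kokK4_5 kxK4_5 (by decide +kernel)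
    (KCovers.step (by norm_num) rfl kokK4_6 kxK4_6 (by decide +kernel)
    (KCovers.step (by norm_num) rfl kokK4_7 kxK4_7 (by decide +kernel)
    (KCovers.step (by norm_num) rfl kokK4_8 kxK4_8 (by decide +kernel)
    (KCovers.step (by norm_num) rfl kokK4_9 kxK4_9 (by decide +kernel)
    (KCovers.step (by norm_num) rfl kokK4_10 kxK4_10 (by decide +kernel)
    (KCovers.step (by norm_num) rfl kokK4_11 kxK4_11 (by decide +kernel)
    (KCovers.step (by norm_num) rfl kokK4_12 kxK4_12 (by decide +kernel)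
    (KCovers.step (by norm_num) rfl kokK4_13 kxK4_13 (by decide +kernel)
    (KCovers.step (by norm_num) rfl kokK4_14 kxK4_14 (by decide +kernel)
    (KCovers.step (by norm_num) rfl kokK4_15 kxK4_15 (by decide +kernel)
    (KCovers.step (by norm_num) rfl kokK4_16 kxK4_16 (by decide +kernel)
    (KCovers.step (by norm_num) rfl kokK4_17 kxK4_17 (by decide +kernel)
    (KCovers.step (by norm_num) rfl kokK4_18 kxK4_18 (by decide +kernel)
    (KCovers.done (by decide +kernel))))))))))))))))))))) hZ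

end Vale.Agent.P226
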