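import Vale.Agent.P226.KTabOK
import Vale.Agent.P226.KTabK5
import Vale.Agent.P226.KDataK5_0
import Vale.Agent.P226.KDataK5_1
import Vale.Agent.P226.KDataK5_2
import Vale.Agent.P226.KDataK5_3
import Vale.Agent.P226.KDataK5_4
import Vale.Agent.P226.KDataK5_5
import Vale.Agent.P226.KDataK5_6
import Vale.Agent.P226.KDataK5_7
import Vale.Agent.P226.KDataK5_8
import Vale.Agent.P226.KDataK5_9

/-!
# Obtuse fixed points with 5 cells
-/

namespace Vale.Agent.P226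

/-- The tables for 5 cells are valid. -/
theorem ktabK5 : TabOK 2 kTLK5 128 kTCK5 176 :=
  tabOK_of_checks (lp := kLPK5) (cp := kCPK5) (by norm_num) (by norm_num) (by decide +kernel) (by decide +kernel)
    (by norm_num) (by norm_num) (by decide +kernel) (by decide +kernel)

/-- The strips of certificate 0. -/
theorem kxK5_0 : KXCovers 2 ((5 : ℕ) : ℝ) koK5_0 0 1713444048 :=
  (kchunk rfl ktabK5 kokK5_0 kcK5_0_0).trans
    ((kchunk rfl ktabK5 kokK5_0 kcK5_0_1).trans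
    ((kchunk rfl ktabK5 kokK5_0 kcK5_0_2).trans
    ((kchunk rfl ktabK5 kokK5_0 kcK5_0_3).trans
    ((kchunk rfl ktabK5 kokK5_0 kcK5_0_4)))))

/-- The strips of certificate 1. -/
theorem kxK5_1 : KXCovers 2 ((5 : ℕ) : ℝ) koK5_1 0 1713444048 :=
  (kchunk rfl ktabK5 kokK5_1 kcK5_1_0).trans
    ((kchunk rfl ktabK5 kokK5_1 kcK5_1_1).trans
    ((kchunk rfl ktabK5 kokK5_1 kcK5_1_2).trans
    ((kchunk rfl ktabK5 kokK5_1 kcK5_1_3).trans
    ((kchunk rfl ktabK5 kokK5_1 kcK5_1_4).trans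
    ((kchunk rfl ktabK5 kokK5_1 kcK5_1_5).trans
    ((kchunk rfl ktabK5 kokK5_1 kcK5_1_6).trans
    ((kchunk rfl ktabK5 kokK5_1 kcK5_1_7))))))))

/-- The strips of certificate 2. -/
theorem kxK5_2 : KXCovers 2 ((5 : ℕ) : ℝ) koK5_2 0 1713444048 :=
  (kchunk rfl ktabK5 kokK5_2 kcK5_2_0).trans
    ((kchunk rfl ktabK5 kokK5_2 kcK5_2_1).trans
    ((kchunk rfl ktabK5 kokK5_2 kcK5_2_2).trans
    ((kchunk rfl ktabK5 kokK5_2 kcK5_2_3).trans
    ((kchunk rfl ktabK5 kokK5_2 kcK5_2_4).trans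
    ((kchunk rfl ktabK5 kokK5_2 kcK5_2_5).trans
    ((kchunk rfl ktabK5 kokK5_2 kcK5_2_6)))))))

/-- The strips of certificate 3. -/
theorem kxK5_3 : KXCovers 2 ((5 : ℕ) : ℝ) koK5_3 0 1713444048 :=
  (kchunk rfl ktabK5 kokK5_3 kcK5_3_0).trans
    ((kchunk rfl ktabK5 kokK5_3 kcK5_3_1).trans
    ((kchunk rfl ktabK5 kokK5_3 kcK5_3_2).trans
    ((kchunk rfl ktabK5 kokK5_3 kcK5_3_3).trans
    ((kchunk rfl ktabK5 kokK5_3 kcK5_3_4).trans
    ((kchunk rfl ktabK5 kokK5_3 kcK5_3_5))))))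

/-- The strips of certificate 4. -/
theorem kxK5_4 : KXCovers 2 ((5 : ℕ) : ℝ) koK5_4 0 1713444048 :=
  (kchunk rfl ktabK5 kokK5_4 kcK5_4_0).trans
    ((kchunk rfl ktabK5 kokK5_4 kcK5_4_1).trans
    ((kchunk rfl ktabK5 kokK5_4 kcK5_4_2).trans
    ((kchunk rfl ktabK5 kokK5_4 kcK5_4_3).trans
    ((kchunk rfl ktabK5 kokK5_4 kcK5_4_4)))))

/-- The strips of certificate 5. -/
theorem kxK5_5 : KXCovers 2 ((5 : ℕ) : ℝ) koK5_5 0 1713444048 :=
  (kchunk rfl ktabK5 kokK5_5 kcK5_5_0).trans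
    ((kchunk rfl ktabK5 kokK5_5 kcK5_5_1).trans
    ((kchunk rfl ktabK5 kokK5_5 kcK5_5_2).trans
    ((kchunk rfl ktabK5 kokK5_5 kcK5_5_3))))

/-- The strips of certificate 6. -/
theorem kxK5_6 : KXCovers 2 ((5 : ℕ) : ℝ) koK5_6 0 1713444048 :=
  (kchunk rfl ktabK5 kokK5_6 kcK5_6_0).trans
    ((kchunk rfl ktabK5 kokK5_6 kcK5_6_1))

/-- The strips of certificate 7. -/
theorem kxK5_7 : KXCovers 2 ((5 : ℕ) : ℝ) koK5_7 0 1713444048 :=
  (kchunk rfl ktabK5 kokK5_7 kcK5_7_0).trans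
    ((kchunk rfl ktabK5 kokK5_7 kcK5_7_1))

/-- The strips of certificate 8. -/
theorem kxK5_8 : KXCovers 2 ((5 : ℕ) : ℝ) koK5_8 0 1713444048 :=
  (kchunk rfl ktabK5 kokK5_8 kcK5_8_0)

/-- The strips of certificate 9. -/
theorem kxK5_9 : KXCovers 2 ((5 : ℕ) : ℝ) koK5_9 0 1713444048 :=
  (kchunk rfl ktabK5 kokK5_9 kcK5_9_0)

/-- The bound for obtuse fixed points with 5 cells. -/
theorem kobtuse_K5 {d : ℕ} {Z : Fin 5 → Euc d} (hZ : ObtuseFP Z) :
    ∑ i, ‖Z i‖ ^ 2 ≤ 9 / (8 * Real.pi) :=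
  obtuse_of_covers (K := 5) (S0 := 3854733148) (Top := 6012151459) (s := 3614736384) (ψ := 479483015) (by norm_num)
    (by decide +kernel) (by decide +kernel) (by decide +kernel)
    (KCovers.step (by norm_num) rfl kokK5_0 kxK5_0 (by decide +kernel)
    (KCovers.step (by norm_num) rfl kokK5_1 kxK5_1 (by decide +kernel)
    (KCovers.step (by norm_num) rfl kokK5_2 kxK5_2 (by decide +kernel)
    (KCovers.step (by norm_num) rfl kokK5_3 kxK5_3 (by decide +kernel)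
    (KCovers.step (by norm_num) rfl kokK5_4 kxK5_4 (by decide +kernel)
    (KCovers.step (by norm_num) rfl kokK5_5 kxK5_5 (by decide +kernel)
    (KCovers.step (by norm_num) rfl kokK5_6 kxK5_6 (by decide +kernel)
    (KCovers.step (by norm_num) rfl kokK5_7 kxK5_7 (by decide +kernel)
    (KCovers.step (by norm_num) rfl kokK5_8 kxK5_8 (by decide +kernel)
    (KCovers.step (by norm_num) rfl kokK5_9 kxK5_9 (by decide +kernel)
    (KCovers.done (by decide +kernel)))))))))))) hZ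

end Vale.Agent.P226
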