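import Vale.Agent.P226.KTabOK
import Vale.Agent.P226.KTabK6
import Vale.Agent.P226.KDataK6_0
import Vale.Agent.P226.KDataK6_1
import Vale.Agent.P226.KDataK6_2
import Vale.Agent.P226.KDataK6_3
import Vale.Agent.P226.KDataK6_4
import Vale.Agent.P226.KDataK6_5
import Vale.Agent.P226.KDataK6_6
import Vale.Agent.P226.KDataK6_7
import Vale.Agent.P226.KDataK6_8
import Vale.Agent.P226.KDataK6_9
import Vale.Agent.P226.KDataK6_10
import Vale.Agent.P226.KDataK6_11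

/-!
# Obtuse fixed points with 6 cells
-/

namespace Vale.Agent.P226

/-- The tables for 6 cells are valid. -/
theorem ktabK6 : TabOK 3 kTLK6 128 kTCK6 176 :=
  tabOK_of_checks (lp := kLPK6) (cp := kCPK6) (by norm_num) (by norm_num) (by decide +kernel) (by decide +kernel)
    (by norm_num) (by norm_num) (by decide +kernel) (by decide +kernel)

/-- The strips of certificate 0. -/
theorem kxK6_0 : KXCovers 3 ((6 : ℕ) : ℝ) koK6_0 0 1713444048 :=
  (kchunk rfl ktabK6 kokK6_0 kcK6_0_0).trans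
    ((kchunk rfl ktabK6 kokK6_0 kcK6_0_1).trans
    ((kchunk rfl ktabK6 kokK6_0 kcK6_0_2).trans
    ((kchunk rfl ktabK6 kokK6_0 kcK6_0_3).trans
    ((kchunk rfl ktabK6 kokK6_0 kcK6_0_4).trans
    ((kchunk rfl ktabK6 kokK6_0 kcK6_0_5))))))

/-- The strips of certificate 1. -/
theorem kxK6_1 : KXCovers 3 ((6 : ℕ) : ℝ) koK6_1 0 1713444048 :=
  (kchunk rfl ktabK6 kokK6_1 kcK6_1_0).trans
    ((kchunk rfl ktabK6 kokK6_1 kcK6_1_1).trans
    ((kchunk rfl ktabK6 kokK6_1 kcK6_1_2).trans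
    ((kchunk rfl ktabK6 kokK6_1 kcK6_1_3).trans
    ((kchunk rfl ktabK6 kokK6_1 kcK6_1_4).trans
    ((kchunk rfl ktabK6 kokK6_1 kcK6_1_5).trans
    ((kchunk rfl ktabK6 kokK6_1 kcK6_1_6)))))))

/-- The strips of certificate 2. -/
theorem kxK6_2 : KXCovers 3 ((6 : ℕ) : ℝ) koK6_2 0 1713444048 :=
  (kchunk rfl ktabK6 kokK6_2 kcK6_2_0).trans
    ((kchunk rfl ktabK6 kokK6_2 kcK6_2_1).trans
    ((kchunk rfl ktabK6 kokK6_2 kcK6_2_2).trans
    ((kchunk rfl ktabK6 kokK6_2 kcK6_2_3).trans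
    ((kchunk rfl ktabK6 kokK6_2 kcK6_2_4).trans
    ((kchunk rfl ktabK6 kokK6_2 kcK6_2_5))))))

/-- The strips of certificate 3. -/
theorem kxK6_3 : KXCovers 3 ((6 : ℕ) : ℝ) koK6_3 0 1713444048 :=
  (kchunk rfl ktabK6 kokK6_3 kcK6_3_0).trans
    ((kchunk rfl ktabK6 kokK6_3 kcK6_3_1).trans
    ((kchunk rfl ktabK6 kokK6_3 kcK6_3_2).trans
    ((kchunk rfl ktabK6 kokK6_3 kcK6_3_3).trans
    ((kchunk rfl ktabK6 kokK6_3 kcK6_3_4)))))

/-- The strips of certificate 4. -/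
theorem kxK6_4 : KXCovers 3 ((6 : ℕ) : ℝ) koK6_4 0 1713444048 :=
  (kchunk rfl ktabK6 kokK6_4 kcK6_4_0).trans
    ((kchunk rfl ktabK6 kokK6_4 kcK6_4_1).trans
    ((kchunk rfl ktabK6 kokK6_4 kcK6_4_2).trans
    ((kchunk rfl ktabK6 kokK6_4 kcK6_4_3))))

/-- The strips of certificate 5. -/
theorem kxK6_5 : KXCovers 3 ((6 : ℕ) : ℝ) koK6_5 0 1713444048 :=
  (kchunk rfl ktabK6 kokK6_5 kcK6_5_0).trans
    ((kchunk rfl ktabK6 kokK6_5 kcK6_5_1).trans
    ((kchunk rfl ktabK6 kokK6_5 kcK6_5_2).trans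
    ((kchunk rfl ktabK6 kokK6_5 kcK6_5_3))))

/-- The strips of certificate 6. -/
theorem kxK6_6 : KXCovers 3 ((6 : ℕ) : ℝ) koK6_6 0 1713444048 :=
  (kchunk rfl ktabK6 kokK6_6 kcK6_6_0).trans
    ((kchunk rfl ktabK6 kokK6_6 kcK6_6_1).trans
    ((kchunk rfl ktabK6 kokK6_6 kcK6_6_2)))

/-- The strips of certificate 7. -/
theorem kxK6_7 : KXCovers 3 ((6 : ℕ) : ℝ) koK6_7 0 1713444048 :=
  (kchunk rfl ktabK6 kokK6_7 kcK6_7_0).trans
    ((kchunk rfl ktabK6 kokK6_7 kcK6_7_1))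

/-- The strips of certificate 8. -/
theorem kxK6_8 : KXCovers 3 ((6 : ℕ) : ℝ) koK6_8 0 1713444048 :=
  (kchunk rfl ktabK6 kokK6_8 kcK6_8_0).trans
    ((kchunk rfl ktabK6 kokK6_8 kcK6_8_1))

/-- The strips of certificate 9. -/
theorem kxK6_9 : KXCovers 3 ((6 : ℕ) : ℝ) koK6_9 0 1713444048 :=
  (kchunk rfl ktabK6 kokK6_9 kcK6_9_0)

/-- The strips of certificate 10. -/
theorem kxK6_10 : KXCovers 3 ((6 : ℕ) : ℝ) koK6_10 0 1713444048 :=
  (kchunk rfl ktabK6 kokK6_10 kcK6_10_0)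

/-- The strips of certificate 11. -/
theorem kxK6_11 : KXCovers 3 ((6 : ℕ) : ℝ) koK6_11 0 1713444048 :=
  (kchunk rfl ktabK6 kokK6_11 kcK6_11_0)

/-- The bound for obtuse fixed points with 6 cells. -/
theorem kobtuse_K6 {d : ℕ} {Z : Fin 6 → Euc d} (hZ : ObtuseFP Z) :
    ∑ i, ‖Z i‖ ^ 2 ≤ 9 / (8 * Real.pi) :=
  obtuse_of_covers (K := 6) (S0 := 3854733148) (Top := 6438627712) (s := 4155043840) (ψ := 380597312) (by norm_num)
    (by decide +kernel) (by decide +kernel) (by decide +kernel)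
    (KCovers.step (by norm_num) rfl kokK6_0 kxK6_0 (by decide +kernel)
    (KCovers.step (by norm_num) rfl kokK6_1 kxK6_1 (by decide +kernel)
    (KCovers.step (by norm_num) rfl kokK6_2 kxK6_2 (by decide +kernel)
    (KCovers.step (by norm_num) rfl kokK6_3 kxK6_3 (by decide +kernel)
    (KCovers.step (by norm_num) rfl kokK6_4 kxK6_4 (by decide +kernel)
    (KCovers.step (by norm_num) rfl kokK6_5 kxK6_5 (by decide +kernel)
    (KCovers.step (by norm_num) rfl kokK6_6 kxK6_6 (by decide +kernel)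
    (KCovers.step (by norm_num) rfl kokK6_7 kxK6_7 (by decide +kernel)
    (KCovers.step (by norm_num) rfl kokK6_8 kxK6_8 (by decide +kernel)
    (KCovers.step (by norm_num) rfl kokK6_9 kxK6_9 (by decide +kernel)
    (KCovers.step (by norm_num) rfl kokK6_10 kxK6_10 (by decide +kernel)
    (KCovers.step (by norm_num) rfl kokK6_11 kxK6_11 (by decide +kernel)
    (KCovers.done (by decide +kernel)))))))))))))) hZ

end Vale.Agent.P226
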