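import Vale.Agent.P226.KTabOK
import Vale.Agent.P226.KTabK7
import Vale.Agent.P226.KDataK7_0
import Vale.Agent.P226.KDataK7_1
import Vale.Agent.P226.KDataK7_2
import Vale.Agent.P226.KDataK7_3
import Vale.Agent.P226.KDataK7_4
import Vale.Agent.P226.KDataK7_5
import Vale.Agent.P226.KDataK7_6
import Vale.Agent.P226.KDataK7_7
import Vale.Agent.P226.KDataK7_8
import Vale.Agent.P226.KDataK7_9
import Vale.Agent.P226.KDataK7_10
import Vale.Agent.P226.KDataK7_11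

/-!
# Obtuse fixed points with 7 cells
-/

namespace Vale.Agent.P226

/-- The tables for 7 cells are valid. -/
theorem ktabK7 : TabOK 4 kTLK7 128 kTCK7 176 :=
  tabOK_of_checks (lp := kLPK7) (cp := kCPK7) (by norm_num) (by norm_num) (by decide +kernel) (by decide +kernel)
    (by norm_num) (by norm_num) (by decide +kernel) (by decide +kernel)

/-- The strips of certificate 0. -/
theorem kxK7_0 : KXCovers 4 ((7 : ℕ) : ℝ) koK7_0 0 1713444048 :=
  (kchunk rfl ktabK7 kokK7_0 kcK7_0_0).trans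
    ((kchunk rfl ktabK7 kokK7_0 kcK7_0_1).trans
    ((kchunk rfl ktabK7 kokK7_0 kcK7_0_2).trans
    ((kchunk rfl ktabK7 kokK7_0 kcK7_0_3).trans
    ((kchunk rfl ktabK7 kokK7_0 kcK7_0_4).trans
    ((kchunk rfl ktabK7 kokK7_0 kcK7_0_5))))))

/-- The strips of certificate 1. -/
theorem kxK7_1 : KXCovers 4 ((7 : ℕ) : ℝ) koK7_1 0 1713444048 :=
  (kchunk rfl ktabK7 kokK7_1 kcK7_1_0).trans
    ((kchunk rfl ktabK7 kokK7_1 kcK7_1_1).trans
    ((kchunk rfl ktabK7 kokK7_1 kcK7_1_2).trans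
    ((kchunk rfl ktabK7 kokK7_1 kcK7_1_3).trans
    ((kchunk rfl ktabK7 kokK7_1 kcK7_1_4).trans
    ((kchunk rfl ktabK7 kokK7_1 kcK7_1_5))))))

/-- The strips of certificate 2. -/
theorem kxK7_2 : KXCovers 4 ((7 : ℕ) : ℝ) koK7_2 0 1713444048 :=
  (kchunk rfl ktabK7 kokK7_2 kcK7_2_0).trans
    ((kchunk rfl ktabK7 kokK7_2 kcK7_2_1).trans
    ((kchunk rfl ktabK7 kokK7_2 kcK7_2_2).trans
    ((kchunk rfl ktabK7 kokK7_2 kcK7_2_3).trans
    ((kchunk rfl ktabK7 kokK7_2 kcK7_2_4)))))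

/-- The strips of certificate 3. -/
theorem kxK7_3 : KXCovers 4 ((7 : ℕ) : ℝ) koK7_3 0 1713444048 :=
  (kchunk rfl ktabK7 kokK7_3 kcK7_3_0).trans
    ((kchunk rfl ktabK7 kokK7_3 kcK7_3_1).trans
    ((kchunk rfl ktabK7 kokK7_3 kcK7_3_2).trans
    ((kchunk rfl ktabK7 kokK7_3 kcK7_3_3))))

/-- The strips of certificate 4. -/
theorem kxK7_4 : KXCovers 4 ((7 : ℕ) : ℝ) koK7_4 0 1713444048 :=
  (kchunk rfl ktabK7 kokK7_4 kcK7_4_0).trans
    ((kchunk rfl ktabK7 kokK7_4 kcK7_4_1).trans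
    ((kchunk rfl ktabK7 kokK7_4 kcK7_4_2).trans
    ((kchunk rfl ktabK7 kokK7_4 kcK7_4_3))))

/-- The strips of certificate 5. -/
theorem kxK7_5 : KXCovers 4 ((7 : ℕ) : ℝ) koK7_5 0 1713444048 :=
  (kchunk rfl ktabK7 kokK7_5 kcK7_5_0).trans
    ((kchunk rfl ktabK7 kokK7_5 kcK7_5_1).trans
    ((kchunk rfl ktabK7 kokK7_5 kcK7_5_2)))

/-- The strips of certificate 6. -/
theorem kxK7_6 : KXCovers 4 ((7 : ℕ) : ℝ) koK7_6 0 1713444048 :=
  (kchunk rfl ktabK7 kokK7_6 kcK7_6_0).trans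
    ((kchunk rfl ktabK7 kokK7_6 kcK7_6_1).trans
    ((kchunk rfl ktabK7 kokK7_6 kcK7_6_2)))

/-- The strips of certificate 7. -/
theorem kxK7_7 : KXCovers 4 ((7 : ℕ) : ℝ) koK7_7 0 1713444048 :=
  (kchunk rfl ktabK7 kokK7_7 kcK7_7_0).trans
    ((kchunk rfl ktabK7 kokK7_7 kcK7_7_1))

/-- The strips of certificate 8. -/
theorem kxK7_8 : KXCovers 4 ((7 : ℕ) : ℝ) koK7_8 0 1713444048 :=
  (kchunk rfl ktabK7 kokK7_8 kcK7_8_0)

/-- The strips of certificate 9. -/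
theorem kxK7_9 : KXCovers 4 ((7 : ℕ) : ℝ) koK7_9 0 1713444048 :=
  (kchunk rfl ktabK7 kokK7_9 kcK7_9_0)

/-- The strips of certificate 10. -/
theorem kxK7_10 : KXCovers 4 ((7 : ℕ) : ℝ) koK7_10 0 1713444048 :=
  (kchunk rfl ktabK7 kokK7_10 kcK7_10_0)

/-- The strips of certificate 11. -/
theorem kxK7_11 : KXCovers 4 ((7 : ℕ) : ℝ) koK7_11 0 1713444048 :=
  (kchunk rfl ktabK7 kokK7_11 kcK7_11_0)

/-- The bound for obtuse fixed points with 7 cells. -/
theorem kobtuse_K7 {d : ℕ} {Z : Fin 7 → Euc d} (hZ : ObtuseFP Z) :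
    ∑ i, ‖Z i‖ ^ 2 ≤ 9 / (8 * Real.pi) :=
  obtuse_of_covers (K := 7) (S0 := 3854733148) (Top := 6783988753) (s := 4585181184) (ψ := 314115367) (by norm_num)
    (by decide +kernel) (by decide +kernel) (by decide +kernel)
    (KCovers.step (by norm_num) rfl kokK7_0 kxK7_0 (by decide +kernel)
    (KCovers.step (by norm_num) rfl kokK7_1 kxK7_1 (by decide +kernel)
    (KCovers.step (by norm_num) rfl kokK7_2 kxK7_2 (by decide +kernel)
    (KCovers.step (by norm_num) rfl kokK7_3 kxK7_3 (by decide +kernel)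
    (KCovers.step (by norm_num) rfl kokK7_4 kxK7_4 (by decide +kernel)
    (KCovers.step (by norm_num) rfl kokK7_5 kxK7_5 (by decide +kernel)
    (KCovers.step (by norm_num) rfl kokK7_6 kxK7_6 (by decide +kernel)
    (KCovers.step (by norm_num) rfl kokK7_7 kxK7_7 (by decide +kernel)
    (KCovers.step (by norm_num) rfl kokK7_8 kxK7_8 (by decide +kernel)
    (KCovers.step (by norm_num) rfl kokK7_9 kxK7_9 (by decide +kernel)
    (KCovers.step (by norm_num) rfl kokK7_10 kxK7_10 (by decide +kernel)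
    (KCovers.step (by norm_num) rfl kokK7_11 kxK7_11 (by decide +kernel)
    (KCovers.done (by decide +kernel)))))))))))))) hZ

end Vale.Agent.P226
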