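import Vale.Agent.P226.KTabOK
import Vale.Agent.P226.KTabK8
import Vale.Agent.P226.KDataK8_0
import Vale.Agent.P226.KDataK8_1
import Vale.Agent.P226.KDataK8_2
import Vale.Agent.P226.KDataK8_3
import Vale.Agent.P226.KDataK8_4
import Vale.Agent.P226.KDataK8_5
import Vale.Agent.P226.KDataK8_6
import Vale.Agent.P226.KDataK8_7
import Vale.Agent.P226.KDataK8_8
import Vale.Agent.P226.KDataK8_9
import Vale.Agent.P226.KDataK8_10
import Vale.Agent.P226.KDataK8_11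
import Vale.Agent.P226.KDataK8_12

/-!
# Obtuse fixed points with 8 cells
-/

namespace Vale.Agent.P226

/-- The tables for 8 cells are valid. -/
theorem ktabK8 : TabOK 5 kTLK8 128 kTCK8 176 :=
  tabOK_of_checks (lp := kLPK8) (cp := kCPK8) (by norm_num) (by norm_num) (by decide +kernel) (by decide +kernel)
    (by norm_num) (by norm_num) (by decide +kernel) (by decide +kernel)

/-- The strips of certificate 0. -/
theorem kxK8_0 : KXCovers 5 ((8 : ℕ) : ℝ) koK8_0 0 1713444048 :=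
  (kchunk rfl ktabK8 kokK8_0 kcK8_0_0).trans
    ((kchunk rfl ktabK8 kokK8_0 kcK8_0_1).trans
    ((kchunk rfl ktabK8 kokK8_0 kcK8_0_2).trans
    ((kchunk rfl ktabK8 kokK8_0 kcK8_0_3).trans
    ((kchunk rfl ktabK8 kokK8_0 kcK8_0_4).trans
    ((kchunk rfl ktabK8 kokK8_0 kcK8_0_5).trans
    ((kchunk rfl ktabK8 kokK8_0 kcK8_0_6)))))))

/-- The strips of certificate 1. -/
theorem kxK8_1 : KXCovers 5 ((8 : ℕ) : ℝ) koK8_1 0 1713444048 :=
  (kchunk rfl ktabK8 kokK8_1 kcK8_1_0).trans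
    ((kchunk rfl ktabK8 kokK8_1 kcK8_1_1).trans
    ((kchunk rfl ktabK8 kokK8_1 kcK8_1_2).trans
    ((kchunk rfl ktabK8 kokK8_1 kcK8_1_3).trans
    ((kchunk rfl ktabK8 kokK8_1 kcK8_1_4).trans
    ((kchunk rfl ktabK8 kokK8_1 kcK8_1_5))))))

/-- The strips of certificate 2. -/
theorem kxK8_2 : KXCovers 5 ((8 : ℕ) : ℝ) koK8_2 0 1713444048 :=
  (kchunk rfl ktabK8 kokK8_2 kcK8_2_0).trans
    ((kchunk rfl ktabK8 kokK8_2 kcK8_2_1).trans
    ((kchunk rfl ktabK8 kokK8_2 kcK8_2_2).trans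
    ((kchunk rfl ktabK8 kokK8_2 kcK8_2_3).trans
    ((kchunk rfl ktabK8 kokK8_2 kcK8_2_4)))))

/-- The strips of certificate 3. -/
theorem kxK8_3 : KXCovers 5 ((8 : ℕ) : ℝ) koK8_3 0 1713444048 :=
  (kchunk rfl ktabK8 kokK8_3 kcK8_3_0).trans
    ((kchunk rfl ktabK8 kokK8_3 kcK8_3_1).trans
    ((kchunk rfl ktabK8 kokK8_3 kcK8_3_2).trans
    ((kchunk rfl ktabK8 kokK8_3 kcK8_3_3))))

/-- The strips of certificate 4. -/
theorem kxK8_4 : KXCovers 5 ((8 : ℕ) : ℝ) koK8_4 0 1713444048 :=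
  (kchunk rfl ktabK8 kokK8_4 kcK8_4_0).trans
    ((kchunk rfl ktabK8 kokK8_4 kcK8_4_1).trans
    ((kchunk rfl ktabK8 kokK8_4 kcK8_4_2).trans
    ((kchunk rfl ktabK8 kokK8_4 kcK8_4_3))))

/-- The strips of certificate 5. -/
theorem kxK8_5 : KXCovers 5 ((8 : ℕ) : ℝ) koK8_5 0 1713444048 :=
  (kchunk rfl ktabK8 kokK8_5 kcK8_5_0).trans
    ((kchunk rfl ktabK8 kokK8_5 kcK8_5_1).trans
    ((kchunk rfl ktabK8 kokK8_5 kcK8_5_2)))

/-- The strips of certificate 6. -/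
theorem kxK8_6 : KXCovers 5 ((8 : ℕ) : ℝ) koK8_6 0 1713444048 :=
  (kchunk rfl ktabK8 kokK8_6 kcK8_6_0).trans
    ((kchunk rfl ktabK8 kokK8_6 kcK8_6_1).trans
    ((kchunk rfl ktabK8 kokK8_6 kcK8_6_2)))

/-- The strips of certificate 7. -/
theorem kxK8_7 : KXCovers 5 ((8 : ℕ) : ℝ) koK8_7 0 1713444048 :=
  (kchunk rfl ktabK8 kokK8_7 kcK8_7_0).trans
    ((kchunk rfl ktabK8 kokK8_7 kcK8_7_1))

/-- The strips of certificate 8. -/
theorem kxK8_8 : KXCovers 5 ((8 : ℕ) : ℝ) koK8_8 0 1713444048 :=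
  (kchunk rfl ktabK8 kokK8_8 kcK8_8_0).trans
    ((kchunk rfl ktabK8 kokK8_8 kcK8_8_1))

/-- The strips of certificate 9. -/
theorem kxK8_9 : KXCovers 5 ((8 : ℕ) : ℝ) koK8_9 0 1713444048 :=
  (kchunk rfl ktabK8 kokK8_9 kcK8_9_0)

/-- The strips of certificate 10. -/
theorem kxK8_10 : KXCovers 5 ((8 : ℕ) : ℝ) koK8_10 0 1713444048 :=
  (kchunk rfl ktabK8 kokK8_10 kcK8_10_0)

/-- The strips of certificate 11. -/
theorem kxK8_11 : KXCovers 5 ((8 : ℕ) : ℝ) koK8_11 0 1713444048 :=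
  (kchunk rfl ktabK8 kokK8_11 kcK8_11_0)

/-- The strips of certificate 12. -/
theorem kxK8_12 : KXCovers 5 ((8 : ℕ) : ℝ) koK8_12 0 1713444048 :=
  (kchunk rfl ktabK8 kokK8_12 kcK8_12_0)

/-- The bound for obtuse fixed points with 8 cells. -/
theorem kobtuse_K8 {d : ℕ} {Z : Fin 8 → Euc d} (hZ : ObtuseFP Z) :
    ∑ i, ‖Z i‖ ^ 2 ≤ 9 / (8 * Real.pi) :=
  obtuse_of_covers (K := 8) (S0 := 3854733148) (Top := 7073097432) (s := 4940713984) (ψ := 266547931) (by norm_num)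
    (by decide +kernel) (by decide +kernel) (by decide +kernel)
    (KCovers.step (by norm_num) rfl kokK8_0 kxK8_0 (by decide +kernel)
    (KCovers.step (by norm_num) rfl kokK8_1 kxK8_1 (by decide +kernel)
    (KCovers.step (by norm_num) rfl kokK8_2 kxK8_2 (by decide +kernel)
    (KCovers.step (by norm_num) rfl kokK8_3 kxK8_3 (by decide +kernel)
    (KCovers.step (by norm_num) rfl kokK8_4 kxK8_4 (by decide +kernel)
    (KCovers.step (by norm_num) rfl kokK8_5 kxK8_5 (by decide +kernel)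
    (KCovers.step (by norm_num) rfl kokK8_6 kxK8_6 (by decide +kernel)
    (KCovers.step (by norm_num) rfl kokK8_7 kxK8_7 (by decide +kernel)
    (KCovers.step (by norm_num) rfl kokK8_8 kxK8_8 (by decide +kernel)
    (KCovers.step (by norm_num) rfl kokK8_9 kxK8_9 (by decide +kernel)
    (KCovers.step (by norm_num) rfl kokK8_10 kxK8_10 (by decide +kernel)
    (KCovers.step (by norm_num) rfl kokK8_11 kxK8_11 (by decide +kernel)
    (KCovers.step (by norm_num) rfl kokK8_12 kxK8_12 (by decide +kernel)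
    (KCovers.done (by decide +kernel))))))))))))))) hZ

end Vale.Agent.P226
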