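import Vale.Agent.P226.KTabOK
import Vale.Agent.P226.KTabK9
import Vale.Agent.P226.KDataK9_0
import Vale.Agent.P226.KDataK9_1
import Vale.Agent.P226.KDataK9_2
import Vale.Agent.P226.KDataK9_3
import Vale.Agent.P226.KDataK9_4
import Vale.Agent.P226.KDataK9_5
import Vale.Agent.P226.KDataK9_6
import Vale.Agent.P226.KDataK9_7
import Vale.Agent.P226.KDataK9_8
import Vale.Agent.P226.KDataK9_9
import Vale.Agent.P226.KDataK9_10
import Vale.Agent.P226.KDataK9_11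
import Vale.Agent.P226.KDataK9_12
import Vale.Agent.P226.KDataK9_13

/-!
# Obtuse fixed points with 9 cells
-/

namespace Vale.Agent.P226

/-- The tables for 9 cells are valid. -/
theorem ktabK9 : TabOK 6 kTLK9 128 kTCK9 176 :=
  tabOK_of_checks (lp := kLPK9) (cp := kCPK9) (by norm_num) (by norm_num) (by decide +kernel) (by decide +kernel)
    (by norm_num) (by norm_num) (by decide +kernel) (by decide +kernel)

/-- The strips of certificate 0. -/
theorem kxK9_0 : KXCovers 6 ((9 : ℕ) : ℝ) koK9_0 0 1713444048 :=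
  (kchunk rfl ktabK9 kokK9_0 kcK9_0_0).trans
    ((kchunk rfl ktabK9 kokK9_0 kcK9_0_1).trans
    ((kchunk rfl ktabK9 kokK9_0 kcK9_0_2).trans
    ((kchunk rfl ktabK9 kokK9_0 kcK9_0_3).trans
    ((kchunk rfl ktabK9 kokK9_0 kcK9_0_4).trans
    ((kchunk rfl ktabK9 kokK9_0 kcK9_0_5).trans
    ((kchunk rfl ktabK9 kokK9_0 kcK9_0_6).trans
    ((kchunk rfl ktabK9 kokK9_0 kcK9_0_7))))))))

/-- The strips of certificate 1. -/
theorem kxK9_1 : KXCovers 6 ((9 : ℕ) : ℝ) koK9_1 0 1713444048 :=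
  (kchunk rfl ktabK9 kokK9_1 kcK9_1_0).trans
    ((kchunk rfl ktabK9 kokK9_1 kcK9_1_1).trans
    ((kchunk rfl ktabK9 kokK9_1 kcK9_1_2).trans
    ((kchunk rfl ktabK9 kokK9_1 kcK9_1_3).trans
    ((kchunk rfl ktabK9 kokK9_1 kcK9_1_4).trans
    ((kchunk rfl ktabK9 kokK9_1 kcK9_1_5).trans
    ((kchunk rfl ktabK9 kokK9_1 kcK9_1_6)))))))

/-- The strips of certificate 2. -/
theorem kxK9_2 : KXCovers 6 ((9 : ℕ) : ℝ) koK9_2 0 1713444048 :=
  (kchunk rfl ktabK9 kokK9_2 kcK9_2_0).trans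
    ((kchunk rfl ktabK9 kokK9_2 kcK9_2_1).trans
    ((kchunk rfl ktabK9 kokK9_2 kcK9_2_2).trans
    ((kchunk rfl ktabK9 kokK9_2 kcK9_2_3).trans
    ((kchunk rfl ktabK9 kokK9_2 kcK9_2_4)))))

/-- The strips of certificate 3. -/
theorem kxK9_3 : KXCovers 6 ((9 : ℕ) : ℝ) koK9_3 0 1713444048 :=
  (kchunk rfl ktabK9 kokK9_3 kcK9_3_0).trans
    ((kchunk rfl ktabK9 kokK9_3 kcK9_3_1).trans
    ((kchunk rfl ktabK9 kokK9_3 kcK9_3_2).trans
    ((kchunk rfl ktabK9 kokK9_3 kcK9_3_3))))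

/-- The strips of certificate 4. -/
theorem kxK9_4 : KXCovers 6 ((9 : ℕ) : ℝ) koK9_4 0 1713444048 :=
  (kchunk rfl ktabK9 kokK9_4 kcK9_4_0).trans
    ((kchunk rfl ktabK9 kokK9_4 kcK9_4_1).trans
    ((kchunk rfl ktabK9 kokK9_4 kcK9_4_2).trans
    ((kchunk rfl ktabK9 kokK9_4 kcK9_4_3))))

/-- The strips of certificate 5. -/
theorem kxK9_5 : KXCovers 6 ((9 : ℕ) : ℝ) koK9_5 0 1713444048 :=
  (kchunk rfl ktabK9 kokK9_5 kcK9_5_0).trans
    ((kchunk rfl ktabK9 kokK9_5 kcK9_5_1).trans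
    ((kchunk rfl ktabK9 kokK9_5 kcK9_5_2)))

/-- The strips of certificate 6. -/
theorem kxK9_6 : KXCovers 6 ((9 : ℕ) : ℝ) koK9_6 0 1713444048 :=
  (kchunk rfl ktabK9 kokK9_6 kcK9_6_0).trans
    ((kchunk rfl ktabK9 kokK9_6 kcK9_6_1).trans
    ((kchunk rfl ktabK9 kokK9_6 kcK9_6_2)))

/-- The strips of certificate 7. -/
theorem kxK9_7 : KXCovers 6 ((9 : ℕ) : ℝ) koK9_7 0 1713444048 :=
  (kchunk rfl ktabK9 kokK9_7 kcK9_7_0).trans
    ((kchunk rfl ktabK9 kokK9_7 kcK9_7_1).trans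
    ((kchunk rfl ktabK9 kokK9_7 kcK9_7_2)))

/-- The strips of certificate 8. -/
theorem kxK9_8 : KXCovers 6 ((9 : ℕ) : ℝ) koK9_8 0 1713444048 :=
  (kchunk rfl ktabK9 kokK9_8 kcK9_8_0).trans
    ((kchunk rfl ktabK9 kokK9_8 kcK9_8_1))

/-- The strips of certificate 9. -/
theorem kxK9_9 : KXCovers 6 ((9 : ℕ) : ℝ) koK9_9 0 1713444048 :=
  (kchunk rfl ktabK9 kokK9_9 kcK9_9_0).trans
    ((kchunk rfl ktabK9 kokK9_9 kcK9_9_1))

/-- The strips of certificate 10. -/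
theorem kxK9_10 : KXCovers 6 ((9 : ℕ) : ℝ) koK9_10 0 1713444048 :=
  (kchunk rfl ktabK9 kokK9_10 kcK9_10_0)

/-- The strips of certificate 11. -/
theorem kxK9_11 : KXCovers 6 ((9 : ℕ) : ℝ) koK9_11 0 1713444048 :=
  (kchunk rfl ktabK9 kokK9_11 kcK9_11_0)

/-- The strips of certificate 12. -/
theorem kxK9_12 : KXCovers 6 ((9 : ℕ) : ℝ) koK9_12 0 1713444048 :=
  (kchunk rfl ktabK9 kokK9_12 kcK9_12_0)

/-- The strips of certificate 13. -/
theorem kxK9_13 : KXCovers 6 ((9 : ℕ) : ℝ) koK9_13 0 1713444048 :=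
  (kchunk rfl ktabK9 kokK9_13 kcK9_13_0)

/-- The bound for obtuse fixed points with 9 cells. -/
theorem kobtuse_K9 {d : ℕ} {Z : Fin 9 → Euc d} (hZ : ObtuseFP Z) :
    ∑ i, ‖Z i‖ ^ 2 ≤ 9 / (8 * Real.pi) :=
  obtuse_of_covers (K := 9) (S0 := 3854733148) (Top := 7321038884) (s := 5242609664) (ψ := 230936580) (by norm_num)
    (by decide +kernel) (by decide +kernel) (by decide +kernel)
    (KCovers.step (by norm_num) rfl kokK9_0 kxK9_0 (by decide +kernel)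
    (KCovers.step (by norm_num) rfl kokK9_1 kxK9_1 (by decide +kernel)
    (KCovers.step (by norm_num) rfl kokK9_2 kxK9_2 (by decide +kernel)
    (KCovers.step (by norm_num) rfl kokK9_3 kxK9_3 (by decide +kernel)
    (KCovers.step (by norm_num) rfl kokK9_4 kxK9_4 (by decide +kernel)
    (KCovers.step (by norm_num) rfl kokK9_5 kxK9_5 (by decide +kernel)
    (KCovers.step (by norm_num) rfl kokK9_6 kxK9_6 (by decide +kernel)
    (KCovers.step (by norm_num) rfl kokK9_7 kxK9_7 (by decide +kernel)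
    (KCovers.step (by norm_num) rfl kokK9_8 kxK9_8 (by decide +kernel)
    (KCovers.step (by norm_num) rfl kokK9_9 kxK9_9 (by decide +kernel)
    (KCovers.step (by norm_num) rfl kokK9_10 kxK9_10 (by decide +kernel)
    (KCovers.step (by norm_num) rfl kokK9_11 kxK9_11 (by decide +kernel)
    (KCovers.step (by norm_num) rfl kokK9_12 kxK9_12 (by decide +kernel)
    (KCovers.step (by norm_num) rfl kokK9_13 kxK9_13 (by decide +kernel)
    (KCovers.done (by decide +kernel)))))))))))))))) hZ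

end Vale.Agent.P226
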