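/-!
# Natural number functions of the pair checker, free of any library beyond the core

A natural number `n` stands for `n / 2 ^ 32`.  All the functions below are evaluated by the kernel.
Their meaning is established in the module `KSound`.
-/

namespace Vale.Agent.P226

/-- Rounded up product. -/
def kU (a b : Nat) : Nat := Nat.succ (Nat.shiftRight (Nat.mul a b) 32)

/-- Rounded down product. -/
def kD (a b : Nat) : Nat := Nat.shiftRight (Nat.mul a b) 32

/-- Floor division. -/
def kdD (a b : Nat) : Nat := Nat.div (Nat.shiftLeft a 32) b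

/-- Ceiling division. -/
def kdU (a b : Nat) : Nat := Nat.succ (Nat.div (Nat.shiftLeft a 32) b)

/-- An entry of a table packed in one number: field `i`, with fields of `40` bits. -/
def kGet (T i : Nat) : Nat := Nat.land (Nat.shiftRight T (Nat.mul i 40)) 1099511627775

/-- Upper bound of `(1 - t²) / (1 + t²)` at the left end `t`. -/
def kcU (t : Nat) : Nat := kdU (Nat.sub 4294967296 (kD t t)) (Nat.add 4294967296 (kD t t))

/-- Lower bound of `(1 - t²) / (1 + t²)` at the right end `t`. -/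
def kcL (t : Nat) : Nat := kdD (Nat.sub 4294967296 (kU t t)) (Nat.add 4294967296 (kU t t))

/-- Upper bound of `2 t / (1 + t²)` at the right end `t`. -/
def ksU (t : Nat) : Nat := kdU (Nat.mul 2 t) (Nat.add 4294967296 (kD t t))

/-- Lower bound of `2 t / (1 + t²)` at the left end `t`. -/
def ksL (t : Nat) : Nat := kdD (Nat.mul 2 t) (Nat.add 4294967296 (kU t t))

/-- One Newton step for the square root. -/
def kNewton (n g : Nat) : Nat := Nat.shiftRight (Nat.add g (kdD n g)) 1

/-- Approximate square root, from the guess `g`. -/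
def kSqrt (n g : Nat) : Nat := Nat.add (kNewton n (kNewton n (kNewton n g))) 2

/-- Parameters of the pair test on a strip. -/
structure KPar where
  x1 : Nat
  x2 : Nat
  f0p : Nat
  f0n : Nat
  f4 : Nat
  f1m : Nat
  f2 : Nat
  f3 : Nat
  Y2 : Nat
  cKU : Nat
  cKL : Nat
  TL : Nat
  NL : Nat
  SL : Nat
  TC : Nat
  NC : Nat

/-- Index in the table of caps, from the value of the measure `ν` of the cone. -/
def kCapIdx (NC nu : Nat) : Nat :=
  let e := Nat.log2 (Nat.add nu 16)
  Nat.min (Nat.sub NC 1) (Nat.add (Nat.mul 16 (Nat.sub 31 e)) (Nat.sub 31 (Nat.shiftRight (Nat.add nu 16) (Nat.sub e 4))))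

/-- The test at one vertex `(x, D)` of a box. The arguments `qP`.. are the parts depending on `D`
only, and `xP`, `xN` the parts depending on `x` only. -/
def kVertex (f2 c1U c2L s1L s2U x D aP aN bP bN cP cN xP xN : Nat) : Bool :=
  let a := Nat.add aP (Nat.mul 2 (kD (kD f2 x) D))
  let pos0 := Nat.add cP xP
  let neg0 := Nat.add cN xN
  let pa := Nat.ble aN a
  let pb := Nat.ble bN bP
  let pos1 := cond pa (Nat.add pos0 (kD (Nat.sub a aN) c2L)) pos0
  let neg1 := cond pa neg0 (Nat.add neg0 (kU (Nat.sub aN a) c1U))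
  let pos2 := cond pb (Nat.add pos1 (kD (Nat.sub bP bN) s1L)) pos1
  let neg2 := cond pb neg1 (Nat.add neg1 (kU (Nat.sub bN bP) s2U))
  Nat.ble neg2 pos2

/-- The four vertices, with the parts depending on `D` evaluated once. -/
def kCorners (p : KPar) (Ak hk eU B c0 s0 eT f1u f1v c1U c2L s1L s2U xP1 xN1 xP2 xN2 D : Nat) : Bool :=
  let Q := kU B (Nat.add (kU hk D) eU)
  let aP := Nat.add (kD Ak D) (kD f1u D)
  let aN := Nat.add (kU Q s0) (kU p.f3 D)
  let bP := kD f1v D
  let bN := kU Q c0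
  let cP := kD (kD Q c0) s0
  let cN := Nat.add (kU Q eT) (kU p.f2 (kU D D))
  kVertex p.f2 c1U c2L s1L s2U p.x1 D aP aN bP bN cP cN xP1 xN1 &&
    kVertex p.f2 c1U c2L s1L s2U p.x2 D aP aN bP bN cP cN xP2 xN2

/-- The parts of a vertex depending on `x`, positive part. -/
def kxP (p : KPar) (x : Nat) : Nat := Nat.add (kD p.f3 x) p.f0n

/-- The parts of a vertex depending on `x`, negative part. -/
def kxN (p : KPar) (f1u x : Nat) : Nat :=
  Nat.add (Nat.add (Nat.add p.f0p (kU p.f4 x)) (kU p.f2 (kU x x))) (kU f1u x)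

/-- The error term of the tangent of the product `c s` at `(c0, s0)`. -/
def keT (c0 s0 : Nat) : Nat :=
  Nat.add (Nat.sub (Nat.add (kU c0 c0) (kU s0 s0)) 4294967296)
    (Nat.sub 4294967296 (Nat.add (kD c0 c0) (kD s0 s0)))

/-- The box test, with the line `(A, B)`, the cap `(hU, eU)`, the tangent direction `(u, v)` of the
norm and the center `(c0, s0)` of the arc. -/
def kBoxFinal (p : KPar) (A B hU eU c0 s0 eT u v D1 D2 c1U c2L s1L s2U : Nat) : Bool :=
  let f1u := kD p.f1m u
  let f1v := kD p.f1m v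
  let f1uU := kU p.f1m u
  let Ak := kD A p.cKL
  let hk := kU hU p.cKU
  let xP1 := kxP p p.x1
  let xN1 := kxN p f1uU p.x1
  let xP2 := kxP p p.x2
  let xN2 := kxN p f1uU p.x2
  Nat.ble (Nat.add (kU u u) (kU v v)) 4294967296 &&
    kCorners p Ak hk eU B c0 s0 eT f1u f1v c1U c2L s1L s2U xP1 xN1 xP2 xN2 D1 &&
    kCorners p Ak hk eU B c0 s0 eT f1u f1v c1U c2L s1L s2U xP1 xN1 xP2 xN2 D2

/-- Choice of the line and of the cap. -/
def kBoxSel (p : KPar) (c0 s0 eT u v D0 D1 D2 c1U c2L s1L s2U : Nat) : Bool :=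
  let iC := kCapIdx p.NC (kU D0 p.cKU)
  let iL := Nat.min (Nat.sub p.NL 1)
    (Nat.shiftRight (kU s0 (kGet p.TC (Nat.add (Nat.mul 3 iC) 2))) p.SL)
  kBoxFinal p (kGet p.TL (Nat.mul 2 iL)) (kGet p.TL (Nat.add (Nat.mul 2 iL) 1))
    (kGet p.TC (Nat.mul 3 iC)) (kGet p.TC (Nat.add (Nat.mul 3 iC) 1)) c0 s0 eT u v D1 D2
    c1U c2L s1L s2U

/-- The box test, once the center of the box has been chosen. -/
def kBoxCore (p : KPar) (D1 D2 c1U c2L s1L s2U c0 s0 : Nat) : Bool :=
  let D0 := Nat.shiftRight (Nat.add D1 D2) 1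
  let x0 := Nat.shiftRight (Nat.add p.x1 p.x2) 1
  let g0 := Nat.sub (kD D0 c0) x0
  let z0 := kD D0 s0
  let R0 := kSqrt (Nat.add (kU g0 g0) (kU z0 z0)) (Nat.add (Nat.add g0 z0) 1)
  kBoxSel p c0 s0 (keT c0 s0) (kdD g0 R0) (kdD z0 R0) D0 D1 D2 c1U c2L s1L s2U

/-- The box test: either the box misses the domain, or the inequality holds on the whole box. -/
def kBoxMid (p : KPar) (D1 D2 t1 t2 c1U c2L s1L s2U : Nat) : Bool :=
  let tm := Nat.shiftRight (Nat.add t1 t2) 1
  let i := kdD 4294967296 (Nat.add 4294967296 (kD tm tm))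
  Nat.ble t2 4294967296 &&
    kBoxCore p D1 D2 c1U c2L s1L s2U (Nat.sub (Nat.mul 2 i) 4294967296) (kD (Nat.mul 2 tm) i)

/-- The box test: either the box misses the domain, or the inequality holds on the whole box. -/
def kBox (p : KPar) (D1 D2 t1 t2 : Nat) : Bool :=
  let c1U := kcU t1
  let c2L := kcL t2
  let s1L := ksL t1
  let s2U := ksU t2
  let gL := Nat.sub (kD D1 c2L) p.x2
  let zL := kD D1 s1L
  Nat.blt (kU D2 c1U) p.x1 || Nat.blt p.Y2 (Nat.add (kD gL gL) (kD zL zL)) ||
    kBoxMid p D1 D2 t1 t2 c1U c2L s1L s2U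

/-- The recursive checker on a box `[D1, D2] × [t1, t2]`. -/
def kChk (p : KPar) : Nat → Nat → Nat → Nat → Nat → Bool
  | 0, D1, D2, t1, t2 => kBox p D1 D2 t1 t2
  | f + 1, D1, D2, t1, t2 =>
    kBox p D1 D2 t1 t2 ||
      cond (Nat.ble (kU (Nat.sub t2 t1) (Nat.add D1 D2)) (Nat.sub D2 D1))
        (let m := Nat.shiftRight (Nat.add D1 D2) 1
         kChk p f D1 m t1 t2 && kChk p f m D2 t1 t2)
        (let m := Nat.shiftRight (Nat.add t1 t2) 1
         kChk p f D1 D2 t1 m && kChk p f D1 D2 m t2)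

/-- The global constants of a certificate. -/
structure KOut where
  mu : Nat
  L0 : Nat
  L1 : Nat
  e0 : Nat
  F0 : Nat
  Kc : Nat
  phiU : Nat
  Smin : Nat
  Smax : Nat
  Y2 : Nat
  cKU : Nat
  cKL : Nat
  TL : Nat
  NL : Nat
  SL : Nat
  TC : Nat
  NC : Nat

/-- Data of a strip of values of `x`. -/
structure KStrip where
  x2 : Nat
  f0p : Nat
  f0n : Nat
  f4 : Nat
  f1m : Nat
  f2 : Nat
  f3 : Nat
  fuel : Nat
  hasPair : Bool
  rects : List (Nat × Nat)

/-- All four corners. -/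
def kCorners4 (c : Nat → Nat → Bool) (x1 x2 S1 S2 : Nat) : Bool :=
  c x1 S1 && c x1 S2 && c x2 S1 && c x2 S2

/-- Corner test: the condition `F ≤ x² + φ(0) (S - x)` contradicts `F > F0`. -/
def kCInf (o : KOut) (x S : Nat) : Bool :=
  Nat.ble (Nat.add (kU x x) (kU o.phiU (Nat.sub S x))) o.F0

/-- Corner test: the target is negative. -/
def kCTriv (o : KOut) (x S : Nat) : Bool :=
  Nat.ble (Nat.add (kU o.mu x) (kU o.L0 (kU x x))) (Nat.add o.e0 (kD (kD o.L1 S) (kD x x)))

/-- Corner test: the result of the pair inequality dominates the target. -/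
def kCPair (o : KOut) (st : KStrip) (x S : Nat) : Bool :=
  Nat.ble
    (Nat.add (Nat.add (Nat.add (Nat.mul o.Kc st.f0n) (kU o.mu x)) (kU st.f1m S))
      (Nat.add (kU st.f2 (kU x x)) (kU o.L0 (kU x x))))
    (Nat.add (Nat.add (Nat.add (Nat.mul o.Kc st.f0p) (kD st.f2 o.F0)) o.e0)
      (Nat.add (Nat.add (Nat.mul o.Kc (kD st.f4 x)) (kD st.f1m x))
        (Nat.add (kD st.f3 x) (kD (kD o.L1 S) (kD x x)))))

/-- Test of one rectangle; the kinds are `0`: `F` too small, `1`: `S - x` too large,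
`2`: the target is negative, `3`: the pair inequality. -/
def kRect (o : KOut) (st : KStrip) (x1 x2 S1 S2 kind : Nat) : Bool :=
  match kind with
  | 0 => kCorners4 (kCInf o) x1 x2 S1 S2
  | 1 => Nat.blt (Nat.add x2 (Nat.mul o.Kc o.phiU)) S1
  | 2 => kCorners4 (kCTriv o) x1 x2 S1 S2
  | _ => st.hasPair && kCorners4 (kCPair o st) x1 x2 S1 S2

/-- The rectangles of a strip cover all values of `S` up to the end of the range. -/
def kRects (o : KOut) (st : KStrip) (x1 : Nat) : Nat → List (Nat × Nat) → Bool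
  | S, [] => Nat.blt o.Smax S
  | S, r :: rs => kRect o st x1 st.x2 S r.1 r.2 && kRects o st x1 r.1 rs

/-- The parameters of the pair test of a strip. -/
def kParOf (o : KOut) (st : KStrip) (x1 : Nat) : KPar :=
  { x1 := x1, x2 := st.x2, f0p := st.f0p, f0n := st.f0n, f4 := st.f4, f1m := st.f1m, f2 := st.f2,
    f3 := st.f3, Y2 := o.Y2, cKU := o.cKU, cKL := o.cKL, TL := o.TL, NL := o.NL, SL := o.SL,
    TC := o.TC, NC := o.NC }

/-- Test of one strip. -/
def kStripOK (o : KOut) (x1 : Nat) (st : KStrip) : Bool :=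
  (!st.hasPair || kChk (kParOf o st x1) st.fuel x1 (Nat.add st.x2 o.phiU) 0 4294967296) &&
    kRects o st x1 o.Smin st.rects

/-- The strips cover all the values of `x` from `x` up to `e`. -/
def kStripsTo (o : KOut) : Nat → List KStrip → Nat → Bool
  | _, [], _ => false
  | x, [st], e => kStripOK o x st && Nat.ble e st.x2
  | x, st :: st2 :: r, e => kStripOK o x st && kStripsTo o st.x2 (st2 :: r) e

/-- The final inequality of a certificate, at a value of `S`. -/
def kEnd (o : KOut) (K S : Nat) : Bool :=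
  Nat.ble (kU o.L1 S) o.L0 &&
    Nat.blt (Nat.add 4294967296 (Nat.mul K o.e0))
      (Nat.add (kD o.mu S) (kD (Nat.sub o.L0 (kU o.L1 S)) o.F0))

/-- Checks of the constants of a certificate. -/
def kConst (K : Nat) (o : KOut) : Bool :=
  Nat.ble o.F0 1538021827 && Nat.ble 1713444048 o.phiU && Nat.ble (kU o.phiU o.phiU) o.Y2 &&
    Nat.ble (kU (Nat.mul K o.cKL) o.phiU) 4294967296 &&
    Nat.ble 4294967296 (kD (Nat.mul K o.cKU) 1713444000)

/-- A complete check for the range of values of `S` of a certificate. -/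
def kCheck (K : Nat) (o : KOut) : Bool :=
  Nat.beq (Nat.add o.Kc 1) K && kConst K o && kEnd o K o.Smin && kEnd o K o.Smax

end Vale.Agent.P226
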