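import Vale.Agent.P226.KOuter

/-!
# From the certificates to the bound for obtuse fixed points
-/

open MeasureTheory ProbabilityTheory Set Filter Topology

namespace Vale.Agent.P226

lemma phi0_le_const : phi0 ≤ val 1713444048 := by
  refine phi0_le_up.trans ?_
  norm_num [phi0Up, val]

lemma const_le_phi0 : val 1713444000 ≤ phi0 := by
  have h0 : 0 ≤ phi0 := phi0_pos.le
  refine abs_le_of_sq_le_sq' ?_ h0 |>.2
  rw [phi0_sq, le_div_iff₀ (by positivity)]
  have h1 := Real.pi_lt_d20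
  have h2 : val 1713444000 ^ 2 * 2 ≤ 0.31830988 := by norm_num [val]
  have h3 := mul_le_mul_of_nonneg_right h2 Real.pi_pos.le
  nlinarith

lemma F0_const_le : val 1538021827 ≤ 9 / (8 * Real.pi) := by
  rw [le_div_iff₀ (by positivity)]
  have h1 := Real.pi_lt_d20
  have h2 : (0 : ℝ) ≤ val 1538021827 := val_nonneg _
  have h3 : val 1538021827 * 8 * 3.14159265358979323847 ≤ 9 := by norm_num [val]
  nlinarith

section main

variable {d k : ℕ}

/-- The facts about one cell of an obtuse fixed point. -/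
theorem kcell_hyp {m : ℕ} (hm : 1 ≤ m) (hk : k = m + 3) {Kc : ℕ} (hKc : Kc + 1 = k) {Y : ℝ}
    (hY : phi0 ≤ Y) {Z : Fin k → Euc d} (hZ : ObtuseFP Z) (i : Fin k) :
    KCellHyp m (k : ℝ) (Kc : ℝ) Y ‖Z i‖ ((stdGaussian (Euc d)).real (argCell Z i)) (∑ j, ‖Z j‖)
      (∑ j, ‖Z j‖ ^ 2) := by
  have hk2 : 2 ≤ k := by omega
  have hk0 : NeZero k := ⟨by omega⟩
  have hne : ∀ i : Fin k, (Finset.univ.erase i).Nonempty := by
    intro i
    rw [← Finset.card_pos, Finset.card_erase_of_mem (Finset.mem_univ i), Finset.card_univ,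
      Fintype.card_fin]
    omega
  have hle : ∀ l, ‖Z l‖ ≤ phi0 := fun l => norm_le_phi0 hZ (hne l)
  have hS : ∑ j, ‖Z j‖ - ‖Z i‖ = ∑ l ∈ Finset.univ.erase i, ‖Z l‖ := by
    rw [← Finset.add_sum_erase _ _ (Finset.mem_univ i)]; ring
  have hFq : ∑ j, ‖Z j‖ ^ 2 - ‖Z i‖ ^ 2 = ∑ l ∈ Finset.univ.erase i, ‖Z l‖ ^ 2 := by
    rw [← Finset.add_sum_erase _ _ (Finset.mem_univ i)]; ring
  have hKcR : ((k : ℝ) - 1) = (Kc : ℝ) := by
    rw [← hKc]; push_cast; ring
  refine ⟨norm_nonneg _, measureReal_nonneg, ?_, ?_, ?_, ?_⟩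
  · rw [hS]
    exact Finset.sum_nonneg fun _ _ => norm_nonneg _
  · have h3 : ∑ l ∈ Finset.univ.erase i, ‖Z l‖ ^ 2 ≤ phi0 * ∑ l ∈ Finset.univ.erase i, ‖Z l‖ := by
      rw [Finset.mul_sum]
      refine Finset.sum_le_sum fun l _ => ?_
      have := hle l
      have h5 := norm_nonneg (Z l)
      nlinarith
    rw [← hFq, ← hS] at h3
    linarith
  · rw [hS]
    have h3 : ∑ l ∈ Finset.univ.erase i, ‖Z l‖ ≤ ∑ _l ∈ Finset.univ.erase i, phi0 :=
      Finset.sum_le_sum fun l _ => hle l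
    rw [Finset.sum_const, nsmul_eq_mul, Finset.card_erase_of_mem (Finset.mem_univ i),
      Finset.card_univ, Fintype.card_fin] at h3
    have h4 : ((k - 1 : ℕ) : ℝ) = (Kc : ℝ) := by
      have : k - 1 = Kc := by omega
      rw [this]
    rwa [h4] at h3
  · intro f0 f4 f1m f2 f3 hp
    have := cell_of_polar hZ (hne i) hm hk (Λ := 0) (fun l => (hle l).trans hY) hp
    rw [hKcR] at this
    linarith

/-- End point bound in the final sum. -/
lemma kend_bound {o : KOut} {K Sx : ℕ} (h : kEnd o K Sx = true) :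
    val o.L1 * val Sx ≤ val o.L0 ∧
    1 + (K : ℝ) * val o.e0 < val o.mu * val Sx + (val o.L0 - val o.L1 * val Sx) * val o.F0 := by
  simp only [kEnd, Bool.and_eq_true, Nat.ble_eq, Nat.blt_eq] at h
  obtain ⟨hL, h1⟩ := h
  have h2 := val_lt h1
  rw [val_nadd, val_nadd, val_one_k, val_nmul] at h2
  have h3 := val_kD o.mu Sx
  have h4 := val_kD (Nat.sub o.L0 (kU o.L1 Sx)) o.F0
  rw [val_nsub hL] at h4
  have h5 := val_kU o.L1 Sx
  have h6 := mul_le_mul_of_nonneg_right h5 (val_nonneg o.F0)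
  have h7 := val_le_val hL
  constructor
  · linarith
  · nlinarith

/-- The constants of a certificate in real numbers. -/
structure KConstOK (K : ℝ) (o : KOut) : Prop where
  hF0 : val o.F0 ≤ 9 / (8 * Real.pi)
  hφ : phi0 ≤ val o.phiU
  hY : val o.phiU ^ 2 ≤ val o.Y2
  hcL : val o.cKL ≤ 1 / (K * phi0)
  hcU : 1 / (K * phi0) ≤ val o.cKU

lemma kConst_sound {K : ℕ} {o : KOut} (hK : 0 < K) (h : kConst K o = true) :
    KConstOK (K : ℝ) o := by
  simp only [kConst, Bool.and_eq_true, Nat.ble_eq] at h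
  obtain ⟨⟨⟨⟨hF0, hφ⟩, hY2⟩, hcL⟩, hcU⟩ := h
  have hKr : (0 : ℝ) < (K : ℝ) := by exact_mod_cast hK
  have hφ' : phi0 ≤ val o.phiU := phi0_le_const.trans (val_le_val hφ)
  have hφpos := phi0_pos
  have hKφ : 0 < (K : ℝ) * phi0 := by positivity
  refine ⟨(val_le_val hF0).trans F0_const_le, hφ', (sq_le_val_kU o.phiU).trans (val_le_val hY2), ?_, ?_⟩
  · rw [le_div_iff₀ hKφ]
    have h1 := val_le_val hcL
    rw [val_one_k] at h1
    have h2 := val_kU (Nat.mul K o.cKL) o.phiU
    rw [val_nmul] at h2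
    have h3 : (0 : ℝ) ≤ (K : ℝ) * val o.cKL := by
      have := val_nonneg o.cKL
      positivity
    have h4 := mul_le_mul_of_nonneg_left hφ' h3
    nlinarith
  · rw [div_le_iff₀ hKφ]
    have h1 := val_le_val hcU
    rw [val_one_k] at h1
    have h2 := val_kD (Nat.mul K o.cKU) 1713444000
    rw [val_nmul] at h2
    have h3 : (0 : ℝ) ≤ (K : ℝ) * val o.cKU := by
      have := val_nonneg o.cKU
      positivity
    have h4 := mul_le_mul_of_nonneg_left const_le_phi0 h3
    nlinarith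

/-- One group of strips of a certificate. -/
theorem kchunk {K m : ℕ} {o : KOut} {x1 e : ℕ} {l : List KStrip} (hK : K = m + 3)
    (hT : TabOK m o.TL o.NL o.TC o.NC) (hC : kCheck K o = true)
    (h : kStripsTo o x1 l e = true) : KXCovers m (K : ℝ) o x1 e := by
  simp only [kCheck, Bool.and_eq_true] at hC
  have hC0 := kConst_sound (K := K) (by omega) hC.1.1.2
  have hKr : (0 : ℝ) < (K : ℝ) := by
    have : 0 < K := by omega
    exact_mod_cast this
  exact kStripsTo_sound hKr hT hC0.hcU hC0.hcL hC0.hY hC0.hφ h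

/-- The bound for obtuse fixed points from one certificate, on its range of values of `S`. -/
theorem kobtuse_of_cert {K m : ℕ} {o : KOut} (hm : 1 ≤ m) (hK : K = m + 3)
    (hC : kCheck K o = true) (hstr : KXCovers m (K : ℝ) o 0 o.phiU) {Z : Fin K → Euc d}
    (hZ : ObtuseFP Z) (hS1 : val o.Smin ≤ ∑ i, ‖Z i‖) (hS2 : ∑ i, ‖Z i‖ ≤ val o.Smax) :
    ∑ i, ‖Z i‖ ^ 2 ≤ 9 / (8 * Real.pi) := by
  simp only [kCheck, Bool.and_eq_true] at hC
  obtain ⟨⟨⟨hKc, hCo⟩, hE1⟩, hE2⟩ := hC
  have hCR := kConst_sound (K := K) (by omega) hCo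
  by_contra hcon
  push Not at hcon
  have hKpos : 4 ≤ K := by omega
  have hk0 : NeZero K := ⟨by omega⟩
  have hKcK : o.Kc + 1 = K := Nat.eq_of_beq_eq_true hKc
  set S := ∑ j, ‖Z j‖ with hSdef
  set F := ∑ j, ‖Z j‖ ^ 2 with hFdef
  have hasum : ∑ i, (stdGaussian (Euc d)).real (argCell Z i) = 1 :=
    sum_measureReal_partition (isMeasPartition_argCell Z)
  have hF0' : val o.F0 < F := lt_of_le_of_lt hCR.hF0 hcon
  have hφ' := hCR.hφ
  have hE1' := kend_bound hE1
  have hE2' := kend_bound hE2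
  have hLS : val o.L1 * S ≤ val o.L0 := by
    have h3 := mul_le_mul_of_nonneg_left hS2 (val_nonneg o.L1)
    linarith [hE2'.1]
  have hL0 : 0 ≤ val o.L0 - val o.L1 * S := by linarith
  have hcell : ∀ i : Fin K, ktarget o ‖Z i‖ S ≤ (stdGaussian (Euc d)).real (argCell Z i) := by
    intro i
    have hc := kcell_hyp (k := K) hm hK hKcK hφ' hZ i
    have hne : (Finset.univ.erase i).Nonempty := by
      rw [← Finset.card_pos, Finset.card_erase_of_mem (Finset.mem_univ i), Finset.card_univ,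
        Fintype.card_fin]
      omega
    exact hstr _ _ _ _ hc hF0' hS1 hS2 hLS (by rw [val_zero]; exact norm_nonneg _)
      ((norm_le_phi0 hZ hne).trans hφ')
  have hsum := Finset.sum_le_sum fun i (_ : i ∈ (Finset.univ : Finset (Fin K))) => hcell i
  rw [hasum] at hsum
  have hsum2 : ∑ i, ktarget o ‖Z i‖ S = val o.mu * S + (val o.L0 - val o.L1 * S) * F -
      (K : ℝ) * val o.e0 := by
    unfold ktarget
    rw [Finset.sum_sub_distrib, Finset.sum_add_distrib, ← Finset.mul_sum, ← Finset.mul_sum,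
      Finset.sum_const, Finset.card_univ, Fintype.card_fin, nsmul_eq_mul]
  rw [hsum2] at hsum
  have hFL : (val o.L0 - val o.L1 * S) * val o.F0 ≤ (val o.L0 - val o.L1 * S) * F :=
    mul_le_mul_of_nonneg_left hF0'.le hL0
  have hfinal : val o.mu * S + (val o.L0 - val o.L1 * S) * val o.F0 - (K : ℝ) * val o.e0 ≤ 1 := by
    linarith
  have h0 := hE1'.2
  have hSm' := hE2'.2
  rcases le_total 0 (val o.mu - val o.L1 * val o.F0) with hb | hb
  · have := mul_nonneg hb (by linarith : 0 ≤ S - val o.Smin)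
    nlinarith
  · have := mul_nonneg_of_nonpos_of_nonpos hb (by linarith : S - val o.Smax ≤ 0)
    nlinarith

end main

/-- The range of values of `S` covered by a chain of certificates. -/
def KCovers (K cur Top : ℕ) : Prop :=
  ∀ (d : ℕ) (Z : Fin K → Euc d), ObtuseFP Z → val cur ≤ ∑ i, ‖Z i‖ → ∑ i, ‖Z i‖ ≤ val Top →
    ∑ i, ‖Z i‖ ^ 2 ≤ 9 / (8 * Real.pi)

lemma KCovers.done {K cur Top : ℕ} (h : Top < cur) : KCovers K cur Top := by
  intro d Z _ h1 h2
  exfalso
  have := val_lt h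
  linarith

lemma KCovers.step {K m cur Top : ℕ} {o : KOut} (hm : 1 ≤ m) (hK : K = m + 3)
    (hC : kCheck K o = true) (hstr : KXCovers m (K : ℝ) o 0 o.phiU) (hcur : o.Smin ≤ cur)
    (hn : KCovers K o.Smax Top) : KCovers K cur Top := by
  intro d Z hZ h1 h2
  rcases le_total (∑ i, ‖Z i‖) (val o.Smax) with hle | hle
  · exact kobtuse_of_cert hm hK hC hstr hZ ((val_le_val hcur).trans h1) hle
  · exact hn d Z hZ hle h2

/-- The final statement for a given number of cells, from a chain of certificates that covers the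
values of `S` between the trivial lower bound and the upper bound coming from `(s, ψ)`. -/
theorem obtuse_of_covers {K S0 Top s ψ : ℕ} (hK : 2 ≤ K) (hS0 : kU S0 1713444048 ≤ 1538021827)
    (hiso : isoCheck (s, ψ) = true) (hTop : Nat.add s (Nat.mul K ψ) ≤ Top)
    (hc : KCovers K S0 Top) {d : ℕ} {Z : Fin K → Euc d} (hZ : ObtuseFP Z) :
    ∑ i, ‖Z i‖ ^ 2 ≤ 9 / (8 * Real.pi) := by
  by_contra hcon
  push Not at hcon
  have hk0 : NeZero K := ⟨by omega⟩
  have hne : ∀ i : Fin K, (Finset.univ.erase i).Nonempty := by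
    intro i
    rw [← Finset.card_pos, Finset.card_erase_of_mem (Finset.mem_univ i), Finset.card_univ,
      Fintype.card_fin]
    omega
  have h1 := sum_norm_le hiso hK hZ
  have h2 : ∑ i, ‖Z i‖ ≤ val Top := by
    refine h1.trans ?_
    have h3 := val_le_val hTop
    rwa [val_nadd, val_nmul] at h3
  refine absurd (hc d Z hZ ?_ h2) (not_le.2 hcon)
  -- the lower bound for `S`
  have hφ := phi0_le_const
  have h3 : ∑ i, ‖Z i‖ ^ 2 ≤ phi0 * ∑ i, ‖Z i‖ := by
    rw [Finset.mul_sum]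
    refine Finset.sum_le_sum fun l _ => ?_
    have := norm_le_phi0 hZ (hne l)
    have h5 := norm_nonneg (Z l)
    nlinarith
  have h4 := val_le_val hS0
  have h5 := val_kU S0 1713444048
  have h6 := F0_const_le
  have hS0' : 0 ≤ val S0 := val_nonneg _
  by_contra hlt
  push Not at hlt
  have hSnn : 0 ≤ ∑ i, ‖Z i‖ := Finset.sum_nonneg fun _ _ => norm_nonneg _
  have h7 : phi0 * ∑ i, ‖Z i‖ ≤ val S0 * val 1713444048 := by
    have h8 : phi0 * ∑ i, ‖Z i‖ ≤ val 1713444048 * ∑ i, ‖Z i‖ :=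
      mul_le_mul_of_nonneg_right hφ hSnn
    have h9 : val 1713444048 * ∑ i, ‖Z i‖ ≤ val 1713444048 * val S0 :=
      mul_le_mul_of_nonneg_left hlt.le (val_nonneg _)
    linarith
  linarith

end Vale.Agent.P226
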