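import Vale.Agent.P226.KSound

/-!
# The outer layer of the certificates
-/

open MeasureTheory ProbabilityTheory Set Filter Topology

namespace Vale.Agent.P226

/-- The target of the cell inequality. -/
noncomputable def ktarget (o : KOut) (x S : ℝ) : ℝ :=
  val o.mu * x + (val o.L0 - val o.L1 * S) * x ^ 2 - val o.e0

/-- The facts available about one cell. -/
structure KCellHyp (m : ℕ) (K Kc Y x a S F : ℝ) : Prop where
  hx0 : 0 ≤ x
  ha0 : 0 ≤ a
  hSx : 0 ≤ S - x
  hFS : F ≤ x ^ 2 + phi0 * (S - x)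
  hS2 : S - x ≤ Kc * phi0
  pair : ∀ f0 f4 f1m f2 f3 : ℝ,
    (∀ D c s : ℝ, 0 ≤ D → 0 ≤ c → 0 ≤ s → c ^ 2 + s ^ 2 = 1 → x ≤ D * c →
      Real.sqrt ((D * c - x) ^ 2 + (D * s) ^ 2) ≤ Y → PairPolar K m 0 f0 f4 f1m f2 f3 x D c s) →
    Kc * (f0 + f4 * x) - f1m * (S - x) + f2 * (F - x ^ 2) + f3 * x ≤ a

lemma kCorners4_true {c : ℕ → ℕ → Bool} {x1 x2 S1 S2 : ℕ} (h : kCorners4 c x1 x2 S1 S2 = true) :
    c x1 S1 = true ∧ c x1 S2 = true ∧ c x2 S1 = true ∧ c x2 S2 = true := by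
  simp only [kCorners4, Bool.and_eq_true] at h
  tauto

lemma sq_le_val_kU (x : ℕ) : val x ^ 2 ≤ val (kU x x) := by
  have := val_kU x x
  nlinarith

lemma val_kD_sq (x : ℕ) : val (kD x x) ≤ val x ^ 2 := by
  have := val_kD x x
  nlinarith

lemma val_nmul (a b : ℕ) : val (Nat.mul a b) = (a : ℝ) * val b := by
  show val (a * b) = _
  unfold val; push_cast; ring

section corners

variable (o : KOut)

lemma kCInf_sound {x S : ℕ} (h : kCInf o x S = true) :
    0 ≤ val o.F0 - (val x ^ 2 + val o.phiU * (val S - val x)) := by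
  simp only [kCInf, Nat.ble_eq] at h
  have h1 := val_le_val h
  rw [val_nadd] at h1
  have h2 := sq_le_val_kU x
  have h3 : val o.phiU * (val S - val x) ≤ val (kU o.phiU (Nat.sub S x)) := by
    rcases le_total x S with hxS | hxS
    · have := val_kU o.phiU (Nat.sub S x)
      rw [val_nsub hxS] at this
      exact this
    · have h4 : val S ≤ val x := val_le_val hxS
      have h5 : val o.phiU * (val S - val x) ≤ 0 :=
        mul_nonpos_of_nonneg_of_nonpos (val_nonneg _) (by linarith)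
      exact h5.trans (val_nonneg _)
  linarith

lemma kCTriv_sound {x S : ℕ} (h : kCTriv o x S = true) :
    0 ≤ val o.e0 + (-val o.mu) * val x + 0 * val S + (-val o.L0) * val x ^ 2 +
      val o.L1 * val S * val x ^ 2 := by
  simp only [kCTriv, Nat.ble_eq] at h
  have h1 := val_le_val h
  simp only [val_nadd] at h1
  have hx0 := val_nonneg x
  have hS0 := val_nonneg S
  have h2 := val_kU o.mu x
  have h3 : val o.L0 * val x ^ 2 ≤ val (kU o.L0 (kU x x)) :=
    kU_mono (sq_nonneg _) le_rfl (sq_le_val_kU x)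
  have h4 : val (kD (kD o.L1 S) (kD x x)) ≤ val o.L1 * val S * val x ^ 2 :=
    kD_mono (mul_nonneg (val_nonneg _) hS0) (val_kD _ _) (val_kD_sq x)
  nlinarith

lemma kCPair_sound {st : KStrip} {x S : ℕ} (h : kCPair o st x S = true) :
    0 ≤ ((o.Kc : ℝ) * (val st.f0p - val st.f0n) + val st.f2 * val o.F0 + val o.e0) +
      ((o.Kc : ℝ) * val st.f4 + val st.f1m + val st.f3 - val o.mu) * val x + (-val st.f1m) * val S +
      (-val st.f2 - val o.L0) * val x ^ 2 + val o.L1 * val S * val x ^ 2 := by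
  simp only [kCPair, Nat.ble_eq] at h
  have h1 := val_le_val h
  simp only [val_nadd, val_nmul] at h1
  have hx0 := val_nonneg x
  have hS0 := val_nonneg S
  have hKc : (0 : ℝ) ≤ (o.Kc : ℝ) := Nat.cast_nonneg _
  have n1 := val_kU o.mu x
  have n2 := val_kU st.f1m S
  have n3 : val st.f2 * val x ^ 2 ≤ val (kU st.f2 (kU x x)) :=
    kU_mono (sq_nonneg _) le_rfl (sq_le_val_kU x)
  have n4 : val o.L0 * val x ^ 2 ≤ val (kU o.L0 (kU x x)) :=
    kU_mono (sq_nonneg _) le_rfl (sq_le_val_kU x)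
  have p1 := val_kD st.f2 o.F0
  have p2 := mul_le_mul_of_nonneg_left (val_kD st.f4 x) hKc
  have p3 := val_kD st.f1m x
  have p4 := val_kD st.f3 x
  have p5 : val (kD (kD o.L1 S) (kD x x)) ≤ val o.L1 * val S * val x ^ 2 :=
    kD_mono (mul_nonneg (val_nonneg _) hS0) (val_kD _ _) (val_kD_sq x)
  nlinarith

end corners

/-- Soundness of the test for one rectangle. -/
theorem kRect_sound {o : KOut} {st : KStrip} {x1 x2 S1 S2 kind : ℕ}
    (h : kRect o st x1 x2 S1 S2 kind = true) {m : ℕ} {K Y x a S F : ℝ}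
    (hc : KCellHyp m K (o.Kc : ℝ) Y x a S F) (hF : val o.F0 < F)
    (hx1 : val x1 ≤ x) (hx2 : x ≤ val x2) (hS1 : val S1 ≤ S) (hS2 : S ≤ val S2)
    (hL : val o.L1 * S ≤ val o.L0) (hφ : phi0 ≤ val o.phiU)
    (hp : st.hasPair = true → ∀ D c s : ℝ, 0 ≤ D → 0 ≤ c → 0 ≤ s → c ^ 2 + s ^ 2 = 1 → x ≤ D * c →
      Real.sqrt ((D * c - x) ^ 2 + (D * s) ^ 2) ≤ Y →
      PairPolar K m 0 (val st.f0p - val st.f0n) (val st.f4) (val st.f1m) (val st.f2) (val st.f3)
        x D c s) :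
    ktarget o x S ≤ a := by
  unfold kRect at h
  split at h
  · exfalso
    obtain ⟨h11, h12, h21, h22⟩ := kCorners4_true h
    have e := fun {u v : ℕ} (huv : kCInf o u v = true) => kCInf_sound o huv
    have h0 := rect_nonneg (c0 := val o.F0) (c1 := val o.phiU) (c2 := -val o.phiU) (c3 := -1) (c4 := 0)
      hx1 hx2 hS1 hS2 (by simp) (by have := e h11; nlinarith) (by have := e h12; nlinarith)
      (by have := e h21; nlinarith) (by have := e h22; nlinarith)
    have h3 := hc.hFS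
    have h4 : phi0 * (S - x) ≤ val o.phiU * (S - x) :=
      mul_le_mul_of_nonneg_right hφ hc.hSx
    nlinarith
  · exfalso
    rw [Nat.blt_eq] at h
    have h1 := val_lt h
    rw [val_nadd, val_nmul] at h1
    have h2 := hc.hS2
    have h3 : (o.Kc : ℝ) * phi0 ≤ (o.Kc : ℝ) * val o.phiU :=
      mul_le_mul_of_nonneg_left hφ (Nat.cast_nonneg _)
    linarith
  · obtain ⟨h11, h12, h21, h22⟩ := kCorners4_true h
    have e := fun {u v : ℕ} (huv : kCTriv o u v = true) => kCTriv_sound o huv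
    have h0 := rect_nonneg (c0 := val o.e0) (c1 := -val o.mu) (c2 := 0) (c3 := -val o.L0)
      (c4 := val o.L1) hx1 hx2 hS1 hS2 (by linarith) (e h11) (e h12) (e h21) (e h22)
    have ha := hc.ha0
    unfold ktarget
    nlinarith
  · simp only [Bool.and_eq_true] at h
    obtain ⟨hhas, hcor⟩ := h
    obtain ⟨h11, h12, h21, h22⟩ := kCorners4_true hcor
    have e := fun {u v : ℕ} (huv : kCPair o st u v = true) => kCPair_sound o huv
    have hf2 := val_nonneg st.f2
    have h0 := rect_nonneg (c0 := (o.Kc : ℝ) * (val st.f0p - val st.f0n) + val st.f2 * val o.F0 + val o.e0)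
      (c1 := (o.Kc : ℝ) * val st.f4 + val st.f1m + val st.f3 - val o.mu) (c2 := -val st.f1m)
      (c3 := -val st.f2 - val o.L0) (c4 := val o.L1) hx1 hx2 hS1 hS2 (by linarith)
      (e h11) (e h12) (e h21) (e h22)
    have hM := hc.pair _ _ _ _ _ (hp hhas)
    have h5 : val st.f2 * (val o.F0 - x ^ 2) ≤ val st.f2 * (F - x ^ 2) := by
      apply mul_le_mul_of_nonneg_left _ hf2
      linarith
    unfold ktarget
    nlinarith

lemma kRects_sound {o : KOut} {st : KStrip} {x1 : ℕ} {m : ℕ} {K Y x a S F : ℝ}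
    (hc : KCellHyp m K (o.Kc : ℝ) Y x a S F) (hF : val o.F0 < F)
    (hx1 : val x1 ≤ x) (hx2 : x ≤ val st.x2) (hS2 : S ≤ val o.Smax)
    (hL : val o.L1 * S ≤ val o.L0) (hφ : phi0 ≤ val o.phiU)
    (hp : st.hasPair = true → ∀ D c s : ℝ, 0 ≤ D → 0 ≤ c → 0 ≤ s → c ^ 2 + s ^ 2 = 1 → x ≤ D * c →
      Real.sqrt ((D * c - x) ^ 2 + (D * s) ^ 2) ≤ Y →
      PairPolar K m 0 (val st.f0p - val st.f0n) (val st.f4) (val st.f1m) (val st.f2) (val st.f3)
        x D c s) :
    ∀ {S1 : ℕ} {l : List (ℕ × ℕ)}, kRects o st x1 S1 l = true → val S1 ≤ S →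
    ktarget o x S ≤ a := by
  intro S1 l
  induction l generalizing S1 with
  | nil =>
    intro h hS1
    simp only [kRects, Nat.blt_eq] at h
    exfalso
    have h1 := val_lt h
    linarith
  | cons r rs ih =>
    intro h hS1
    simp only [kRects, Bool.and_eq_true] at h
    rcases le_total S (val r.1) with hle | hle
    · exact kRect_sound h.1 hc hF hx1 hx2 hS1 hle hL hφ hp
    · exact ih h.2 hle

/-- The triangle inequality for the polar coordinates. -/
lemma polar_D_le {x D c s : ℝ} (hx : 0 ≤ x) (hD : 0 ≤ D) (hcs : c ^ 2 + s ^ 2 = 1) :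
    D ≤ x + Real.sqrt ((D * c - x) ^ 2 + (D * s) ^ 2) := by
  set R := Real.sqrt ((D * c - x) ^ 2 + (D * s) ^ 2) with hR
  have hR0 : 0 ≤ R := Real.sqrt_nonneg _
  have hR2 : R ^ 2 = (D * c - x) ^ 2 + (D * s) ^ 2 := Real.sq_sqrt (by positivity)
  have h1 : D * c - x ≤ R := by
    refine le_trans (le_abs_self _) (Real.abs_le_sqrt ?_)
    nlinarith [sq_nonneg (D * s)]
  have hD2 : D ^ 2 * (c ^ 2 + s ^ 2) = D ^ 2 := by rw [hcs, mul_one]
  refine abs_le_of_sq_le_sq' ?_ (by positivity) |>.2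
  nlinarith [mul_nonneg hx (sub_nonneg.2 h1)]

/-- The values of `x` between `x1` and `e` are covered. -/
def KXCovers (m : ℕ) (Kr : ℝ) (o : KOut) (x1 e : ℕ) : Prop :=
  ∀ x a S F : ℝ, KCellHyp m Kr (o.Kc : ℝ) (val o.phiU) x a S F → val o.F0 < F →
    val o.Smin ≤ S → S ≤ val o.Smax → val o.L1 * S ≤ val o.L0 → val x1 ≤ x → x ≤ val e →
    ktarget o x S ≤ a

lemma KXCovers.trans {m : ℕ} {Kr : ℝ} {o : KOut} {x1 e1 e2 : ℕ} (h1 : KXCovers m Kr o x1 e1)
    (h2 : KXCovers m Kr o e1 e2) : KXCovers m Kr o x1 e2 := by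
  intro x a S F hc hF hS1 hS2 hL hx1 hx2
  rcases le_total x (val e1) with hle | hle
  · exact h1 x a S F hc hF hS1 hS2 hL hx1 hle
  · exact h2 x a S F hc hF hS1 hS2 hL hle hx2

/-- Soundness of a single strip. -/
theorem kStripOK_sound {o : KOut} {m : ℕ} {Kr : ℝ} (hKr : 0 < Kr)
    (hT : TabOK m o.TL o.NL o.TC o.NC)
    (hcU : 1 / (Kr * phi0) ≤ val o.cKU) (hcL : val o.cKL ≤ 1 / (Kr * phi0))
    (hY : val o.phiU ^ 2 ≤ val o.Y2) (hφ : phi0 ≤ val o.phiU) {x1 : ℕ} {st : KStrip}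
    (h1 : kStripOK o x1 st = true) : KXCovers m Kr o x1 st.x2 := by
  intro x a S F hc hF hS0 hS2 hL hx1 hle
  simp only [kStripOK, Bool.and_eq_true, Bool.or_eq_true, Bool.not_eq_true'] at h1
  refine kRects_sound hc hF hx1 hle hS2 hL hφ ?_ h1.2 hS0
  intro hhas D c s hD0 hc0 hs0 hcs hd1 hd2
  have hpc : kChk (kParOf o st x1) st.fuel x1 (Nat.add st.x2 o.phiU) 0 4294967296 = true := by
    rcases h1.1 with h2 | h2
    · rw [hhas] at h2; simp at h2
    · exact h2
  obtain ⟨t, ht0, ht1, htc, hts⟩ := exists_param hc0 hs0 hcs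
  have hc1 : c ≤ 1 := by nlinarith [sq_nonneg s]
  have hDx : x ≤ D := by nlinarith
  have hDtop : D ≤ val (Nat.add st.x2 o.phiU) := by
    rw [val_nadd]
    have := polar_D_le hc.hx0 hD0 hcs
    linarith
  have := kChk_sound (p := kParOf o st x1) hKr hT hcU hcL (val_nonneg o.phiU) hY st.fuel hpc
    (x := x) (D := D) (t := t) hx1 hle (by linarith) hDtop (by rw [val_zero]; exact ht0)
    (by rw [val_one_k]; exact ht1) ht1 (by rw [htc]; exact hd1)
    (by rw [htc, hts]; exact hd2)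
  rw [htc, hts] at this
  exact this

/-- Soundness of the strips. -/
theorem kStripsTo_sound {o : KOut} {m : ℕ} {Kr : ℝ} (hKr : 0 < Kr)
    (hT : TabOK m o.TL o.NL o.TC o.NC)
    (hcU : 1 / (Kr * phi0) ≤ val o.cKU) (hcL : val o.cKL ≤ 1 / (Kr * phi0))
    (hY : val o.phiU ^ 2 ≤ val o.Y2) (hφ : phi0 ≤ val o.phiU) {e : ℕ} :
    ∀ {x1 : ℕ} {l : List KStrip}, kStripsTo o x1 l e = true → KXCovers m Kr o x1 e := by
  intro x1 l
  induction l generalizing x1 with
  | nil =>
    intro h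
    simp [kStripsTo] at h
  | cons st r ih =>
    intro h
    cases r with
    | nil =>
      simp only [kStripsTo, Bool.and_eq_true, Nat.ble_eq] at h
      intro x a S F hc hF hS1 hS2 hL hx1 hx2
      exact kStripOK_sound hKr hT hcU hcL hY hφ h.1 x a S F hc hF hS1 hS2 hL hx1
        (hx2.trans (val_le_val h.2))
    | cons st2 r2 =>
      simp only [kStripsTo, Bool.and_eq_true] at h
      exact (kStripOK_sound hKr hT hcU hcL hY hφ h.1).trans (ih h.2)

end Vale.Agent.P226
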