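import Vale.Agent.P226.KCore
import Vale.Agent.P226.FacetZ

/-!
# Soundness of the pair checker
-/

namespace Vale.Agent.P226

section arith

lemma val_kU (a b : ℕ) : val a * val b ≤ val (kU a b) := val_mulU a b

lemma val_kD (a b : ℕ) : val (kD a b) ≤ val a * val b := val_mulD a b

lemma kU_mono {a b : ℕ} {u v : ℝ} (h0 : 0 ≤ v) (hu : u ≤ val a) (hv : v ≤ val b) :
    u * v ≤ val (kU a b) :=
  (mul_le_mul hu hv h0 (val_nonneg _)).trans (val_kU a b)

lemma kD_mono {a b : ℕ} {u v : ℝ} (h0 : 0 ≤ u) (hu : val a ≤ u) (hv : val b ≤ v) :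
    val (kD a b) ≤ u * v :=
  (val_kD a b).trans (mul_le_mul hu hv (val_nonneg _) h0)

lemma val_nadd (a b : ℕ) : val (Nat.add a b) = val a + val b := val_add a b

lemma val_nsub {a b : ℕ} (h : b ≤ a) : val (Nat.sub a b) = val a - val b := val_sub h

lemma le_val_nsub (a b : ℕ) : val a - val b ≤ val (Nat.sub a b) := by
  rcases le_total b a with h | h
  · rw [val_nsub h]
  · have h1 := val_le_val h
    have h2 := val_nonneg (Nat.sub a b)
    linarith

lemma val_two_mul (a : ℕ) : val (Nat.mul 2 a) = 2 * val a := val_mul_two a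

lemma val_one_k : val 4294967296 = 1 := val_fone

lemma val_lt {a b : ℕ} (h : a < b) : val a < val b := val_lt_val h

lemma le_of_ble_false {a b : ℕ} (h : Nat.ble a b = false) : b ≤ a := by
  by_contra hn
  have h2 : a ≤ b := by omega
  have h3 := Nat.ble_eq_true_of_le h2
  rw [h] at h3
  exact Bool.noConfusion h3

end arith

section angles

lemma cosT_le_kcU {t1 : ℕ} {t : ℝ} (ht1 : val t1 ≤ t) (ht : t ≤ 1) : cosT t ≤ val (kcU t1) := by
  have ht0 : 0 ≤ t := (val_nonneg _).trans ht1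
  have h1 : val (kD t1 t1) ≤ t ^ 2 := by
    refine (val_kD t1 t1).trans ?_
    have := val_nonneg t1
    nlinarith
  have hsone : kD t1 t1 ≤ 4294967296 := by
    have h5 : val (kD t1 t1) ≤ 1 := h1.trans (by nlinarith)
    have h6 : ((kD t1 t1 : ℕ) : ℝ) ≤ (4294967296 : ℕ) := by
      unfold val at h5
      rw [div_le_iff₀ (by positivity)] at h5
      push_cast
      linarith
    exact_mod_cast h6
  have h5 := cosT_le (val_nonneg _) h1
  have h6 : val (Nat.sub 4294967296 (kD t1 t1)) ≤ val (kcU t1) * val (Nat.add 4294967296 (kD t1 t1)) :=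
    val_divU (by simp)
  rw [val_nsub hsone, val_nadd, val_one_k] at h6
  refine h5.trans ?_
  rw [div_le_iff₀ (by have := val_nonneg (kD t1 t1); linarith)]
  exact h6

lemma kcL_le_cosT {t2 : ℕ} {t : ℝ} (ht0 : 0 ≤ t) (ht1 : t ≤ 1) (ht2 : t ≤ val t2) :
    val (kcL t2) ≤ cosT t := cL_le_cosT ht0 ht1 ht2

lemma sinT_le_ksU {t2 : ℕ} (h1 : t2 ≤ 4294967296) {t : ℝ} (ht0 : 0 ≤ t) (ht2 : t ≤ val t2) :
    sinT t ≤ val (ksU t2) := sinT_le_snU h1 ht0 ht2

lemma ksL_le_sinT {t1 : ℕ} {t : ℝ} (ht1 : val t1 ≤ t) (ht : t ≤ 1) : val (ksL t1) ≤ sinT t := by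
  have h0 := val_nonneg t1
  have h1 : val (ksL t1) * val (Nat.add 4294967296 (kU t1 t1)) ≤ val (Nat.mul 2 t1) := val_divD _ _
  rw [val_nadd, val_one_k, val_two_mul] at h1
  have h2 := val_kU t1 t1
  have h3 : 0 ≤ val (ksL t1) := val_nonneg _
  unfold sinT
  rw [le_div_iff₀ (by positivity)]
  -- monotonicity of `2 t / (1 + t²)` on `[0, 1]`
  have h4 : val (ksL t1) * (1 + val t1 ^ 2) ≤ 2 * val t1 := by nlinarith
  have h5 : val t1 ≤ 1 := ht1.trans ht
  rcases eq_or_lt_of_le h0 with h6 | h6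
  · have : val (ksL t1) * 1 ≤ 0 := by
      rw [← h6] at h4
      nlinarith
    have ht0 : 0 ≤ t := h0.trans ht1
    nlinarith
  · have h7 : val (ksL t1) ≤ 2 * val t1 / (1 + val t1 ^ 2) := by
      rw [le_div_iff₀ (by positivity)]; exact h4
    have h8 : 2 * val t1 / (1 + val t1 ^ 2) * (1 + t ^ 2) ≤ 2 * t := by
      rw [div_mul_eq_mul_div, div_le_iff₀ (by positivity)]
      have : 0 ≤ (t - val t1) * (1 - t * val t1) := by
        apply mul_nonneg (by linarith)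
        have ht0 : 0 ≤ t := h0.trans ht1
        nlinarith
      nlinarith
    calc val (ksL t1) * (1 + t ^ 2) ≤ 2 * val t1 / (1 + val t1 ^ 2) * (1 + t ^ 2) :=
          mul_le_mul_of_nonneg_right h7 (by positivity)
      _ ≤ _ := h8

lemma cosT_sq_add_sinT_sq (t : ℝ) : cosT t ^ 2 + sinT t ^ 2 = 1 := by
  unfold cosT sinT
  have : (1 + t ^ 2) ≠ 0 := by positivity
  field_simp
  ring

/-- Every unit vector in the first quadrant has a parameter `t` in `[0, 1]`. -/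
lemma exists_param {c s : ℝ} (hc : 0 ≤ c) (hs : 0 ≤ s) (h : c ^ 2 + s ^ 2 = 1) :
    ∃ t : ℝ, 0 ≤ t ∧ t ≤ 1 ∧ cosT t = c ∧ sinT t = s := by
  have h1 : 0 < 1 + c := by positivity
  have hs1 : s ≤ 1 := by nlinarith [sq_nonneg c]
  have hc1 : c ≤ 1 := by nlinarith [sq_nonneg s]
  refine ⟨s / (1 + c), by positivity, ?_, ?_, ?_⟩
  · rw [div_le_one h1]; linarith
  · unfold cosT
    have h2 : 1 + (s / (1 + c)) ^ 2 = 2 / (1 + c) := by
      field_simp
      nlinarith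
    rw [h2]
    field_simp
    nlinarith
  · unfold sinT
    have h2 : 1 + (s / (1 + c)) ^ 2 = 2 / (1 + c) := by
      field_simp
      nlinarith
    rw [h2]
    field_simp

end angles

/-- The function minimized over a box. -/
noncomputable def psiV (A2 B h2 eU f0 f4 f1m f2 f3 u v c0 s0 eT c s x D : ℝ) : ℝ :=
  A2 * D * c - B * (h2 * D + eU) * (c0 * s + s0 * c - c0 * s0 + eT) - f0 - f4 * x -
    f3 * (D * c - x) - f2 * (D ^ 2 + x ^ 2 - 2 * x * D * c) + f1m * (u * (D * c - x) + v * (D * s))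

/-- Biconcavity: the minimum of `psiV` on a rectangle is at a vertex. -/
lemma psiV_box {A2 B h2 eU f0 f4 f1m f2 f3 u v c0 s0 eT c s x1 x2 D1 D2 x D : ℝ} (hf2 : 0 ≤ f2)
    (hx1 : x1 ≤ x) (hx2 : x ≤ x2) (hD1 : D1 ≤ D) (hD2 : D ≤ D2)
    (h11 : 0 ≤ psiV A2 B h2 eU f0 f4 f1m f2 f3 u v c0 s0 eT c s x1 D1)
    (h12 : 0 ≤ psiV A2 B h2 eU f0 f4 f1m f2 f3 u v c0 s0 eT c s x1 D2)
    (h21 : 0 ≤ psiV A2 B h2 eU f0 f4 f1m f2 f3 u v c0 s0 eT c s x2 D1)
    (h22 : 0 ≤ psiV A2 B h2 eU f0 f4 f1m f2 f3 u v c0 s0 eT c s x2 D2) :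
    0 ≤ psiV A2 B h2 eU f0 f4 f1m f2 f3 u v c0 s0 eT c s x D := by
  have hX : ∀ E, 0 ≤ psiV A2 B h2 eU f0 f4 f1m f2 f3 u v c0 s0 eT c s x1 E →
      0 ≤ psiV A2 B h2 eU f0 f4 f1m f2 f3 u v c0 s0 eT c s x2 E →
      0 ≤ psiV A2 B h2 eU f0 f4 f1m f2 f3 u v c0 s0 eT c s x E := by
    intro E h1 h2'
    have e : ∀ w, psiV A2 B h2 eU f0 f4 f1m f2 f3 u v c0 s0 eT c s w E =
        (A2 * E * c - B * (h2 * E + eU) * (c0 * s + s0 * c - c0 * s0 + eT) - f0 - f3 * (E * c) -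
          f2 * E ^ 2 + f1m * (u * (E * c) + v * (E * s))) +
        (-f4 + f3 + 2 * f2 * E * c - f1m * u) * w + (-f2) * w ^ 2 := by
      intro w
      unfold psiV
      ring
    rw [e] at h1 h2' ⊢
    exact quad_nonneg (by linarith) hx1 hx2 h1 h2'
  have h1 := hX D1 h11 h21
  have h2' := hX D2 h12 h22
  have e : ∀ w, psiV A2 B h2 eU f0 f4 f1m f2 f3 u v c0 s0 eT c s x w =
      (-(B * eU * (c0 * s + s0 * c - c0 * s0 + eT)) - f0 - f4 * x + f3 * x - f2 * x ^ 2 - f1m * (u * x)) +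
      (A2 * c - B * h2 * (c0 * s + s0 * c - c0 * s0 + eT) - f3 * c + 2 * f2 * x * c +
        f1m * (u * c + v * s)) * w + (-f2) * w ^ 2 := by
    intro w
    unfold psiV
    ring
  rw [e] at h1 h2' ⊢
  exact quad_nonneg (by linarith) hD1 hD2 h1 h2'

/-- The test at a vertex. -/
lemma kVertex_sound {f2 c1U c2L s1L s2U x D aP aN bP bN cP cN xP xN : ℕ}
    (h : kVertex f2 c1U c2L s1L s2U x D aP aN bP bN cP cN xP xN = true) {c s : ℝ}
    (hc0 : 0 ≤ c) (hc1 : val c2L ≤ c) (hc2 : c ≤ val c1U) (hs0 : 0 ≤ s) (hs1 : val s1L ≤ s)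
    (hs2 : s ≤ val s2U) :
    0 ≤ (val aP + 2 * val (kD (kD f2 x) D) - val aN) * c + (val bP - val bN) * s + val cP + val xP -
      val cN - val xN := by
  simp only [kVertex] at h
  set a := Nat.add aP (Nat.mul 2 (kD (kD f2 x) D)) with ha
  have hav : val a = val aP + 2 * val (kD (kD f2 x) D) := by
    rw [ha, val_nadd, val_two_mul]
  rw [← hav]
  have pos : ∀ {n m cL : ℕ} {w : ℝ}, m ≤ n → val cL ≤ w →
      val (kD (Nat.sub n m) cL) ≤ (val n - val m) * w := by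
    intro n m cL w hmn hw
    have h1 := val_nsub hmn
    have h2 : 0 ≤ val n - val m := by
      have := val_le_val hmn
      linarith
    rw [← h1]
    exact kD_mono (by rw [h1]; exact h2) le_rfl hw
  have neg : ∀ {n m cU : ℕ} {w : ℝ}, n ≤ m → 0 ≤ w → w ≤ val cU →
      (val m - val n) * w ≤ val (kU (Nat.sub m n) cU) := by
    intro n m cU w hmn hw0 hw
    have h1 := val_nsub hmn
    rw [← h1]
    exact kU_mono hw0 le_rfl hw
  cases hpa : Nat.ble aN a <;> cases hpb : Nat.ble bN bP <;>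
    simp only [hpa, hpb, cond_true, cond_false, Nat.ble_eq] at h <;>
    have hv := val_le_val h <;> simp only [val_nadd] at hv
  · have h1 : a ≤ aN := le_of_ble_false hpa
    have h2 : bP ≤ bN := le_of_ble_false hpb
    have h3 := neg h1 hc0 hc2
    have h4 := neg h2 hs0 hs2
    nlinarith
  · have h1 : a ≤ aN := le_of_ble_false hpa
    have h2 : bN ≤ bP := Nat.le_of_ble_eq_true hpb
    have h3 := neg h1 hc0 hc2
    have h4 := pos h2 hs1
    nlinarith
  · have h1 : aN ≤ a := Nat.le_of_ble_eq_true hpa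
    have h2 : bP ≤ bN := le_of_ble_false hpb
    have h3 := pos h1 hc1
    have h4 := neg h2 hs0 hs2
    nlinarith
  · have h1 : aN ≤ a := Nat.le_of_ble_eq_true hpa
    have h2 : bN ≤ bP := Nat.le_of_ble_eq_true hpb
    have h3 := pos h1 hc1
    have h4 := pos h2 hs1
    nlinarith

/-- Passing from the bounds used at a vertex to the real function, in real numbers. -/
lemma psiV_real {A2 B h2 eU f0p f0n f4 f1m f2 f3 u v c0 s0 eT c s x D Q a1 a2 a3 a4 b1 b2 cP xP cN xN : ℝ}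
    (hc0 : 0 ≤ c) (hs0 : 0 ≤ s)
    (hT : 0 ≤ c0 * s + s0 * c - c0 * s0 + eT)
    (hQb : B * (h2 * D + eU) ≤ Q)
    (t1 : a1 ≤ A2 * D) (t2 : a2 ≤ f1m * u * D) (t3 : a3 ≤ f2 * x * D)
    (t4 : Q * s0 + f3 * D ≤ a4) (t5 : b1 ≤ f1m * v * D) (t6 : Q * c0 ≤ b2)
    (t7 : cP ≤ Q * c0 * s0) (t8 : Q * eT + f2 * D ^ 2 ≤ cN) (t9 : xP ≤ f3 * x + f0n)
    (t10 : f0p + f4 * x + f2 * x ^ 2 + f1m * u * x ≤ xN)
    (h : 0 ≤ (a1 + a2 + 2 * a3 - a4) * c + (b1 - b2) * s + cP + xP - cN - xN) :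
    0 ≤ psiV A2 B h2 eU (f0p - f0n) f4 f1m f2 f3 u v c0 s0 eT c s x D := by
  have ha : (a1 + a2 + 2 * a3 - a4) * c ≤
      (A2 * D + f1m * u * D + 2 * (f2 * x * D) - (Q * s0 + f3 * D)) * c :=
    mul_le_mul_of_nonneg_right (by linarith) hc0
  have hb : (b1 - b2) * s ≤ (f1m * v * D - Q * c0) * s :=
    mul_le_mul_of_nonneg_right (by linarith) hs0
  have e : psiV A2 B h2 eU (f0p - f0n) f4 f1m f2 f3 u v c0 s0 eT c s x D =
      (A2 * D + f1m * u * D + 2 * (f2 * x * D) - (Q * s0 + f3 * D)) * c +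
      (f1m * v * D - Q * c0) * s +
      (Q * c0 * s0 + (f3 * x + f0n) - (Q * eT + f2 * D ^ 2) -
        (f0p + f4 * x + f2 * x ^ 2 + f1m * u * x)) +
      (Q - B * (h2 * D + eU)) * (c0 * s + s0 * c - c0 * s0 + eT) := by
    unfold psiV
    ring
  rw [e]
  have := mul_nonneg (sub_nonneg.2 hQb) hT
  linarith

/-- Passing from the bounds used at a vertex to the real function. -/
lemma psiV_vertex (p : KPar) {Ak hk eU B c0 s0 eT u v x D Q : ℕ} {A2 h2 c s : ℝ}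
    (hQ : Q = kU B (Nat.add (kU hk D) eU))
    (hAk : val Ak ≤ A2) (hhk : h2 ≤ val hk) (hc0 : 0 ≤ c) (hs0 : 0 ≤ s)
    (hT : 0 ≤ val c0 * s + val s0 * c - val c0 * val s0 + val eT)
    (h : 0 ≤ (val (Nat.add (kD Ak D) (kD (kD p.f1m u) D)) + 2 * val (kD (kD p.f2 x) D) -
          val (Nat.add (kU Q s0) (kU p.f3 D))) * c +
        (val (kD (kD p.f1m v) D) - val (kU Q c0)) * s +
        val (kD (kD Q c0) s0) + val (kxP p x) -
        val (Nat.add (kU Q eT) (kU p.f2 (kU D D))) -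
        val (kxN p (kU p.f1m u) x)) :
    0 ≤ psiV A2 (val B) h2 (val eU) (val p.f0p - val p.f0n) (val p.f4) (val p.f1m) (val p.f2)
      (val p.f3) (val u) (val v) (val c0) (val s0) (val eT) c s (val x) (val D) := by
  have hD0 := val_nonneg D
  have hx0 := val_nonneg x
  have hf2 := val_nonneg p.f2
  have hf1 := val_nonneg p.f1m
  have hu0 := val_nonneg u
  have hv0 := val_nonneg v
  have hB0 := val_nonneg B
  have hAk0 : 0 ≤ A2 := (val_nonneg _).trans hAk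
  have hQb : val B * (h2 * val D + val eU) ≤ val Q := by
    rw [hQ]
    by_cases hh : 0 ≤ h2 * val D + val eU
    · refine kU_mono hh le_rfl ?_
      rw [val_nadd]
      have : h2 * val D ≤ val (kU hk D) := by
        refine le_trans (mul_le_mul_of_nonneg_right hhk hD0) (val_kU hk D)
      linarith
    · push Not at hh
      have h5 : val B * (h2 * val D + val eU) ≤ 0 := mul_nonpos_of_nonneg_of_nonpos hB0 hh.le
      exact h5.trans (val_nonneg _)
  rw [val_nadd] at h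
  refine psiV_real hc0 hs0 hT hQb (a1 := val (kD Ak D)) (a2 := val (kD (kD p.f1m u) D))
    (a3 := val (kD (kD p.f2 x) D)) (a4 := val (Nat.add (kU Q s0) (kU p.f3 D)))
    (b1 := val (kD (kD p.f1m v) D)) (b2 := val (kU Q c0)) (cP := val (kD (kD Q c0) s0))
    (xP := val (kxP p x)) (cN := val (Nat.add (kU Q eT) (kU p.f2 (kU D D))))
    (xN := val (kxN p (kU p.f1m u) x)) ?_ ?_ ?_ ?_ ?_ ?_ ?_ ?_ ?_ ?_ h
  · exact kD_mono hAk0 hAk le_rfl
  · exact kD_mono (by positivity) (val_kD _ _) le_rfl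
  · exact kD_mono (by positivity) (val_kD _ _) le_rfl
  · rw [val_nadd]
    exact add_le_add (val_kU _ _) (val_kU _ _)
  · exact kD_mono (by positivity) (val_kD _ _) le_rfl
  · exact val_kU _ _
  · exact kD_mono (mul_nonneg (val_nonneg _) (val_nonneg _)) (val_kD _ _) le_rfl
  · rw [val_nadd]
    refine add_le_add (val_kU _ _) ?_
    have h8 : val D ^ 2 ≤ val (kU D D) := by
      have := val_kU D D
      nlinarith
    exact kU_mono (by positivity) le_rfl h8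
  · unfold kxP
    rw [val_nadd]
    have := val_kD p.f3 x
    linarith
  · unfold kxN
    simp only [val_nadd]
    have h1 := val_kU p.f4 x
    have h8 : val x ^ 2 ≤ val (kU x x) := by
      have := val_kU x x
      nlinarith
    have h2 : val p.f2 * val x ^ 2 ≤ val (kU p.f2 (kU x x)) := kU_mono (by positivity) le_rfl h8
    have h3 : val p.f1m * val u * val x ≤ val (kU (kU p.f1m u) x) :=
      kU_mono hx0 (val_kU _ _) le_rfl
    linarith

/-- Validity of the tables. -/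
structure TabOK (m TL NL TC NC : ℕ) : Prop where
  hNL : 0 < NL
  hNC : 0 < NC
  line : ∀ i, i < NL →
    LineValid (m + 1) 0 (val (kGet TL (Nat.mul 2 i))) (val (kGet TL (Nat.add (Nat.mul 2 i) 1)))
  cap : ∀ i, i < NC →
    CapValid m (val (kGet TC (Nat.mul 3 i))) (val (kGet TC (Nat.add (Nat.mul 3 i) 1)))

lemma kCapIdx_lt {NC : ℕ} (h : 0 < NC) (nu : ℕ) : kCapIdx NC nu < NC := by
  unfold kCapIdx
  have h1 := Nat.min_le_left (Nat.sub NC 1) (Nat.add (Nat.mul 16 (Nat.sub 31 (Nat.log2 (Nat.add nu 16))))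
    (Nat.sub 31 (Nat.shiftRight (Nat.add nu 16) (Nat.sub (Nat.log2 (Nat.add nu 16)) 4))))
  have h2 : Nat.sub NC 1 < NC := Nat.sub_lt h (by norm_num)
  exact lt_of_le_of_lt h1 h2

/-- The tangent plane of the product `c s` on the unit circle. -/
lemma product_le_tangent {c s c0 s0 e : ℝ} (hc : 0 ≤ c) (hs : 0 ≤ s) (hcs : c ^ 2 + s ^ 2 = 1)
    (hc0 : 0 ≤ c0) (hs0 : 0 ≤ s0) (h1 : c0 ^ 2 + s0 ^ 2 - 1 ≤ e) (h2 : 1 - (c0 ^ 2 + s0 ^ 2) ≤ e) :
    c * s ≤ c0 * s + s0 * c - c0 * s0 + e := by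
  have he : 0 ≤ e := by linarith
  have key : (c - c0) * (s - s0) ≤ e := by
    by_cases hp : (c - c0) * (s - s0) ≤ 0
    · linarith
    · push Not at hp
      rcases (mul_pos_iff.1 hp) with ⟨ha, hb⟩ | ⟨ha, hb⟩
      · nlinarith [sq_nonneg ((c - c0) - (s - s0))]
      · nlinarith [sq_nonneg ((c - c0) - (s - s0))]
  nlinarith

lemma keT_bounds (c0 s0 : ℕ) : val c0 ^ 2 + val s0 ^ 2 - 1 ≤ val (keT c0 s0) ∧
    1 - (val c0 ^ 2 + val s0 ^ 2) ≤ val (keT c0 s0) := by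
  unfold keT
  rw [val_nadd]
  have h1 := le_val_nsub (Nat.add (kU c0 c0) (kU s0 s0)) 4294967296
  have h2 := le_val_nsub 4294967296 (Nat.add (kD c0 c0) (kD s0 s0))
  rw [val_nadd, val_one_k] at h1 h2
  have h3 := val_kU c0 c0
  have h4 := val_kU s0 s0
  have h5 := val_kD c0 c0
  have h6 := val_kD s0 s0
  have h7 := val_nonneg (Nat.sub (Nat.add (kU c0 c0) (kU s0 s0)) 4294967296)
  have h8 := val_nonneg (Nat.sub 4294967296 (Nat.add (kD c0 c0) (kD s0 s0)))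
  constructor <;> nlinarith

/-- Cauchy-Schwarz for the tangent direction of the norm. -/
lemma tangent_norm {u v g z : ℝ} (h : u ^ 2 + v ^ 2 ≤ 1) : u * g + v * z ≤ Real.sqrt (g ^ 2 + z ^ 2) := by
  have h1 : (u * g + v * z) ^ 2 ≤ g ^ 2 + z ^ 2 := by
    nlinarith [sq_nonneg (u * z - v * g), mul_nonneg (sub_nonneg.2 h) (add_nonneg (sq_nonneg g) (sq_nonneg z))]
  exact (le_abs_self _).trans (Real.abs_le_sqrt h1)

/-- Soundness of the box test. -/
theorem kBoxFinal_sound {K : ℝ} {m : ℕ} (hK : 0 < K) {p : KPar} {A B hU eU c0 s0 eT u v D1 D2 c1U c2L s1L s2U : ℕ}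
    (hLV : LineValid (m + 1) 0 (val A) (val B)) (hCV : CapValid m (val hU) (val eU))
    (hcU : 1 / (K * phi0) ≤ val p.cKU) (hcL : val p.cKL ≤ 1 / (K * phi0))
    (he1 : val c0 ^ 2 + val s0 ^ 2 - 1 ≤ val eT) (he2 : 1 - (val c0 ^ 2 + val s0 ^ 2) ≤ val eT)
    (h : kBoxFinal p A B hU eU c0 s0 eT u v D1 D2 c1U c2L s1L s2U = true) {x D c s : ℝ}
    (hx1 : val p.x1 ≤ x) (hx2 : x ≤ val p.x2) (hD1 : val D1 ≤ D) (hD2 : D ≤ val D2)
    (hc0 : 0 ≤ c) (hs0 : 0 ≤ s) (hcs : c ^ 2 + s ^ 2 = 1) (hc1 : val c2L ≤ c) (hc2 : c ≤ val c1U)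
    (hs1 : val s1L ≤ s) (hs2 : s ≤ val s2U) :
    PairPolar K m 0 (val p.f0p - val p.f0n) (val p.f4) (val p.f1m) (val p.f2) (val p.f3) x D c s := by
  simp only [kBoxFinal, Bool.and_eq_true, Nat.ble_eq] at h
  obtain ⟨⟨huv, hC1⟩, hC2⟩ := h
  have hφ := phi0_pos
  have hKφ : 0 < K * phi0 := by positivity
  have hinv : 0 ≤ 1 / (K * phi0) := by positivity
  -- constants
  set A2 := val A * (1 / (K * phi0)) with hA2
  set h2 := val hU * (1 / (K * phi0)) with hh2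
  have hh20 : 0 ≤ h2 := mul_nonneg (val_nonneg _) hinv
  have hAk : val (kD A p.cKL) ≤ A2 := kD_mono (val_nonneg _) le_rfl hcL
  have hhk : h2 ≤ val (kU hU p.cKU) := kU_mono hinv le_rfl hcU
  have huv' : val u ^ 2 + val v ^ 2 ≤ 1 := by
    have h1 := val_le_val huv
    rw [val_nadd, val_one_k] at h1
    have h2' := val_kU u u
    have h3 := val_kU v v
    nlinarith
  have hD0 : 0 ≤ D := (val_nonneg _).trans hD1
  have hprod := product_le_tangent hc0 hs0 hcs (val_nonneg c0) (val_nonneg s0) he1 he2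
  have hT : 0 ≤ val c0 * s + val s0 * c - val c0 * val s0 + val eT :=
    (mul_nonneg hc0 hs0).trans hprod
  -- the vertices
  have hver : ∀ E : ℕ, kCorners p (kD A p.cKL) (kU hU p.cKU) eU B c0 s0 eT (kD p.f1m u) (kD p.f1m v)
      c1U c2L s1L s2U (kxP p p.x1) (kxN p (kU p.f1m u) p.x1) (kxP p p.x2) (kxN p (kU p.f1m u) p.x2) E = true →
      0 ≤ psiV A2 (val B) h2 (val eU) (val p.f0p - val p.f0n) (val p.f4) (val p.f1m) (val p.f2)
        (val p.f3) (val u) (val v) (val c0) (val s0) (val eT) c s (val p.x1) (val E) ∧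
      0 ≤ psiV A2 (val B) h2 (val eU) (val p.f0p - val p.f0n) (val p.f4) (val p.f1m) (val p.f2)
        (val p.f3) (val u) (val v) (val c0) (val s0) (val eT) c s (val p.x2) (val E) := by
    intro E hE
    simp only [kCorners, Bool.and_eq_true] at hE
    exact ⟨psiV_vertex p rfl hAk hhk hc0 hs0 hT (kVertex_sound hE.1 hc0 hc1 hc2 hs0 hs1 hs2),
      psiV_vertex p rfl hAk hhk hc0 hs0 hT (kVertex_sound hE.2 hc0 hc1 hc2 hs0 hs1 hs2)⟩
  obtain ⟨h11, h21⟩ := hver D1 hC1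
  obtain ⟨h12, h22⟩ := hver D2 hC2
  have hpsi := psiV_box (val_nonneg _) hx1 hx2 hD1 hD2 h11 h12 h21 h22
  -- conclusion
  refine ⟨val A, val B, val hU, val eU, hLV, val_nonneg _, hCV, ?_⟩
  have hR2 : (D * c - x) ^ 2 + (D * s) ^ 2 = D ^ 2 + x ^ 2 - 2 * x * D * c := by
    have : D ^ 2 * (c ^ 2 + s ^ 2) = D ^ 2 := by rw [hcs, mul_one]
    nlinarith
  have hnorm := tangent_norm (g := D * c - x) (z := D * s) huv'
  have hf1 := val_nonneg p.f1m
  have hn2 := mul_le_mul_of_nonneg_left hnorm hf1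
  rw [hR2] at hn2
  have hQ0 : 0 ≤ val B * (h2 * D + val eU) := by
    have := val_nonneg B
    have := val_nonneg eU
    positivity
  have hprod2 := mul_le_mul_of_nonneg_left hprod hQ0
  have e1 : val A * D * c / (K * phi0) = A2 * D * c := by
    rw [hA2]; ring
  have e2 : val B * (c * s) * (val hU * (D / (K * phi0)) + val eU) =
      val B * (h2 * D + val eU) * (c * s) := by
    rw [hh2]; ring
  rw [e1, e2, hR2]
  unfold psiV at hpsi
  linarith

/-- Soundness of the box test on the box where it is evaluated. -/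
theorem kBoxCore_sound {K : ℝ} {m : ℕ} (hK : 0 < K) {p : KPar} (hT : TabOK m p.TL p.NL p.TC p.NC)
    (hcU : 1 / (K * phi0) ≤ val p.cKU) (hcL : val p.cKL ≤ 1 / (K * phi0))
    {D1 D2 c1U c2L s1L s2U c0 s0 : ℕ}
    (h : kBoxCore p D1 D2 c1U c2L s1L s2U c0 s0 = true) {x D c s : ℝ}
    (hx1 : val p.x1 ≤ x) (hx2 : x ≤ val p.x2) (hD1 : val D1 ≤ D) (hD2 : D ≤ val D2)
    (hc0 : 0 ≤ c) (hs0 : 0 ≤ s) (hcs : c ^ 2 + s ^ 2 = 1) (hc1 : val c2L ≤ c) (hc2 : c ≤ val c1U)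
    (hs1 : val s1L ≤ s) (hs2 : s ≤ val s2U) :
    PairPolar K m 0 (val p.f0p - val p.f0n) (val p.f4) (val p.f1m) (val p.f2) (val p.f3) x D c s := by
  have hE := keT_bounds c0 s0
  have hsel : kBoxSel p c0 s0 (keT c0 s0) _ _ _ D1 D2 c1U c2L s1L s2U = true := h
  unfold kBoxSel at hsel
  have hiC := kCapIdx_lt hT.hNC (kU (Nat.shiftRight (Nat.add D1 D2) 1) p.cKU)
  have hiL : Nat.min (Nat.sub p.NL 1) (Nat.shiftRight (kU s0 (kGet p.TC (Nat.add (Nat.mul 3
      (kCapIdx p.NC (kU (Nat.shiftRight (Nat.add D1 D2) 1) p.cKU))) 2))) p.SL) < p.NL := by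
    refine lt_of_le_of_lt (Nat.min_le_left _ _) ?_
    exact Nat.sub_lt hT.hNL (by norm_num)
  exact kBoxFinal_sound hK (hT.line _ hiL) (hT.cap _ hiC) hcU hcL hE.1 hE.2 hsel hx1 hx2 hD1 hD2 hc0 hs0
    hcs hc1 hc2 hs1 hs2

/-- Soundness of the test on a box, on the part of the domain in the box. -/
theorem kBox_sound {K : ℝ} {m : ℕ} (hK : 0 < K) {p : KPar} (hT : TabOK m p.TL p.NL p.TC p.NC)
    (hcU : 1 / (K * phi0) ≤ val p.cKU) (hcL : val p.cKL ≤ 1 / (K * phi0))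
    {Y : ℝ} (hY0 : 0 ≤ Y) (hY : Y ^ 2 ≤ val p.Y2)
    {D1 D2 t1 t2 : ℕ} (h : kBox p D1 D2 t1 t2 = true) {x D t : ℝ}
    (hx1 : val p.x1 ≤ x) (hx2 : x ≤ val p.x2) (hD1 : val D1 ≤ D) (hD2 : D ≤ val D2)
    (ht1 : val t1 ≤ t) (ht2 : t ≤ val t2) (ht : t ≤ 1)
    (hd1 : x ≤ D * cosT t)
    (hd2 : Real.sqrt ((D * cosT t - x) ^ 2 + (D * sinT t) ^ 2) ≤ Y) :
    PairPolar K m 0 (val p.f0p - val p.f0n) (val p.f4) (val p.f1m) (val p.f2) (val p.f3) x D
      (cosT t) (sinT t) := by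
  have ht0 : 0 ≤ t := (val_nonneg _).trans ht1
  have hD0 : 0 ≤ D := (val_nonneg _).trans hD1
  have hc0 := cosT_nonneg ht0 ht
  have hs0 := sinT_nonneg ht0
  have hcU' := cosT_le_kcU ht1 ht
  have hcL' := kcL_le_cosT ht0 ht ht2
  have hsL' := ksL_le_sinT ht1 ht
  simp only [kBox, Bool.or_eq_true, Nat.blt_eq] at h
  rcases h with (h | h) | h
  · exfalso
    have h1 := val_lt h
    have h2 : D * cosT t ≤ val (kU D2 (kcU t1)) := kU_mono hc0 hD2 hcU'
    linarith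
  · exfalso
    have h1 := val_lt h
    rw [val_nadd] at h1
    set gL := Nat.sub (kD D1 (kcL t2)) p.x2 with hgL
    set zL := kD D1 (ksL t1) with hzL
    have hg : val gL ≤ D * cosT t - x := by
      rcases le_total (kD D1 (kcL t2)) p.x2 with hle | hle
      · have : gL = 0 := by
          rw [hgL]; exact Nat.sub_eq_zero_of_le hle
        rw [this, val_zero]; linarith
      · rw [hgL, val_nsub hle]
        have h3 : val (kD D1 (kcL t2)) ≤ D * cosT t := kD_mono hD0 hD1 hcL'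
        linarith
    have hz : val zL ≤ D * sinT t := kD_mono hD0 hD1 hsL'
    have hg0 := val_nonneg gL
    have hz0 := val_nonneg zL
    have h4 : val (kD gL gL) ≤ (D * cosT t - x) ^ 2 := by
      refine (val_kD gL gL).trans ?_
      nlinarith
    have h5 : val (kD zL zL) ≤ (D * sinT t) ^ 2 := by
      refine (val_kD zL zL).trans ?_
      nlinarith
    have h6 : (D * cosT t - x) ^ 2 + (D * sinT t) ^ 2 ≤ Y ^ 2 := by
      have h7 : 0 ≤ (D * cosT t - x) ^ 2 + (D * sinT t) ^ 2 := by positivity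
      rw [← Real.sq_sqrt h7]
      exact pow_le_pow_left₀ (Real.sqrt_nonneg _) hd2 2
    linarith
  · simp only [kBoxMid, Bool.and_eq_true, Nat.ble_eq] at h
    obtain ⟨h1, h2⟩ := h
    exact kBoxCore_sound hK hT hcU hcL h2 hx1 hx2 hD1 hD2 hc0 hs0 (cosT_sq_add_sinT_sq t) hcL' hcU'
      hsL' (sinT_le_ksU h1 ht0 ht2)

/-- Soundness of the recursive checker. -/
theorem kChk_sound {K : ℝ} {m : ℕ} (hK : 0 < K) {p : KPar} (hT : TabOK m p.TL p.NL p.TC p.NC)
    (hcU : 1 / (K * phi0) ≤ val p.cKU) (hcL : val p.cKL ≤ 1 / (K * phi0))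
    {Y : ℝ} (hY0 : 0 ≤ Y) (hY : Y ^ 2 ≤ val p.Y2) (fuel : ℕ) :
    ∀ {D1 D2 t1 t2 : ℕ}, kChk p fuel D1 D2 t1 t2 = true → ∀ {x D t : ℝ},
    val p.x1 ≤ x → x ≤ val p.x2 → val D1 ≤ D → D ≤ val D2 → val t1 ≤ t → t ≤ val t2 → t ≤ 1 →
    x ≤ D * cosT t → Real.sqrt ((D * cosT t - x) ^ 2 + (D * sinT t) ^ 2) ≤ Y →
    PairPolar K m 0 (val p.f0p - val p.f0n) (val p.f4) (val p.f1m) (val p.f2) (val p.f3) x D
      (cosT t) (sinT t) := by
  induction fuel with
  | zero =>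
    intro D1 D2 t1 t2 h x D t hx1 hx2 hD1 hD2 ht1 ht2 ht hd1 hd2
    exact kBox_sound hK hT hcU hcL hY0 hY h hx1 hx2 hD1 hD2 ht1 ht2 ht hd1 hd2
  | succ f ih =>
    intro D1 D2 t1 t2 h x D t hx1 hx2 hD1 hD2 ht1 ht2 ht hd1 hd2
    rw [kChk, Bool.or_eq_true] at h
    rcases h with h | h
    · exact kBox_sound hK hT hcU hcL hY0 hY h hx1 hx2 hD1 hD2 ht1 ht2 ht hd1 hd2
    · cases hc : Nat.ble (kU (Nat.sub t2 t1) (Nat.add D1 D2)) (Nat.sub D2 D1) <;>
        simp only [hc, cond_true, cond_false, Bool.and_eq_true] at h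
      · rcases le_total t (val (Nat.shiftRight (Nat.add t1 t2) 1)) with hm | hm
        · exact ih h.1 hx1 hx2 hD1 hD2 ht1 hm ht hd1 hd2
        · exact ih h.2 hx1 hx2 hD1 hD2 hm ht2 ht hd1 hd2
      · rcases le_total D (val (Nat.shiftRight (Nat.add D1 D2) 1)) with hm | hm
        · exact ih h.1 hx1 hx2 hD1 hm ht1 ht2 ht hd1 hd2
        · exact ih h.2 hx1 hx2 hm hD2 ht1 ht2 ht hd1 hd2

end Vale.Agent.P226
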