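import Vale.Agent.P226.FacetZ

/-!
# Kernel checks for lines below the radial Mills function and for cap data

A natural number `n` stands for `val n = n / 2 ^ 32`.  For a fixed point `t` with `0 ≤ t < 1` put
`τ = 2 t / (1 - t ^ 2)`; then `(1 + τ ^ 2) ^ (-1/2) = cosT t`, `τ (1 + τ ^ 2) ^ (-1/2) = sinT t` and
`arctan τ = 2 arctan t`.  This gives enclosures of `W_n(τ)` for `2 ≤ n ≤ 8` in natural number
arithmetic, and so Boolean checks `lineOK` and `capOK` for `LineValid` and `CapValid`.

The functions are spelled with the primitive operations `Nat.add`, `Nat.mul`, and so on, and with raw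
literals, because the kernel then evaluates them about five times faster.
-/

open Set Filter Topology

namespace Vale.Agent.P226

/-! ### The functions -/

/-- Rounded up product. -/
def mU (a b : ℕ) : ℕ := Nat.add (Nat.shiftRight (Nat.mul a b) (nat_lit 32)) (nat_lit 1)

/-- Rounded down product. -/
def mD (a b : ℕ) : ℕ := Nat.shiftRight (Nat.mul a b) (nat_lit 32)

/-- Floor division. -/
def dD (a b : ℕ) : ℕ := Nat.div (Nat.shiftLeft a (nat_lit 32)) b

/-- Ceiling division. -/
def dC (a b : ℕ) : ℕ := Nat.div (Nat.add (Nat.shiftLeft a (nat_lit 32)) (Nat.sub b (nat_lit 1))) b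

/-- Upper bound of `cosT`. -/
def cUp (t : ℕ) : ℕ :=
  dC (Nat.sub (nat_lit 4294967296) (mD t t)) (Nat.add (nat_lit 4294967296) (mD t t))

/-- Lower bound of `cosT`. -/
def cLo (t : ℕ) : ℕ :=
  dD (Nat.sub (nat_lit 4294967296) (mU t t)) (Nat.add (nat_lit 4294967296) (mU t t))

/-- Upper bound of `sinT`. -/
def sUp (t : ℕ) : ℕ := dC (Nat.mul (nat_lit 2) t) (Nat.add (nat_lit 4294967296) (mD t t))

/-- Lower bound of `sinT`. -/
def sLo (t : ℕ) : ℕ := dD (Nat.mul (nat_lit 2) t) (Nat.add (nat_lit 4294967296) (mU t t))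

/-- Upper bound of a power. -/
noncomputable def powU (c k : ℕ) : ℕ := Nat.rec (nat_lit 4294967296) (fun _ r => mU r c) k

/-- Lower bound of a power. -/
noncomputable def powD (c k : ℕ) : ℕ := Nat.rec (nat_lit 4294967296) (fun _ r => mD r c) k

/-- A Horner step rounded up. -/
def stepU (a yL x : ℕ) : ℕ := Nat.sub a (mD yL x)

/-- A Horner step rounded down. -/
def stepL (a yU x : ℕ) : ℕ := Nat.sub a (mU yU x)

/-- Upper bound of the arctangent, by the alternating series with `11` terms. -/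
def atanU (x : ℕ) : ℕ :=
  let yL := mD x x
  let yU := mU x x
  mU x (stepU (nat_lit 4294967297) yL (stepL (nat_lit 1431655765) yU (stepU (nat_lit 858993460) yL
    (stepL (nat_lit 613566756) yU (stepU (nat_lit 477218589) yL (stepL (nat_lit 390451572) yU
    (stepU (nat_lit 330382100) yL (stepL (nat_lit 286331153) yU (stepU (nat_lit 252645136) yL
    (stepL (nat_lit 226050910) yU (stepU (nat_lit 204522253) yL (nat_lit 0))))))))))))

/-- Lower bound of the arctangent, by the alternating series with `12` terms. -/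
def atanL (x : ℕ) : ℕ :=
  let yL := mD x x
  let yU := mU x x
  mD x (stepL (nat_lit 4294967296) yU (stepU (nat_lit 1431655766) yL (stepL (nat_lit 858993459) yU
    (stepU (nat_lit 613566757) yL (stepL (nat_lit 477218588) yU (stepU (nat_lit 390451573) yL
    (stepL (nat_lit 330382099) yU (stepU (nat_lit 286331154) yL (stepL (nat_lit 252645135) yU
    (stepU (nat_lit 226050911) yL (stepL (nat_lit 204522252) yU
    (stepU (nat_lit 186737709) yL (nat_lit 0)))))))))))))

/-- Enclosure of `W_2`. For small `t` it uses `π / 2 - 2 arctan t`, for large `t` it uses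
`2 arctan ((1 - t) / (1 + t))`. -/
def w2Pair (t : ℕ) : ℕ × ℕ :=
  cond (Nat.ble t (nat_lit 1779033704))
    (Prod.mk (Nat.sub (nat_lit 6746518852) (Nat.mul (nat_lit 2) (atanU t)))
      (Nat.sub (nat_lit 6746518853) (Nat.mul (nat_lit 2) (atanL t))))
    (Prod.mk
      (Nat.mul (nat_lit 2)
        (atanL (dD (Nat.sub (nat_lit 4294967296) t) (Nat.add (nat_lit 4294967296) t))))
      (Nat.mul (nat_lit 2)
        (atanU (dC (Nat.sub (nat_lit 4294967296) t) (Nat.add (nat_lit 4294967296) t)))))

/-- Enclosure of `W_3`. -/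
def w3Pair (t : ℕ) : ℕ × ℕ :=
  Prod.mk (Nat.sub (nat_lit 4294967296) (sUp t)) (Nat.sub (nat_lit 4294967296) (sLo t))

/-- The reduction step: an enclosure of `W_(m+2)` from one of `W_m`. -/
noncomputable def stepW (m t : ℕ) (p : ℕ × ℕ) : ℕ × ℕ :=
  Prod.mk
    (Nat.div (Nat.sub (Nat.mul (Nat.sub m (nat_lit 1)) p.1)
      (mU (sUp t) (powU (cUp t) (Nat.sub m (nat_lit 1))))) m)
    (Nat.add (Nat.div (Nat.sub (Nat.mul (Nat.sub m (nat_lit 1)) p.2)
      (mD (sLo t) (powD (cLo t) (Nat.sub m (nat_lit 1))))) m) (nat_lit 1))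

/-- Enclosures of `W_n`, `2 ≤ n ≤ 8`. -/
noncomputable def wnPair (t : ℕ) : ℕ → ℕ × ℕ
  | 2 => w2Pair t
  | 3 => w3Pair t
  | 4 => stepW 2 t (w2Pair t)
  | 5 => stepW 3 t (w3Pair t)
  | 6 => stepW 4 t (stepW 2 t (w2Pair t))
  | 7 => stepW 5 t (stepW 3 t (w3Pair t))
  | 8 => stepW 6 t (stepW 4 t (stepW 2 t (w2Pair t)))
  | _ => (0, 0)

/-- Lower bounds of `kap n`. -/
def kapL : ℕ → ℕ
  | 1 => 1367130551
  | 2 => 2147483648
  | 3 => 2734261102
  | 4 => 3221225472
  | 5 => 3645681469
  | 6 => 4026531840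
  | 7 => 4374817763
  | _ => 0

/-- Upper bounds of `kap n`. -/
def kapU : ℕ → ℕ
  | 1 => 1367130552
  | 2 => 2147483648
  | 3 => 2734261103
  | 4 => 3221225472
  | 5 => 3645681470
  | 6 => 4026531840
  | 7 => 4374817764
  | _ => 0

/-- Upper bounds of `phi0 ^ 2 / kap (m + 1)`. -/
def capC : ℕ → ℕ
  | 1 => 1367130552
  | 2 => 1073741824
  | 3 => 911420368
  | 4 => 805306368
  | 5 => 729136294
  | 6 => 671088640
  | _ => 0

/-- The check that the tangent at `τ = 2 t / (1 - t ^ 2)` with height `R` gives the line with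
intercept `A` and slope `B`. -/
noncomputable def lineOK (n Lam t R A B : ℕ) : Bool :=
  let cU := cUp t
  let cL := cLo t
  let sU := sUp t
  let sL := sLo t
  let kL := kapL n
  let kU := kapU n
  let x := Nat.mul n (mU R sU)
  Nat.blt t (nat_lit 4294967296) &&
    Nat.ble (mU (powU cU n) R) (Nat.add (mD kL (wnPair t (Nat.add n (nat_lit 1))).1) Lam) &&
    Nat.ble x kL &&
    Nat.ble (Nat.mul (Nat.add n (nat_lit 2)) (mU kU sU))
      (Nat.mul n (mD R (Nat.add (nat_lit 4294967296) (Nat.mul (Nat.add n (nat_lit 1)) (mD sL sL))))) &&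
    Nat.ble (Nat.sub kU (Nat.mul n (mD R sL))) (mD B (mD cL cL)) &&
    Nat.ble A (Nat.add R (mD (dD (Nat.sub kL x) (mU cU cU)) sL))

/-- The check of the cap data at `τ = 2 t / (1 - t ^ 2)`. -/
noncomputable def capOK (m t hU eU : ℕ) : Bool :=
  Nat.blt t (nat_lit 4294967296) &&
    Nat.ble (sUp t) hU &&
    Nat.ble (mU (capC m) (powU (cUp t) m))
      (Nat.add eU (mD (sLo t) (mD (kapL m) (wnPair t (Nat.add m (nat_lit 1))).1)))

/-! ### Elementary facts on fixed point operations -/

lemma val_mU (a b : ℕ) : val a * val b ≤ val (mU a b) := val_mulU a b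

lemma val_mD (a b : ℕ) : val (mD a b) ≤ val a * val b := val_mulD a b

lemma val_dD (a b : ℕ) : val (dD a b) * val b ≤ val a := val_divD a b

lemma val_dC {a b : ℕ} (hb : 0 < b) : val a ≤ val (dC a b) * val b := by
  have e : dC a b = (a * 2 ^ 32 + (b - 1)) / b := by
    change (a <<< 32 + (b - 1)) / b = _
    rw [Nat.shiftLeft_eq]
  rw [e]
  unfold val
  have h : a * 2 ^ 32 ≤ (a * 2 ^ 32 + (b - 1)) / b * b := by
    have h1 := Nat.lt_div_mul_add (a := a * 2 ^ 32 + (b - 1)) hb
    omega
  have h2 : ((a * 2 ^ 32 : ℕ) : ℝ) ≤ (((a * 2 ^ 32 + (b - 1)) / b * b : ℕ) : ℝ) := by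
    exact_mod_cast h
  rw [Nat.cast_mul, Nat.cast_mul] at h2
  field_simp
  push_cast at h2
  nlinarith

lemma val_primMul (k x : ℕ) : val (Nat.mul k x) = k * val x := by
  change val (k * x) = _
  unfold val; push_cast; ring

lemma val_sub_ge (a b : ℕ) : val a - val b ≤ val (Nat.sub a b) := by
  change _ ≤ val (a - b)
  rcases le_total b a with h | h
  · rw [val_sub h]
  · rw [Nat.sub_eq_zero_of_le h, val_zero]
    have := val_le_val h
    linarith

lemma val_sub_le {a b : ℕ} {x : ℝ} (h : val a - val b ≤ x) (h0 : 0 ≤ x) : val (Nat.sub a b) ≤ x := by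
  change val (a - b) ≤ x
  rcases le_total b a with h1 | h1
  · rwa [val_sub h1]
  · rwa [Nat.sub_eq_zero_of_le h1, val_zero]

lemma val_div_le (a m : ℕ) (_hm : 0 < m) : val (Nat.div a m) * m ≤ val a := by
  change val (a / m) * m ≤ val a
  unfold val
  have h : ((a / m * m : ℕ) : ℝ) ≤ a := by exact_mod_cast Nat.div_mul_le_self a m
  push_cast at h
  have : (0 : ℝ) < 2 ^ 32 := by positivity
  rw [div_mul_eq_mul_div]
  gcongr

lemma le_val_div (a m : ℕ) (hm : 0 < m) : val a ≤ val (Nat.add (Nat.div a m) (nat_lit 1)) * m := by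
  change val a ≤ val (a / m + 1) * m
  unfold val
  have h : (a : ℝ) ≤ ((a / m + 1) * m : ℕ) := by
    have := Nat.lt_mul_div_succ a hm
    have h3 : a ≤ (a / m + 1) * m := by nlinarith
    exact_mod_cast h3
  push_cast at h
  rw [div_mul_eq_mul_div]
  push_cast
  gcongr

lemma val_lt_one {t : ℕ} (h : t < fone) : val t < 1 := by
  rw [← val_fone]
  unfold val
  have : (t : ℝ) < fone := by exact_mod_cast h
  gcongr

lemma mD_le_fone {t : ℕ} (h : t ≤ fone) : mD t t ≤ fone := by
  change (t * t) >>> 32 ≤ fone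
  rw [Nat.shiftRight_eq_div_pow]
  have h1 : t * t ≤ fone * fone := Nat.mul_le_mul h h
  calc t * t / 2 ^ 32 ≤ fone * fone / 2 ^ 32 := Nat.div_le_div_right h1
    _ = fone := by norm_num [fone]

lemma val_cast_nat_lit_fone : val (nat_lit 4294967296) = 1 := val_fone

/-! ### The parametrisation by `t` -/

/-- The point `τ` with half angle tangent `t`. -/
noncomputable def tauOf (t : ℝ) : ℝ := 2 * t / (1 - t ^ 2)

section param
variable {t : ℝ} (h0 : 0 ≤ t) (h1 : t < 1)
include h0 h1

lemma one_sub_sq_pos : 0 < 1 - t ^ 2 := by nlinarith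

lemma tauOf_nonneg : 0 ≤ tauOf t := by
  have := one_sub_sq_pos h0 h1
  unfold tauOf
  positivity

lemma inv_sqrt_tauOf : (Real.sqrt (1 + tauOf t ^ 2))⁻¹ = cosT t := by
  have hp := one_sub_sq_pos h0 h1
  have e : 1 + tauOf t ^ 2 = ((1 + t ^ 2) / (1 - t ^ 2)) ^ 2 := by
    unfold tauOf
    field_simp
    ring
  rw [e, Real.sqrt_sq (by positivity)]
  unfold cosT
  rw [inv_div]

lemma tau_mul_inv_sqrt : tauOf t * (Real.sqrt (1 + tauOf t ^ 2))⁻¹ = sinT t := by
  have hp := one_sub_sq_pos h0 h1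
  rw [inv_sqrt_tauOf h0 h1]
  unfold tauOf cosT sinT
  field_simp

lemma cosT_pos : 0 < cosT t := by
  have hp := one_sub_sq_pos h0 h1
  unfold cosT
  positivity

lemma cos_sq_add_sin_sq : 1 - sinT t ^ 2 = cosT t ^ 2 := by
  unfold sinT cosT
  field_simp
  ring

lemma arctan_tauOf : Real.arctan (tauOf t) = 2 * Real.arctan t := by
  have h2 : t * t < 1 := by nlinarith
  have := Real.arctan_add h2
  rw [two_mul, this]
  unfold tauOf
  congr 1
  rw [two_mul, sq]

lemma arctan_compl : Real.arctan t + Real.arctan ((1 - t) / (1 + t)) = Real.pi / 4 := by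
  have hp : 0 < 1 + t := by linarith
  have h2 : t * ((1 - t) / (1 + t)) < 1 := by
    rw [mul_div_assoc', div_lt_one hp]
    nlinarith
  rw [Real.arctan_add h2, ← Real.arctan_one]
  congr 1
  have h3 : 1 - t * ((1 - t) / (1 + t)) ≠ 0 := by linarith
  rw [div_eq_one_iff_eq h3]
  field_simp
  ring

lemma Wn_tau_two : Wn 2 (tauOf t) = Real.pi / 2 - 2 * Real.arctan t := by
  rw [Wn_two, arctan_tauOf h0 h1]

lemma Wn_tau_two' : Wn 2 (tauOf t) = 2 * Real.arctan ((1 - t) / (1 + t)) := by
  rw [Wn_tau_two h0 h1]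
  have := arctan_compl h0 h1
  linarith

lemma Wn_tau_three : Wn 3 (tauOf t) = 1 - sinT t := by
  rw [Wn_three, tau_mul_inv_sqrt h0 h1]

lemma Wn_tau_step {m : ℕ} (hm : 2 ≤ m) :
    (m : ℝ) * Wn (m + 2) (tauOf t) =
      ((m : ℝ) - 1) * Wn m (tauOf t) - sinT t * cosT t ^ (m - 1) := by
  rw [Wn_succ_succ hm]
  obtain ⟨k, rfl⟩ : ∃ k, m = k + 1 := ⟨m - 1, by omega⟩
  have e1 := tau_mul_inv_sqrt h0 h1
  have e2 := inv_sqrt_tauOf h0 h1
  simp only [Nat.add_sub_cancel]
  rw [← e1, pow_succ, ← e2]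
  ring

end param

lemma t_sq_bounds (t : ℕ) : val (mD t t) ≤ val t ^ 2 ∧ val t ^ 2 ≤ val (mU t t) := by
  constructor
  · have := val_mD t t
    nlinarith
  · have := val_mU t t
    nlinarith

lemma cosT_le_cUp {t : ℕ} (h : t < fone) : cosT (val t) ≤ val (cUp t) := by
  have h5 := cosT_le (val_nonneg (mD t t)) (t_sq_bounds t).1
  have hle : mD t t ≤ fone := mD_le_fone h.le
  have h6 := val_dC (a := fone - mD t t) (b := fone + mD t t) (by simp [fone])
  rw [val_sub hle, val_add, val_fone] at h6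
  refine h5.trans ?_
  rw [div_le_iff₀ (by have := val_nonneg (mD t t); linarith)]
  exact h6

lemma cLo_le_cosT {t : ℕ} (h : t < fone) : val (cLo t) ≤ cosT (val t) :=
  cL_le_cosT (val_nonneg t) (val_lt_one h).le le_rfl

lemma sinT_le_sUp {t : ℕ} : sinT (val t) ≤ val (sUp t) := by
  have hu := (t_sq_bounds t).1
  have hu0 := val_nonneg (mD t t)
  have h6 := val_dC (a := 2 * t) (b := fone + mD t t) (by simp [fone])
  rw [val_add, val_fone, val_mul_two] at h6
  have hp : 0 < 1 + val (mD t t) := by linarith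
  unfold sinT
  rw [div_le_iff₀ (by positivity)]
  have ht := val_nonneg t
  have hs : 0 ≤ val (sUp t) := val_nonneg _
  have h7 : 2 * val t ≤ val (sUp t) * (1 + val (mD t t)) := h6
  nlinarith

lemma sLo_le_sinT {t : ℕ} : val (sLo t) ≤ sinT (val t) := by
  have hu := (t_sq_bounds t).2
  have h6 := val_dD (2 * t) (fone + mU t t)
  rw [val_add, val_fone, val_mul_two] at h6
  have ht := val_nonneg t
  unfold sinT
  rw [le_div_iff₀ (by positivity)]
  have hs : 0 ≤ val (sLo t) := val_nonneg _
  have h7 : val (sLo t) * (1 + val (mU t t)) ≤ 2 * val t := h6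
  nlinarith

lemma pow_le_powU {x : ℝ} {c : ℕ} (h0 : 0 ≤ x) (h : x ≤ val c) (k : ℕ) :
    x ^ k ≤ val (powU c k) := by
  induction k with
  | zero =>
    change x ^ 0 ≤ val fone
    rw [val_fone, pow_zero]
  | succ k ih =>
    change x ^ (k + 1) ≤ val (mU (powU c k) c)
    refine le_trans ?_ (val_mU _ _)
    rw [pow_succ]
    exact mul_le_mul ih h h0 (val_nonneg _)

lemma powD_le_pow {x : ℝ} {c : ℕ} (h : val c ≤ x) (k : ℕ) :
    val (powD c k) ≤ x ^ k := by
  induction k with
  | zero =>
    change val fone ≤ x ^ 0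
    rw [val_fone, pow_zero]
  | succ k ih =>
    change val (mD (powD c k) c) ≤ x ^ (k + 1)
    refine (val_mD _ _).trans ?_
    rw [pow_succ]
    exact mul_le_mul ih h (val_nonneg _) ((val_nonneg _).trans ih)

/-! ### The arctangent -/

/-- The alternating Horner expression. -/
noncomputable def hornR (y : ℝ) : ℕ → ℕ → ℝ
  | 0, _ => 0
  | N + 1, k => 1 / (2 * (k : ℝ) + 1) - y * hornR y N (k + 1)

lemma hornR_bounds {y : ℝ} (h0 : 0 ≤ y) (h1 : y ≤ 1) (N k : ℕ) :
    0 ≤ hornR y N k ∧ hornR y N k ≤ 1 / (2 * (k : ℝ) + 1) := by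
  induction N generalizing k with
  | zero =>
    simp only [hornR]
    exact ⟨le_rfl, by positivity⟩
  | succ N ih =>
    obtain ⟨h2, h3⟩ := ih (k + 1)
    simp only [hornR]
    constructor
    · have h4 : y * hornR y N (k + 1) ≤ 1 * hornR y N (k + 1) :=
        mul_le_mul_of_nonneg_right h1 h2
      have h5 : (1 : ℝ) / (2 * ((k + 1 : ℕ) : ℝ) + 1) ≤ 1 / (2 * (k : ℝ) + 1) := by
        apply one_div_le_one_div_of_le (by positivity)
        push_cast
        linarith
      linarith
    · have : 0 ≤ y * hornR y N (k + 1) := mul_nonneg h0 h2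
      linarith

lemma series_eq_hornR (N k : ℕ) (y : ℝ) :
    hornR y N k = ∑ j ∈ Finset.range N, (-y) ^ j / (2 * ((k + j : ℕ) : ℝ) + 1) := by
  induction N generalizing k with
  | zero => simp [hornR]
  | succ N ih =>
    rw [Finset.sum_range_succ', hornR, ih, Finset.mul_sum]
    simp only [pow_zero, add_zero]
    rw [sub_eq_add_neg, add_comm, ← Finset.sum_neg_distrib]
    congr 1
    refine Finset.sum_congr rfl fun j _ => ?_
    rw [pow_succ, show k + (j + 1) = k + 1 + j by ring]
    ring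

lemma arctan_series_eq (N : ℕ) (x : ℝ) :
    ∑ j ∈ Finset.range N, (-1 : ℝ) ^ j * x ^ (2 * j + 1) / (2 * j + 1) =
      x * hornR (x ^ 2) N 0 := by
  rw [series_eq_hornR, Finset.mul_sum]
  refine Finset.sum_congr rfl fun j _ => ?_
  simp only [zero_add]
  rw [pow_succ, pow_mul, neg_pow (x ^ 2) j]
  ring

/-- Rational numbers used as the coefficients. -/
lemma inv_bounds (k : ℕ) : val (fone / (2 * k + 1)) ≤ 1 / (2 * (k : ℝ) + 1) ∧
    1 / (2 * (k : ℝ) + 1) ≤ val (fone / (2 * k + 1) + 1) := by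
  have hk : 0 < 2 * k + 1 := by omega
  have hk' : (0 : ℝ) < 2 * (k : ℝ) + 1 := by positivity
  constructor
  · have := val_div_le fone (2 * k + 1) hk
    rw [val_fone] at this
    rw [le_div_iff₀ hk']
    push_cast at this
    exact this
  · have := le_val_div fone (2 * k + 1) hk
    rw [val_fone] at this
    rw [div_le_iff₀ hk']
    push_cast at this
    exact this

/-- Fixed point Horner chain. -/
def hornF (yL yU : ℕ) : Bool → ℕ → ℕ → ℕ
  | _, 0, _ => 0
  | true, N + 1, k => stepU (fone / (2 * k + 1) + 1) yL (hornF yL yU false N (k + 1))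
  | false, N + 1, k => stepL (fone / (2 * k + 1)) yU (hornF yL yU true N (k + 1))

lemma hornF_sound {y : ℝ} {yL yU : ℕ} (h0 : 0 ≤ y) (h1 : y ≤ 1) (hL : val yL ≤ y)
    (hU : y ≤ val yU) (N k : ℕ) :
    hornR y N k ≤ val (hornF yL yU true N k) ∧ val (hornF yL yU false N k) ≤ hornR y N k := by
  induction N generalizing k with
  | zero =>
    simp [hornR, hornF, val_zero]
  | succ N ih =>
    obtain ⟨h2, h3⟩ := ih (k + 1)
    obtain ⟨h4, h5⟩ := hornR_bounds h0 h1 N (k + 1)
    obtain ⟨h6, h7⟩ := inv_bounds k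
    have h8 := (hornR_bounds h0 h1 (N + 1) k).1
    simp only [hornR] at h8
    constructor
    · simp only [hornR, hornF]
      refine le_trans ?_ (val_sub_ge _ _)
      have h9 := val_mD yL (hornF yL yU false N (k + 1))
      have h10 : val yL * val (hornF yL yU false N (k + 1)) ≤ y * hornR y N (k + 1) :=
        mul_le_mul hL h3 (val_nonneg _) h0
      linarith
    · simp only [hornR, hornF]
      refine val_sub_le ?_ h8
      have h9 := val_mU yU (hornF yL yU true N (k + 1))
      have h10 : y * hornR y N (k + 1) ≤ val yU * val (hornF yL yU true N (k + 1)) :=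
        mul_le_mul hU h2 h4 (val_nonneg _)
      linarith

lemma atanU_eq (x : ℕ) : atanU x = mU x (hornF (mD x x) (mU x x) true 11 0) := rfl

lemma atanL_eq (x : ℕ) : atanL x = mD x (hornF (mD x x) (mU x x) false 12 0) := rfl

lemma arctan_le_atanU {x : ℕ} (h : x ≤ fone) : Real.arctan (val x) ≤ val (atanU x) := by
  have hx0 := val_nonneg x
  have hx1 : val x ≤ 1 := by rw [← val_fone]; exact val_le_val h
  obtain ⟨hL, hU⟩ := t_sq_bounds x
  have hs := (hornF_sound (y := val x ^ 2) (by positivity) (by nlinarith) hL hU 11 0).1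
  have h1 := arctan_le_series 5 hx0
  rw [show 2 * 5 + 1 = 11 by norm_num, arctan_series_eq] at h1
  rw [atanU_eq]
  refine h1.trans (le_trans (mul_le_mul_of_nonneg_left hs hx0) (val_mU _ _))

lemma atanL_le_arctan {x : ℕ} (h : x ≤ fone) : val (atanL x) ≤ Real.arctan (val x) := by
  have hx0 := val_nonneg x
  have hx1 : val x ≤ 1 := by rw [← val_fone]; exact val_le_val h
  obtain ⟨hL, hU⟩ := t_sq_bounds x
  have hs := (hornF_sound (y := val x ^ 2) (by positivity) (by nlinarith) hL hU 12 0).2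
  have h1 := series_le_arctan 6 hx0
  rw [show 2 * 6 = 12 by norm_num, arctan_series_eq] at h1
  rw [atanL_eq]
  refine le_trans (val_mD _ _) (le_trans (mul_le_mul_of_nonneg_left hs hx0) h1)

/-! ### Enclosures of `W_n` -/

/-- The pair `p` encloses `x`. -/
def Encl (x : ℝ) (p : ℕ × ℕ) : Prop := val p.1 ≤ x ∧ x ≤ val p.2

lemma pi_half_bounds : val 6746518852 ≤ Real.pi / 2 ∧ Real.pi / 2 ≤ val 6746518853 := by
  have h1 := Real.pi_gt_d20
  have h2 := Real.pi_lt_d20
  unfold val
  push_cast
  constructor <;> norm_num at * <;> linarith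

lemma encl_w2 {t : ℕ} (h : t < fone) : Encl (Wn 2 (tauOf (val t))) (w2Pair t) := by
  have ht0 := val_nonneg t
  have ht1 := val_lt_one h
  have hW0 := Wn_nonneg 2 (tauOf (val t))
  have hsum : (0 : ℝ) < val (fone + t) := by
    rw [val_add, val_fone]; linarith
  cases hb : Nat.ble t 1779033704 with
  | true =>
    have hte : w2Pair t = (Nat.sub 6746518852 (Nat.mul 2 (atanU t)),
        Nat.sub 6746518853 (Nat.mul 2 (atanL t))) := by
      unfold w2Pair
      rw [show Nat.ble t (nat_lit 1779033704) = true from hb]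
      rfl
    rw [hte]
    have hU := arctan_le_atanU h.le
    have hL := atanL_le_arctan h.le
    have hpi := pi_half_bounds
    rw [Wn_tau_two ht0 ht1] at hW0 ⊢
    constructor
    · simp only
      refine val_sub_le ?_ hW0
      rw [val_primMul]
      push_cast
      linarith [hpi.1]
    · simp only
      refine le_trans ?_ (val_sub_ge _ _)
      rw [val_primMul]
      push_cast
      linarith [hpi.2]
  | false =>
    have hte : w2Pair t = (Nat.mul 2 (atanL (dD (fone - t) (fone + t))),
        Nat.mul 2 (atanU (dC (fone - t) (fone + t)))) := by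
      unfold w2Pair
      rw [show Nat.ble t (nat_lit 1779033704) = false from hb]
      rfl
    rw [hte]
    have htpos : 0 < t := by
      by_contra hn
      have : t = 0 := by omega
      subst this
      simp at hb
    set a := fone - t with ha
    set b := fone + t with hb'
    have hab : a ≤ b := by omega
    have hbpos : 0 < b := by omega
    have hbv : 0 < val b := hsum
    have hav : val a = 1 - val t := by rw [ha, val_sub h.le, val_fone]
    have hbv2 : val b = 1 + val t := by rw [hb', val_add, val_fone]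
    have hu : (1 - val t) / (1 + val t) = val a / val b := by rw [hav, hbv2]
    have hdD : dD a b ≤ fone := by
      change a <<< 32 / b ≤ fone
      rw [Nat.shiftLeft_eq]
      apply Nat.div_le_of_le_mul
      have : fone = 2 ^ 32 := by norm_num [fone]
      rw [this]
      exact Nat.mul_le_mul_right _ hab
    have hdC : dC a b ≤ fone := by
      change (a <<< 32 + (b - 1)) / b ≤ fone
      rw [Nat.shiftLeft_eq]
      have hf : fone = 2 ^ 32 := by norm_num [fone]
      have h1 : a * 2 ^ 32 ≤ b * 2 ^ 32 := Nat.mul_le_mul_right _ hab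
      have h2 : a * 2 ^ 32 + (b - 1) < (2 ^ 32 + 1) * b := by
        have : (2 ^ 32 + 1) * b = b * 2 ^ 32 + b := by ring
        omega
      have h3 := Nat.div_lt_of_lt_mul (by rw [mul_comm b]; exact h2 : a * 2 ^ 32 + (b - 1) < b * (2 ^ 32 + 1))
      rw [hf]
      omega
    have h1 : val (dD a b) ≤ (1 - val t) / (1 + val t) := by
      rw [hu, le_div_iff₀ hbv]
      exact val_dD a b
    have h2 : (1 - val t) / (1 + val t) ≤ val (dC a b) := by
      rw [hu, div_le_iff₀ hbv]
      exact val_dC hbpos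
    have h3 := atanL_le_arctan hdD
    have h4 := arctan_le_atanU hdC
    have h5 := Real.arctan_mono h1
    have h6 := Real.arctan_mono h2
    rw [Wn_tau_two' ht0 ht1]
    constructor
    · simp only
      rw [val_primMul]
      push_cast
      linarith
    · simp only
      rw [val_primMul]
      push_cast
      linarith

lemma encl_w3 {t : ℕ} (h : t < fone) : Encl (Wn 3 (tauOf (val t))) (w3Pair t) := by
  have ht0 := val_nonneg t
  have ht1 := val_lt_one h
  have hW0 := Wn_nonneg 3 (tauOf (val t))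
  rw [Wn_tau_three ht0 ht1] at hW0 ⊢
  have h1 : sinT (val t) ≤ val (sUp t) := sinT_le_sUp
  have h2 : val (sLo t) ≤ sinT (val t) := sLo_le_sinT
  constructor
  · refine val_sub_le ?_ hW0
    have : val (nat_lit 4294967296) = 1 := val_fone
    rw [this]
    linarith
  · refine le_trans ?_ (val_sub_ge _ _)
    have : val (nat_lit 4294967296) = 1 := val_fone
    rw [this]
    linarith

lemma encl_step {t m : ℕ} (h : t < fone) (hm : 2 ≤ m) {p : ℕ × ℕ}
    (hp : Encl (Wn m (tauOf (val t))) p) : Encl (Wn (m + 2) (tauOf (val t))) (stepW m t p) := by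
  have ht0 := val_nonneg t
  have ht1 := val_lt_one h
  have hc0 := cosT_pos ht0 ht1
  have hstep := Wn_tau_step ht0 ht1 hm
  have hW0 := Wn_nonneg (m + 2) (tauOf (val t))
  have hmpos : 0 < m := by omega
  have hmR : (0 : ℝ) < m := by exact_mod_cast hmpos
  have hm1 : ((m - 1 : ℕ) : ℝ) = (m : ℝ) - 1 := by
    rw [Nat.cast_sub (by omega)]; simp
  have hm1R : (0 : ℝ) ≤ (m : ℝ) - 1 := by rw [← hm1]; positivity
  have hs1 : sinT (val t) ≤ val (sUp t) := sinT_le_sUp
  have hs2 : val (sLo t) ≤ sinT (val t) := sLo_le_sinT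
  have hc1 := cosT_le_cUp h
  have hc2 := cLo_le_cosT h
  have hs0 : 0 ≤ sinT (val t) := sinT_nonneg ht0
  have hprod1 : sinT (val t) * cosT (val t) ^ (m - 1) ≤
      val (mU (sUp t) (powU (cUp t) (m - 1))) := by
    refine le_trans ?_ (val_mU _ _)
    exact mul_le_mul hs1 (pow_le_powU hc0.le hc1 _) (by positivity) (val_nonneg _)
  have hprod2 : val (mD (sLo t) (powD (cLo t) (m - 1))) ≤
      sinT (val t) * cosT (val t) ^ (m - 1) := by
    refine (val_mD _ _).trans ?_
    exact mul_le_mul hs2 (powD_le_pow hc2 _) (val_nonneg _) hs0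
  constructor
  · have h1 := val_div_le (Nat.sub (Nat.mul (Nat.sub m 1) p.1)
      (mU (sUp t) (powU (cUp t) (Nat.sub m 1)))) m hmpos
    have h2 : val (Nat.sub (Nat.mul (Nat.sub m 1) p.1)
        (mU (sUp t) (powU (cUp t) (Nat.sub m 1)))) ≤ (m : ℝ) * Wn (m + 2) (tauOf (val t)) := by
      refine val_sub_le ?_ (by positivity)
      rw [val_primMul, hstep]
      change ((m - 1 : ℕ) : ℝ) * val p.1 - val (mU (sUp t) (powU (cUp t) (m - 1))) ≤ _
      rw [hm1]
      have := mul_le_mul_of_nonneg_left hp.1 hm1R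
      linarith
    have h3 := h1.trans h2
    change val (Nat.div _ m) ≤ _
    rw [mul_comm (m : ℝ)] at h3
    exact le_of_mul_le_mul_right h3 hmR
  · have h1 := le_val_div (Nat.sub (Nat.mul (Nat.sub m 1) p.2)
      (mD (sLo t) (powD (cLo t) (Nat.sub m 1)))) m hmpos
    have h2 : (m : ℝ) * Wn (m + 2) (tauOf (val t)) ≤ val (Nat.sub (Nat.mul (Nat.sub m 1) p.2)
        (mD (sLo t) (powD (cLo t) (Nat.sub m 1)))) := by
      refine le_trans ?_ (val_sub_ge _ _)
      rw [val_primMul, hstep]
      change _ ≤ ((m - 1 : ℕ) : ℝ) * val p.2 - val (mD (sLo t) (powD (cLo t) (m - 1)))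
      rw [hm1]
      have := mul_le_mul_of_nonneg_left hp.2 hm1R
      linarith
    have h3 := h2.trans h1
    change _ ≤ val (Nat.add (Nat.div _ m) 1)
    rw [mul_comm (m : ℝ)] at h3
    exact le_of_mul_le_mul_right h3 hmR

/-- The enclosures of `W_n`. -/
theorem encl_wnPair {t n : ℕ} (h : t < fone) (h2 : 2 ≤ n) (h8 : n ≤ 8) :
    Encl (Wn n (tauOf (val t))) (wnPair t n) := by
  have e2 := encl_w2 h
  have e3 := encl_w3 h
  have e4 : Encl (Wn 4 (tauOf (val t))) (stepW 2 t (w2Pair t)) := encl_step h (by norm_num) e2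
  have e5 : Encl (Wn 5 (tauOf (val t))) (stepW 3 t (w3Pair t)) := encl_step h (by norm_num) e3
  have e6 : Encl (Wn 6 (tauOf (val t))) (stepW 4 t (stepW 2 t (w2Pair t))) :=
    encl_step h (by norm_num) e4
  have e7 : Encl (Wn 7 (tauOf (val t))) (stepW 5 t (stepW 3 t (w3Pair t))) :=
    encl_step h (by norm_num) e5
  have e8 : Encl (Wn 8 (tauOf (val t))) (stepW 6 t (stepW 4 t (stepW 2 t (w2Pair t)))) :=
    encl_step h (by norm_num) e6
  interval_cases n
  · exact e2
  · exact e3
  · exact e4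
  · exact e5
  · exact e6
  · exact e7
  · exact e8

/-! ### The constants -/

lemma Wn_zero_two : Wn 2 0 = Real.pi / 2 := by
  rw [Wn_two, Real.arctan_zero, sub_zero]

lemma Wn_zero_three : Wn 3 0 = 1 := by
  rw [Wn_three]; simp

lemma Wn_zero_step {m : ℕ} (hm : 2 ≤ m) : (m : ℝ) * Wn (m + 2) 0 = ((m : ℝ) - 1) * Wn m 0 := by
  rw [Wn_succ_succ hm]; simp

lemma Wn_zero_four : Wn 4 0 = Real.pi / 4 := by
  have h := Wn_zero_step (m := 2) le_rfl
  rw [Wn_zero_two] at h
  norm_num at h
  linarith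

lemma Wn_zero_five : Wn 5 0 = 2 / 3 := by
  have h := Wn_zero_step (m := 3) (by norm_num)
  rw [Wn_zero_three] at h
  norm_num at h
  linarith

lemma Wn_zero_six : Wn 6 0 = 3 * Real.pi / 16 := by
  have h := Wn_zero_step (m := 4) (by norm_num)
  rw [Wn_zero_four] at h
  norm_num at h
  linarith

lemma Wn_zero_seven : Wn 7 0 = 8 / 15 := by
  have h := Wn_zero_step (m := 5) (by norm_num)
  rw [Wn_zero_five] at h
  norm_num at h
  linarith

lemma Wn_zero_eight : Wn 8 0 = 5 * Real.pi / 32 := by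
  have h := Wn_zero_step (m := 6) (by norm_num)
  rw [Wn_zero_six] at h
  norm_num at h
  linarith

lemma kap_one : kap 1 = 1 / Real.pi := by
  have h := kap_mul_Wn_zero (m := 1) le_rfl
  rw [show 1 + 1 = 2 by norm_num, Wn_zero_two] at h
  have := Real.pi_pos
  field_simp at h ⊢
  linarith

lemma kap_two : kap 2 = 1 / 2 := by
  have h := kap_mul_Wn_zero (m := 2) (by norm_num)
  rw [show 2 + 1 = 3 by norm_num, Wn_zero_three] at h
  linarith

lemma kap_three : kap 3 = 2 / Real.pi := by
  have h := kap_mul_Wn_zero (m := 3) (by norm_num)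
  rw [show 3 + 1 = 4 by norm_num, Wn_zero_four] at h
  have := Real.pi_pos
  field_simp at h ⊢
  linarith

lemma kap_four : kap 4 = 3 / 4 := by
  have h := kap_mul_Wn_zero (m := 4) (by norm_num)
  rw [show 4 + 1 = 5 by norm_num, Wn_zero_five] at h
  linarith

lemma kap_five : kap 5 = 8 / (3 * Real.pi) := by
  have h := kap_mul_Wn_zero (m := 5) (by norm_num)
  rw [show 5 + 1 = 6 by norm_num, Wn_zero_six] at h
  have := Real.pi_pos
  field_simp at h ⊢
  linarith

lemma kap_six : kap 6 = 15 / 16 := by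
  have h := kap_mul_Wn_zero (m := 6) (by norm_num)
  rw [show 6 + 1 = 7 by norm_num, Wn_zero_seven] at h
  linarith

lemma kap_seven : kap 7 = 16 / (5 * Real.pi) := by
  have h := kap_mul_Wn_zero (m := 7) (by norm_num)
  rw [show 7 + 1 = 8 by norm_num, Wn_zero_eight] at h
  have := Real.pi_pos
  field_simp at h ⊢
  linarith

/-- Comparison of a fixed point number with `c / π`. -/
lemma val_le_div_pi {a : ℕ} {c : ℝ}
    (h : (a : ℝ) / 2 ^ 32 * 3.14159265358979323847 ≤ c) : val a ≤ c / Real.pi := by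
  have h2 := Real.pi_lt_d20
  have h3 := Real.pi_pos
  rw [le_div_iff₀ h3]
  unfold val
  have h4 : (0 : ℝ) ≤ (a : ℝ) / 2 ^ 32 := by positivity
  nlinarith

lemma div_pi_le_val {a : ℕ} {c : ℝ}
    (h : c ≤ (a : ℝ) / 2 ^ 32 * 3.14159265358979323846) : c / Real.pi ≤ val a := by
  have h2 := Real.pi_gt_d20
  have h3 := Real.pi_pos
  rw [div_le_iff₀ h3]
  unfold val
  have h4 : (0 : ℝ) ≤ (a : ℝ) / 2 ^ 32 := by positivity
  nlinarith

/-- The enclosures of `kap`. -/
theorem kap_bounds {n : ℕ} (h1 : 1 ≤ n) (h7 : n ≤ 7) :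
    val (kapL n) ≤ kap n ∧ kap n ≤ val (kapU n) := by
  interval_cases n
  · rw [kap_one]
    exact ⟨val_le_div_pi (by norm_num [kapL]), div_pi_le_val (by norm_num [kapU])⟩
  · rw [kap_two]
    constructor <;> norm_num [kapL, kapU, val]
  · rw [kap_three]
    exact ⟨val_le_div_pi (by norm_num [kapL]), div_pi_le_val (by norm_num [kapU])⟩
  · rw [kap_four]
    constructor <;> norm_num [kapL, kapU, val]
  · rw [kap_five, show (8 : ℝ) / (3 * Real.pi) = (8 / 3) / Real.pi by field_simp]
    exact ⟨val_le_div_pi (by norm_num [kapL]), div_pi_le_val (by norm_num [kapU])⟩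
  · rw [kap_six]
    constructor <;> norm_num [kapL, kapU, val]
  · rw [kap_seven, show (16 : ℝ) / (5 * Real.pi) = (16 / 5) / Real.pi by field_simp]
    exact ⟨val_le_div_pi (by norm_num [kapL]), div_pi_le_val (by norm_num [kapU])⟩

/-- The bounds for the constant of the cap. -/
theorem capC_bounds {m : ℕ} (h1 : 1 ≤ m) (h6 : m ≤ 6) :
    phi0 ^ 2 / kap (m + 1) ≤ val (capC m) := by
  have hpi := Real.pi_pos
  rw [phi0_sq]
  interval_cases m
  · rw [show 1 + 1 = 2 by norm_num, kap_two, show 1 / (2 * Real.pi) / (1 / 2) = 1 / Real.pi by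
      field_simp]
    exact div_pi_le_val (by norm_num [capC])
  · rw [show 2 + 1 = 3 by norm_num, kap_three, show 1 / (2 * Real.pi) / (2 / Real.pi) = 1 / 4 by
      field_simp; norm_num]
    norm_num [capC, val]
  · rw [show 3 + 1 = 4 by norm_num, kap_four,
      show 1 / (2 * Real.pi) / (3 / 4) = (2 / 3) / Real.pi by field_simp; norm_num]
    exact div_pi_le_val (by norm_num [capC])
  · rw [show 4 + 1 = 5 by norm_num, kap_five,
      show 1 / (2 * Real.pi) / (8 / (3 * Real.pi)) = 3 / 16 by field_simp; norm_num]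
    norm_num [capC, val]
  · rw [show 5 + 1 = 6 by norm_num, kap_six,
      show 1 / (2 * Real.pi) / (15 / 16) = (8 / 15) / Real.pi by field_simp; norm_num]
    exact div_pi_le_val (by norm_num [capC])
  · rw [show 6 + 1 = 7 by norm_num, kap_seven,
      show 1 / (2 * Real.pi) / (16 / (5 * Real.pi)) = 5 / 32 by field_simp; norm_num]
    norm_num [capC, val]

/-! ### The soundness of the checks -/

section lineParts

lemma lineOK_decode {n Lam t R A B : ℕ} (h : lineOK n Lam t R A B = true) :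
    t < fone ∧ mU (powU (cUp t) n) R ≤ mD (kapL n) (wnPair t (n + 1)).1 + Lam ∧
      n * mU R (sUp t) ≤ kapL n ∧
      (n + 2) * mU (kapU n) (sUp t) ≤ n * mD R (fone + (n + 1) * mD (sLo t) (sLo t)) ∧
      kapU n - n * mD R (sLo t) ≤ mD B (mD (cLo t) (cLo t)) ∧
      A ≤ R + mD (dD (kapL n - n * mU R (sUp t)) (mU (cUp t) (cUp t))) (sLo t) := by
  unfold lineOK at h
  simp only [Bool.and_eq_true, Nat.blt_eq, Nat.ble_eq] at h
  obtain ⟨⟨⟨⟨⟨h1, h2⟩, h3⟩, h4⟩, h5⟩, h6⟩ := h
  exact ⟨h1, h2, h3, h4, h5, h6⟩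

lemma line_R {n Lam t R : ℕ} (hn1 : 1 ≤ n) (hn7 : n ≤ 7) (h1 : t < fone)
    (h2 : mU (powU (cUp t) n) R ≤ mD (kapL n) (wnPair t (n + 1)).1 + Lam) :
    cosT (val t) ^ n * val R ≤ kap n * Wn (n + 1) (tauOf (val t)) + val Lam := by
  have hc0 := cosT_pos (val_nonneg t) (val_lt_one h1)
  have hcU := cosT_le_cUp h1
  obtain ⟨hkL, -⟩ := kap_bounds hn1 hn7
  have hWL : val (wnPair t (n + 1)).1 ≤ Wn (n + 1) (tauOf (val t)) :=
    (encl_wnPair h1 (by omega) (by omega)).1
  have hκ0 : 0 ≤ kap n := (val_nonneg _).trans hkL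
  have e1 : cosT (val t) ^ n * val R ≤ val (mU (powU (cUp t) n) R) :=
    le_trans (mul_le_mul_of_nonneg_right (pow_le_powU hc0.le hcU n) (val_nonneg R)) (val_mU _ _)
  have e2 : val (mD (kapL n) (wnPair t (n + 1)).1) ≤ kap n * Wn (n + 1) (tauOf (val t)) :=
    (val_mD _ _).trans (mul_le_mul hkL hWL (val_nonneg _) hκ0)
  have e3 := val_le_val h2
  rw [val_add] at e3
  linarith only [e1, e2, e3]

lemma line_x {n t R : ℕ} : (n : ℝ) * val R * sinT (val t) ≤ n * val (mU R (sUp t)) := by
  have e1 : val R * sinT (val t) ≤ val (mU R (sUp t)) :=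
    le_trans (mul_le_mul_of_nonneg_left sinT_le_sUp (val_nonneg R)) (val_mU _ _)
  have := mul_le_mul_of_nonneg_left e1 (Nat.cast_nonneg n : (0 : ℝ) ≤ n)
  linarith only [this]

lemma line_key {n t R : ℕ} (hn1 : 1 ≤ n) (hn7 : n ≤ 7)
    (h4 : (n + 2) * mU (kapU n) (sUp t) ≤ n * mD R (fone + (n + 1) * mD (sLo t) (sLo t))) :
    ((n : ℝ) + 2) * (kap n * sinT (val t)) ≤
      n * (val R * (1 + ((n : ℝ) + 1) * sinT (val t) ^ 2)) := by
  obtain ⟨-, hkU⟩ := kap_bounds hn1 hn7
  have hsU : sinT (val t) ≤ val (sUp t) := sinT_le_sUp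
  have hsL : val (sLo t) ≤ sinT (val t) := sLo_le_sinT
  have hs0 : 0 ≤ sinT (val t) := sinT_nonneg (val_nonneg t)
  have hnR : (0 : ℝ) ≤ n := Nat.cast_nonneg n
  have e1 : ((n : ℝ) + 2) * (kap n * sinT (val t)) ≤ val ((n + 2) * mU (kapU n) (sUp t)) := by
    have e2 : kap n * sinT (val t) ≤ val (mU (kapU n) (sUp t)) :=
      le_trans (mul_le_mul hkU hsU hs0 (val_nonneg _)) (val_mU _ _)
    have e3 : val ((n + 2) * mU (kapU n) (sUp t)) =
        ((n + 2 : ℕ) : ℝ) * val (mU (kapU n) (sUp t)) := val_primMul _ _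
    rw [e3]
    push_cast
    exact mul_le_mul_of_nonneg_left e2 (by positivity)
  have e7 : val (mD (sLo t) (sLo t)) ≤ sinT (val t) ^ 2 := by
    refine (val_mD _ _).trans ?_
    have := val_nonneg (sLo t)
    rw [sq]
    exact mul_le_mul hsL hsL this hs0
  have e4 : val (n * mD R (fone + (n + 1) * mD (sLo t) (sLo t))) ≤
      n * (val R * (1 + ((n : ℝ) + 1) * sinT (val t) ^ 2)) := by
    have e5 : val (n * mD R (fone + (n + 1) * mD (sLo t) (sLo t))) =
        (n : ℝ) * val (mD R (fone + (n + 1) * mD (sLo t) (sLo t))) := val_primMul _ _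
    rw [e5]
    apply mul_le_mul_of_nonneg_left _ hnR
    refine (val_mD _ _).trans (mul_le_mul_of_nonneg_left ?_ (val_nonneg R))
    rw [val_add, val_fone]
    have e6 : val ((n + 1) * mD (sLo t) (sLo t)) =
        ((n + 1 : ℕ) : ℝ) * val (mD (sLo t) (sLo t)) := val_primMul _ _
    rw [e6]
    push_cast
    have e8 := mul_le_mul_of_nonneg_left e7 (by positivity : (0 : ℝ) ≤ (n : ℝ) + 1)
    linarith only [e8]
  have e9 := val_le_val h4
  linarith only [e1, e4, e9]

lemma slope_core {n κ s R D : ℝ} (hs0 : 0 ≤ s) (hD : 0 < D) (hDe : D = 1 - s ^ 2)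
    (key : (n + 2) * (κ * s) ≤ n * (R * (1 + (n + 1) * s ^ 2))) :
    (κ - n * R * s) / D * (1 + (n + 1) * s ^ 2) ≤ κ := by
  rw [div_mul_eq_mul_div, div_le_iff₀ hD, hDe]
  have h := mul_le_mul_of_nonneg_right key hs0
  have e : (κ - n * R * s) * (1 + (n + 1) * s ^ 2) =
      κ * (1 - s ^ 2) + ((n + 2) * (κ * s) * s - n * (R * (1 + (n + 1) * s ^ 2)) * s) := by ring
  rw [e]
  linarith only [h]

lemma line_B {n t R B : ℕ} (hn1 : 1 ≤ n) (hn7 : n ≤ 7) (h1 : t < fone)
    (h5 : kapU n - n * mD R (sLo t) ≤ mD B (mD (cLo t) (cLo t))) :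
    kap n - n * val R * sinT (val t) ≤ val B * cosT (val t) ^ 2 := by
  obtain ⟨-, hkU⟩ := kap_bounds hn1 hn7
  have hc0 := cosT_pos (val_nonneg t) (val_lt_one h1)
  have hcL := cLo_le_cosT h1
  have hsL : val (sLo t) ≤ sinT (val t) := sLo_le_sinT
  have hnR : (0 : ℝ) ≤ n := Nat.cast_nonneg n
  have e1 : val (mD B (mD (cLo t) (cLo t))) ≤ val B * cosT (val t) ^ 2 := by
    refine (val_mD _ _).trans (mul_le_mul_of_nonneg_left ?_ (val_nonneg _))
    refine (val_mD _ _).trans ?_
    rw [sq]
    exact mul_le_mul hcL hcL (val_nonneg _) hc0.le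
  have e2 := val_le_val h5
  have e3' : val (kapU n) - val (n * mD R (sLo t)) ≤ val (kapU n - n * mD R (sLo t)) :=
    val_sub_ge (kapU n) (n * mD R (sLo t))
  have e4 : val (n * mD R (sLo t)) = (n : ℝ) * val (mD R (sLo t)) := val_primMul _ _
  have e5 : val (mD R (sLo t)) ≤ val R * sinT (val t) :=
    (val_mD _ _).trans (mul_le_mul_of_nonneg_left hsL (val_nonneg R))
  have e6 := mul_le_mul_of_nonneg_left e5 hnR
  rw [e4] at e3'
  have e7 : (n : ℝ) * (val R * sinT (val t)) = n * val R * sinT (val t) := by ring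
  rw [e7] at e6
  linarith only [e1, e2, e3', e6, hkU]

lemma line_b0 {n t R : ℕ} (hn1 : 1 ≤ n) (hn7 : n ≤ 7) (h1 : t < fone)
    (h3 : n * mU R (sUp t) ≤ kapL n) :
    val (dD (kapL n - n * mU R (sUp t)) (mU (cUp t) (cUp t))) * cosT (val t) ^ 2 ≤
      kap n - n * val R * sinT (val t) := by
  obtain ⟨hkL, -⟩ := kap_bounds hn1 hn7
  have hc0 := cosT_pos (val_nonneg t) (val_lt_one h1)
  have hcU := cosT_le_cUp h1
  have hxval : val (n * mU R (sUp t)) = n * val (mU R (sUp t)) := val_primMul n _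
  have e2 : val (dD (kapL n - n * mU R (sUp t)) (mU (cUp t) (cUp t))) * val (mU (cUp t) (cUp t)) ≤
      val (kapL n - n * mU R (sUp t)) := val_dD _ _
  rw [val_sub h3, hxval] at e2
  have e3 : cosT (val t) ^ 2 ≤ val (mU (cUp t) (cUp t)) := by
    refine le_trans ?_ (val_mU _ _)
    rw [sq]
    exact mul_le_mul hcU hcU hc0.le (val_nonneg _)
  have e4 := mul_le_mul_of_nonneg_left e3
    (val_nonneg (dD (kapL n - n * mU R (sUp t)) (mU (cUp t) (cUp t))))
  have e5 := line_x (n := n) (t := t) (R := R)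
  linarith only [e2, e4, e5, hkL]

end lineParts

/-- **Soundness of the line check.** -/
theorem lineOK_sound {n Lam t R A B : ℕ} (hn1 : 1 ≤ n) (hn7 : n ≤ 7)
    (h : lineOK n Lam t R A B = true) : LineValid n (val Lam) (val A) (val B) := by
  obtain ⟨h1, h2, h3, h4, h5, h6⟩ := lineOK_decode h
  have ht0 := val_nonneg t
  have ht1 := val_lt_one h1
  have hτ0 : 0 ≤ tauOf (val t) := tauOf_nonneg ht0 ht1
  have hc0 : 0 < cosT (val t) := cosT_pos ht0 ht1
  have hs0 : 0 ≤ sinT (val t) := sinT_nonneg ht0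
  have hinv := inv_sqrt_tauOf ht0 ht1
  have htinv := tau_mul_inv_sqrt ht0 ht1
  have hcs : 1 - sinT (val t) ^ 2 = cosT (val t) ^ 2 := cos_sq_add_sin_sq ht0 ht1
  have hRok := line_R hn1 hn7 h1 h2
  have hc2 : 0 < 1 - sinT (val t) ^ 2 := by rw [hcs]; positivity
  have hxle : (n : ℝ) * val (mU R (sUp t)) ≤ val (kapL n) := by
    have hxval : val (n * mU R (sUp t)) = n * val (mU R (sUp t)) := val_primMul n _
    rw [← hxval]; exact val_le_val h3
  obtain ⟨hkL, -⟩ := kap_bounds hn1 hn7
  have hx := line_x (n := n) (t := t) (R := R)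
  have hB00 : 0 ≤ (kap n - n * val R * sinT (val t)) / (1 - sinT (val t) ^ 2) := by
    apply div_nonneg _ hc2.le
    linarith only [hx, hxle, hkL]
  have hBeq : (kap n - n * val R * sinT (val t)) / (1 - sinT (val t) ^ 2) *
      (1 - sinT (val t) ^ 2) = kap n - n * val R * sinT (val t) :=
    div_mul_cancel₀ _ hc2.ne'
  have hB2 := slope_core (n := n) (κ := kap n) (R := val R) hs0 hc2 rfl (line_key hn1 hn7 h4)
  have hline : LineValid n (val Lam) (val R + (kap n - n * val R * sinT (val t)) /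
      (1 - sinT (val t) ^ 2) * sinT (val t))
      ((kap n - n * val R * sinT (val t)) / (1 - sinT (val t) ^ 2)) := by
    have := lineValid_of_tangent (m := n) (Λ := val Lam) (τ₀ := tauOf (val t)) (R₀ := val R)
      (B := (kap n - n * val R * sinT (val t)) / (1 - sinT (val t) ^ 2)) hn1
      (val_nonneg _) hτ0 (by rw [hinv]; exact hRok) hB00
      (by rw [htinv]; exact hBeq) (by rw [htinv]; exact hB2)
    rwa [htinv] at this
  refine hline.mono ?_ ?_
  · have e1 : val (dD (kapL n - n * mU R (sUp t)) (mU (cUp t) (cUp t))) ≤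
        (kap n - n * val R * sinT (val t)) / (1 - sinT (val t) ^ 2) := by
      rw [le_div_iff₀ hc2, hcs]
      exact line_b0 hn1 hn7 h1 h3
    have hsL : val (sLo t) ≤ sinT (val t) := sLo_le_sinT
    have e5 := (val_mD (dD (kapL n - n * mU R (sUp t)) (mU (cUp t) (cUp t))) (sLo t)).trans
      (mul_le_mul e1 hsL (val_nonneg _) hB00)
    have e6 := val_le_val h6
    rw [val_add] at e6
    linarith only [e5, e6]
  · rw [div_le_iff₀ hc2, hcs]
    exact line_B hn1 hn7 h1 h5

/-- **Soundness of the cap check.** -/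
theorem capOK_sound {m t hU eU : ℕ} (hm1 : 1 ≤ m) (hm6 : m ≤ 6)
    (h : capOK m t hU eU = true) : CapValid m (val hU) (val eU) := by
  have h' : t < fone ∧ sUp t ≤ hU ∧ mU (capC m) (powU (cUp t) m) ≤
      eU + mD (sLo t) (mD (kapL m) (wnPair t (m + 1)).1) := by
    unfold capOK at h
    simp only [Bool.and_eq_true, Nat.blt_eq, Nat.ble_eq] at h
    obtain ⟨⟨h1, h2⟩, h3⟩ := h
    exact ⟨h1, h2, h3⟩
  obtain ⟨h1, h2, h3⟩ := h'
  have ht0 := val_nonneg t
  have ht1 := val_lt_one h1
  have hc0 := cosT_pos ht0 ht1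
  have hs0 := sinT_nonneg ht0
  have hcU := cosT_le_cUp h1
  have hsU : sinT (val t) ≤ val (sUp t) := sinT_le_sUp
  have hsL : val (sLo t) ≤ sinT (val t) := sLo_le_sinT
  refine ⟨tauOf (val t), tauOf_nonneg ht0 ht1, ?_, ?_⟩
  · rw [tau_mul_inv_sqrt ht0 ht1]
    exact hsU.trans (val_le_val h2)
  · rw [tau_mul_inv_sqrt ht0 ht1, inv_sqrt_tauOf ht0 ht1]
    have hC := capC_bounds hm1 hm6
    obtain ⟨hkL, -⟩ := kap_bounds hm1 (by omega)
    have hκ0 : 0 ≤ kap m := (val_nonneg _).trans hkL
    have hWL : val (wnPair t (m + 1)).1 ≤ Wn (m + 1) (tauOf (val t)) :=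
      (encl_wnPair h1 (by omega) (by omega)).1
    have e1 : phi0 ^ 2 * cosT (val t) ^ m / kap (m + 1) ≤ val (mU (capC m) (powU (cUp t) m)) := by
      have e2 : phi0 ^ 2 * cosT (val t) ^ m / kap (m + 1) =
          (phi0 ^ 2 / kap (m + 1)) * cosT (val t) ^ m := by ring
      rw [e2]
      refine le_trans ?_ (val_mU _ _)
      exact mul_le_mul hC (pow_le_powU hc0.le hcU m) (by positivity) (val_nonneg _)
    have e3 : val (mD (sLo t) (mD (kapL m) (wnPair t (m + 1)).1)) ≤
        sinT (val t) * (kap m * Wn (m + 1) (tauOf (val t))) := by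
      refine (val_mD _ _).trans (mul_le_mul hsL ?_ (val_nonneg _) hs0)
      exact (val_mD _ _).trans (mul_le_mul hkL hWL (val_nonneg _) hκ0)
    have e4 := val_le_val h3
    rw [val_add] at e4
    linarith

/-! ### Tests -/

example : lineOK 2 0 33554432 2114447422 2146975427 2081919423 = true := by decide +kernel
example : lineOK 2 0 536870912 1723289345 2063692178 1382886519 = true := by decide +kernel
example : lineOK 2 0 2147483648 1193046468 1723289351 662803613 = true := by decide +kernel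
example : lineOK 2 12884902 33554432 2127335470 2159857181 2081516599 = true := by decide +kernel
example : lineOK 2 12884902 536870912 1737005321 2075638796 1375698503 = true := by decide +kernel
example : lineOK 2 12884902 2147483648 1228837862 1631822456 503730751 = true := by decide +kernel
example : lineOK 5 0 33554432 2091806648 2146227065 3483119328 = true := by decide +kernel
example : lineOK 5 0 536870912 1493010916 1966796440 1924753713 = true := by decide +kernel
example : lineOK 5 0 2147483648 849201630 1402257060 691319321 = true := by decide +kernel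
example : lineOK 5 12884902 33554432 2104699417 2159104094 3482111892 = true := by decide +kernel
example : lineOK 5 12884902 536870912 1508075084 1977002424 1905017337 = true := by decide +kernel
example : lineOK 5 12884902 2147483648 911420365 911420373 42 = true := by decide +kernel
example : lineOK 7 0 33554432 2080922563 2145734909 4148243392 = true := by decide +kernel
example : lineOK 7 0 536870912 1398253809 1913280172 2092294624 = true := by decide +kernel
example : lineOK 7 0 2147483648 738590525 1269059004 663085643 = true := by decide +kernel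
example : lineOK 7 12884902 33554432 2093818480 2158608785 4146832646 = true := by decide +kernel
example : lineOK 7 12884902 536870912 1414289614 1922075825 2062881508 = true := by decide +kernel
example : lineOK 7 12884902 2147483648 781217457 781217458 26 = true := by decide +kernel
example : capOK 1 0 0 1367130553 = true := by decide +kernel
example : capOK 1 33554432 67104769 1333745038 = true := by decide +kernel
example : capOK 1 536870912 1057222720 880150630 = true := by decide +kernel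
example : capOK 1 2147483648 3435973837 116478313 = true := by decide +kernel
example : capOK 6 0 0 671088641 = true := by decide +kernel
example : capOK 6 33554432 67104769 638027678 = true := by decide +kernel
example : capOK 6 536870912 1057222720 262030573 = true := by decide +kernel
example : capOK 6 2147483648 3435973837 1898378 = true := by decide +kernel

end Vale.Agent.P226
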