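import Vale.Agent.P226.KFinal
import Vale.Agent.P226.LineTab

/-!
# Validity of the tables of lines and caps from a check by evaluation
-/

namespace Vale.Agent.P226

/-- The check of all the lines of a packed table, with their parameters given by a list. -/
noncomputable def kLinesAll (n T : ℕ) : ℕ → List (ℕ × ℕ) → Bool
  | _, [] => true
  | i, p :: l =>
    lineOK n (nat_lit 0) p.1 p.2 (kGet T (Nat.mul 2 i)) (kGet T (Nat.add (Nat.mul 2 i) 1)) &&
      kLinesAll n T (Nat.add i 1) l

/-- The check of all the caps of a packed table, with their parameters given by a list. -/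
noncomputable def kCapsAll (m T : ℕ) : ℕ → List ℕ → Bool
  | _, [] => true
  | i, t :: l =>
    capOK m t (kGet T (Nat.mul 3 i)) (kGet T (Nat.add (Nat.mul 3 i) 1)) &&
      kCapsAll m T (Nat.add i 1) l

lemma kLinesAll_sound {n T : ℕ} (hn1 : 1 ≤ n) (hn7 : n ≤ 7) :
    ∀ (l : List (ℕ × ℕ)) (i0 : ℕ), kLinesAll n T i0 l = true → ∀ i, i0 ≤ i → i < i0 + l.length →
      LineValid n 0 (val (kGet T (Nat.mul 2 i))) (val (kGet T (Nat.add (Nat.mul 2 i) 1))) := by
  intro l
  induction l with
  | nil =>
    intro i0 _ i h1 h2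
    simp at h2
    omega
  | cons p l ih =>
    intro i0 h i h1 h2
    simp only [kLinesAll, Bool.and_eq_true] at h
    rcases Nat.eq_or_lt_of_le h1 with rfl | h3
    · have := lineOK_sound hn1 hn7 h.1
      simpa [val] using this
    · refine ih (Nat.add i0 1) h.2 i h3 ?_
      simp only [List.length_cons] at h2
      change i < i0 + 1 + l.length
      omega

lemma kCapsAll_sound {m T : ℕ} (hm1 : 1 ≤ m) (hm6 : m ≤ 6) :
    ∀ (l : List ℕ) (i0 : ℕ), kCapsAll m T i0 l = true → ∀ i, i0 ≤ i → i < i0 + l.length →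
      CapValid m (val (kGet T (Nat.mul 3 i))) (val (kGet T (Nat.add (Nat.mul 3 i) 1))) := by
  intro l
  induction l with
  | nil =>
    intro i0 _ i h1 h2
    simp at h2
    omega
  | cons p l ih =>
    intro i0 h i h1 h2
    simp only [kCapsAll, Bool.and_eq_true] at h
    rcases Nat.eq_or_lt_of_le h1 with rfl | h3
    · exact capOK_sound hm1 hm6 h.1
    · refine ih (Nat.add i0 1) h.2 i h3 ?_
      simp only [List.length_cons] at h2
      change i < i0 + 1 + l.length
      omega

/-- The tables are valid if they pass the check. -/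
theorem tabOK_of_checks {m TL NL TC NC : ℕ} {lp : List (ℕ × ℕ)} {cp : List ℕ} (hm1 : 1 ≤ m)
    (hm6 : m ≤ 6) (hNL : lp.length = NL) (hNC : cp.length = NC) (h0L : 0 < NL) (h0C : 0 < NC)
    (hL : kLinesAll (m + 1) TL 0 lp = true) (hC : kCapsAll m TC 0 cp = true) :
    TabOK m TL NL TC NC where
  hNL := h0L
  hNC := h0C
  line := fun i hi => kLinesAll_sound (by omega) (by omega) lp 0 hL i (Nat.zero_le _) (by omega)
  cap := fun i hi => kCapsAll_sound hm1 hm6 cp 0 hC i (Nat.zero_le _) (by omega)

end Vale.Agent.P226
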