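import Vale.Agent.P226.Balance

/-!
# The entropy bound for the moment `M_i`
-/

open MeasureTheory ProbabilityTheory Set Filter Topology

namespace Vale.Agent.P226

variable {d k : ℕ}

/-- Exponential moment of a unit coordinate. -/
lemma integral_exp_inner (w : Euc d) (hw : ‖w‖ = 1) (t : ℝ) :
    ∫ x, Real.exp (t * inner ℝ x w) ∂(stdGaussian (Euc d)) = Real.exp (t ^ 2 / 2) := by
  have hm : Measurable (fun s : ℝ => Real.exp (t * s)) := by fun_prop
  rw [integral_comp_inner w hw (h := fun s => Real.exp (t * s)) hm.aestronglyMeasurable]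
  have := congrFun (mgf_id_gaussianReal (μ := 0) (v := 1)) t
  simp only [mgf, id, NNReal.coe_one, zero_mul, zero_add, one_mul] at this
  exact this

lemma integrable_exp_inner (w : Euc d) (hw : ‖w‖ = 1) (t : ℝ) :
    Integrable (fun x : Euc d => Real.exp (t * inner ℝ x w)) (stdGaussian (Euc d)) :=
  integrable_comp_inner w hw (h := fun s => Real.exp (t * s)) (integrable_exp_g1 t)

/-- Entropy (tilting) bound: if `0 ≤ H ≤ D` on a region, with mass `p`, then the mean of a unit
coordinate against `H` is at most `p (log(D/p)/λ + λ/2)`. -/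
theorem entropy_bound (w : Euc d) (hw : ‖w‖ = 1) (R : Set (Euc d)) (hR : MeasurableSet R)
    (H : Euc d → ℝ) (hHm : Measurable H) (D : ℝ) (hD : 0 < D) (hH0 : ∀ x, 0 ≤ H x)
    (hHD : ∀ x, H x ≤ D) (p : ℝ) (hp : p = ∫ x in R, H x ∂(stdGaussian (Euc d))) (hppos : 0 < p)
    (lam : ℝ) :
    lam * ∫ x in R, inner ℝ x w * H x ∂(stdGaussian (Euc d)) ≤
      p * (Real.log (D / p) + lam ^ 2 / 2) := by
  set A := D * Real.exp (lam ^ 2 / 2) / p with hA
  have hApos : 0 < A := by positivity
  -- pointwise
  have hpt : ∀ x, lam * (inner ℝ x w * H x) ≤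
      (Real.log A - 1) * H x + (D / A) * Real.exp (lam * inner ℝ x w) := by
    intro x
    set y := lam * inner ℝ x w with hy
    have h1 : y ≤ Real.log A - 1 + Real.exp y / A := by
      have := Real.add_one_le_exp (y - Real.log A)
      rw [Real.exp_sub, Real.exp_log hApos] at this
      linarith
    have h2 : y * H x ≤ (Real.log A - 1) * H x + (Real.exp y / A) * H x := by
      have := mul_le_mul_of_nonneg_right h1 (hH0 x)
      linarith
    have h3 : (Real.exp y / A) * H x ≤ (D / A) * Real.exp y := by
      have : 0 ≤ Real.exp y / A := by positivity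
      calc Real.exp y / A * H x ≤ Real.exp y / A * D := mul_le_mul_of_nonneg_left (hHD x) this
        _ = _ := by ring
    have h4 : lam * (inner ℝ x w * H x) = y * H x := by rw [hy]; ring
    linarith
  have hIH : Integrable H (stdGaussian (Euc d)) := by
    refine Integrable.of_bound hHm.aestronglyMeasurable D ?_
    filter_upwards with x
    rw [Real.norm_eq_abs, abs_of_nonneg (hH0 x)]
    exact hHD x
  have hI1 : Integrable (fun x => inner ℝ x w * H x) (stdGaussian (Euc d)) := by
    refine (integrable_inner w).mul_bdd (c := D) hHm.aestronglyMeasurable ?_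
    filter_upwards with x
    rw [Real.norm_eq_abs, abs_of_nonneg (hH0 x)]
    exact hHD x
  have hIexp := integrable_exp_inner w hw lam
  have hint := setIntegral_mono_on (s := R) (μ := stdGaussian (Euc d))
    (hI1.const_mul lam).integrableOn
    (((hIH.const_mul (Real.log A - 1)).add (hIexp.const_mul (D / A))).integrableOn)
    hR (fun x _ => hpt x)
  rw [integral_const_mul] at hint
  have hadd : ∫ x in R, ((Real.log A - 1) * H x + (D / A) * Real.exp (lam * inner ℝ x w))
      ∂(stdGaussian (Euc d)) = (Real.log A - 1) * p +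
        (D / A) * ∫ x in R, Real.exp (lam * inner ℝ x w) ∂(stdGaussian (Euc d)) := by
    rw [integral_add (hIH.const_mul _).integrableOn (hIexp.const_mul _).integrableOn,
      integral_const_mul, integral_const_mul, ← hp]
  have hexp_le : ∫ x in R, Real.exp (lam * inner ℝ x w) ∂(stdGaussian (Euc d)) ≤
      Real.exp (lam ^ 2 / 2) := by
    rw [← integral_exp_inner w hw lam]
    exact setIntegral_le_integral hIexp (Eventually.of_forall fun x => (Real.exp_pos _).le)
  have hDA : (D / A) * Real.exp (lam ^ 2 / 2) = p := by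
    rw [hA]
    have := Real.exp_pos (lam ^ 2 / 2)
    field_simp
  have hfinal : lam * ∫ x in R, inner ℝ x w * H x ∂(stdGaussian (Euc d)) ≤
      (Real.log A - 1) * p + p := by
    refine hint.trans ?_
    simp only [Pi.add_apply] at *
    rw [hadd]
    have : (D / A) * ∫ x in R, Real.exp (lam * inner ℝ x w) ∂(stdGaussian (Euc d)) ≤ p := by
      rw [← hDA]
      exact mul_le_mul_of_nonneg_left hexp_le (by positivity)
    linarith
  have hlogA : Real.log A = Real.log (D / p) + lam ^ 2 / 2 := by
    rw [hA, show D * Real.exp (lam ^ 2 / 2) / p = (D / p) * Real.exp (lam ^ 2 / 2) by ring,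
      Real.log_mul (by positivity) (by positivity), Real.log_exp]
  rw [hlogA] at hfinal
  nlinarith

section
variable {Z : Fin k → Euc d} {i : Fin k} (hZ : ObtuseFP Z) (hne : (Finset.univ.erase i).Nonempty)
include hZ

/-- The moment decomposed along the regions. -/
lemma cellM_eq_sum : cellM Z i hne = ∑ l, ∫ x in regionR Z i hne l,
    inner ℝ x (cv Z i l) * phi (zeta Z i hne x) ∂(stdGaussian (Euc d)) := by
  unfold cellM
  rw [← sum_setIntegral_partition (isMeasPartition_regionR hne) (integrable_mul_phi_zeta hne)]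
  refine Finset.sum_congr rfl fun l _ => ?_
  refine setIntegral_congr_fun (measurableSet_regionR hne l) fun x hx => ?_
  rw [hx.2.1]

/-- The main moment bound: if `log(φ(0) / p_l) ≤ lam^2 / 2` for all facets, then
`M_i ≤ (lam / k) ∑_{l ≠ i} |z_l|`. -/
theorem cellM_le [NeZero k] (lam : ℝ) (hlam : 0 < lam)
    (hL : ∀ l, l ≠ i → Real.log (phi0 / (cb Z i l / k)) ≤ lam ^ 2 / 2) :
    cellM Z i hne ≤ lam / k * ∑ l ∈ Finset.univ.erase i, ‖Z l‖ := by
  have hk : (0 : ℝ) < k := by
    have : 0 < k := Nat.pos_of_ne_zero (NeZero.ne k)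
    exact_mod_cast this
  have hzm := measurable_zeta (Z := Z) hne
  rw [cellM_eq_sum hZ hne, ← Finset.add_sum_erase _ _ (Finset.mem_univ i)]
  have hself : regionR Z i hne i = ∅ := by
    ext x; simp [regionR]
  rw [hself]
  simp only [Measure.restrict_empty, integral_zero_measure, zero_add]
  rw [Finset.mul_sum]
  refine Finset.sum_le_sum fun l hl => ?_
  have hl' : l ≠ i := (Finset.mem_erase.1 hl).1
  have hb := cb_pos hZ hl'
  set v := cv Z i l with hv
  have hpeq := facetP_eq hZ hne hl'
  have hbound : cb Z i l * ‖v‖ ≤ ‖Z l‖ := norm_cb_smul_cv_le hZ hl'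
  by_cases hv0 : v = 0
  · rw [hv0]
    simp only [inner_zero_right, zero_mul, integral_zero]
    positivity
  · have hvpos : 0 < ‖v‖ := norm_pos_iff.2 hv0
    set w := (‖v‖)⁻¹ • v with hw
    have hwn : ‖w‖ = 1 := by
      rw [hw, norm_smul, norm_inv, norm_norm]
      field_simp
    have hvw : ∀ x, inner ℝ x v = ‖v‖ * inner ℝ x w := by
      intro x
      rw [hw, real_inner_smul_right, ← mul_assoc, mul_inv_cancel₀ hvpos.ne', one_mul]
    have hppos : 0 < facetP Z i hne l := by rw [hpeq]; positivity
    have hent := entropy_bound w hwn (regionR Z i hne l) (measurableSet_regionR hne l)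
      (fun x => phi (zeta Z i hne x)) (measurable_phi.comp hzm) phi0 phi0_pos
      (fun x => (phi_pos _).le) (fun x => phi_le_phi0 _) (facetP Z i hne l) rfl hppos lam
    have hlog : Real.log (phi0 / facetP Z i hne l) ≤ lam ^ 2 / 2 := by
      rw [hpeq]; exact hL l hl'
    have h1 : lam * ∫ x in regionR Z i hne l, inner ℝ x w * phi (zeta Z i hne x)
        ∂(stdGaussian (Euc d)) ≤ facetP Z i hne l * lam ^ 2 := by
      refine hent.trans ?_
      have : Real.log (phi0 / facetP Z i hne l) + lam ^ 2 / 2 ≤ lam ^ 2 := by linarith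
      exact mul_le_mul_of_nonneg_left this hppos.le
    have h2 : ∫ x in regionR Z i hne l, inner ℝ x w * phi (zeta Z i hne x)
        ∂(stdGaussian (Euc d)) ≤ facetP Z i hne l * lam := by
      have : lam * ∫ x in regionR Z i hne l, inner ℝ x w * phi (zeta Z i hne x)
          ∂(stdGaussian (Euc d)) ≤ lam * (facetP Z i hne l * lam) := by
        calc _ ≤ facetP Z i hne l * lam ^ 2 := h1
          _ = _ := by ring
      exact le_of_mul_le_mul_left this hlam
    have h3 : ∫ x in regionR Z i hne l, inner ℝ x v * phi (zeta Z i hne x)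
        ∂(stdGaussian (Euc d)) = ‖v‖ * ∫ x in regionR Z i hne l,
          inner ℝ x w * phi (zeta Z i hne x) ∂(stdGaussian (Euc d)) := by
      rw [← integral_const_mul]
      congr 1
      funext x
      rw [hvw x]
      ring
    rw [h3]
    calc ‖v‖ * ∫ x in regionR Z i hne l, inner ℝ x w * phi (zeta Z i hne x) ∂(stdGaussian (Euc d))
        ≤ ‖v‖ * (facetP Z i hne l * lam) := mul_le_mul_of_nonneg_left h2 hvpos.le
      _ = lam / k * (cb Z i l * ‖v‖) := by rw [hpeq]; field_simp
      _ ≤ lam / k * ‖Z l‖ := mul_le_mul_of_nonneg_left hbound (by positivity)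

end

end Vale.Agent.P226
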