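import Vale.Agent.P226.Tables

/-!
# The outer layer of the certificate

The certificate shows, for each cell with `x = |z_i|` and each value of `S = ∑ |z_j|`, a lower bound
`μ x + (L0 - L1 S) x² - e0` for the Gaussian mass of the cell.  The plane of the `(x, S)` is cut in
rectangles, on each of which one of three elementary arguments applies.
-/

namespace Vale.Agent.P226

/-- A nonnegative affine function. -/
lemma lin_nonneg {a b u v w : ℝ} (hu : u ≤ w) (hv : w ≤ v) (h1 : 0 ≤ a + b * u)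
    (h2 : 0 ≤ a + b * v) : 0 ≤ a + b * w := by
  rcases le_total 0 b with hb | hb
  · have := mul_le_mul_of_nonneg_left hu hb
    linarith
  · have := mul_le_mul_of_nonpos_left hv hb
    linarith

/-- A concave quadratic is nonnegative between two points where it is. -/
lemma quad_nonneg {a b c u v w : ℝ} (hc : c ≤ 0) (hu : u ≤ w) (hv : w ≤ v)
    (h1 : 0 ≤ a + b * u + c * u ^ 2) (h2 : 0 ≤ a + b * v + c * v ^ 2) :
    0 ≤ a + b * w + c * w ^ 2 := by
  rcases eq_or_lt_of_le (hu.trans hv) with huv | huv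
  · have h3 : w = u := le_antisymm (by linarith) hu
    rw [h3]; exact h1
  · have hpos : 0 < v - u := by linarith
    have hid : (v - u) * (a + b * w + c * w ^ 2) =
        (v - w) * (a + b * u + c * u ^ 2) + (w - u) * (a + b * v + c * v ^ 2) +
          (-c) * ((w - u) * (v - w) * (v - u)) := by ring
    have h3 : 0 ≤ (v - w) * (a + b * u + c * u ^ 2) := mul_nonneg (by linarith) h1
    have h4 : 0 ≤ (w - u) * (a + b * v + c * v ^ 2) := mul_nonneg (by linarith) h2
    have h5 : 0 ≤ (-c) * ((w - u) * (v - w) * (v - u)) := by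
      apply mul_nonneg (by linarith)
      apply mul_nonneg (mul_nonneg (by linarith) (by linarith)) hpos.le
    have h6 : 0 ≤ (v - u) * (a + b * w + c * w ^ 2) := by
      rw [hid]; linarith
    exact nonneg_of_mul_nonneg_right h6 hpos

/-- A function of the form `c0 + c1 x + c2 S + c3 x² + c4 S x²` that is concave in `x` on a
rectangle is nonnegative on it when it is at the corners. -/
lemma rect_nonneg {c0 c1 c2 c3 c4 x1 x2 S1 S2 x S : ℝ} (hx1 : x1 ≤ x) (hx2 : x ≤ x2)
    (hS1 : S1 ≤ S) (hS2 : S ≤ S2) (hc : c3 + c4 * S ≤ 0)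
    (h11 : 0 ≤ c0 + c1 * x1 + c2 * S1 + c3 * x1 ^ 2 + c4 * S1 * x1 ^ 2)
    (h12 : 0 ≤ c0 + c1 * x1 + c2 * S2 + c3 * x1 ^ 2 + c4 * S2 * x1 ^ 2)
    (h21 : 0 ≤ c0 + c1 * x2 + c2 * S1 + c3 * x2 ^ 2 + c4 * S1 * x2 ^ 2)
    (h22 : 0 ≤ c0 + c1 * x2 + c2 * S2 + c3 * x2 ^ 2 + c4 * S2 * x2 ^ 2) :
    0 ≤ c0 + c1 * x + c2 * S + c3 * x ^ 2 + c4 * S * x ^ 2 := by
  have hS : ∀ u : ℝ, 0 ≤ c0 + c1 * u + c2 * S1 + c3 * u ^ 2 + c4 * S1 * u ^ 2 →
      0 ≤ c0 + c1 * u + c2 * S2 + c3 * u ^ 2 + c4 * S2 * u ^ 2 →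
      0 ≤ c0 + c1 * u + c2 * S + c3 * u ^ 2 + c4 * S * u ^ 2 := by
    intro u h1 h2
    have := lin_nonneg (a := c0 + c1 * u + c3 * u ^ 2) (b := c2 + c4 * u ^ 2) hS1 hS2
      (by linarith) (by linarith)
    linarith
  have h1 := hS x1 h11 h12
  have h2 := hS x2 h21 h22
  have := quad_nonneg (a := c0 + c2 * S) (b := c1) (c := c3 + c4 * S) hc hx1 hx2
    (by linarith) (by linarith)
  linarith

/-- The global constants of the outer layer. -/
structure OuterData where
  mu : ℕ
  L0 : ℕ
  L1 : ℕ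
  e0 : ℕ
  F0 : ℕ
  Kc : ℕ
  phiU : ℕ

/-- The three kinds of rectangles; the last two refer to an entry of a table. -/
inductive RectKind
  | inf
  | iso (i : ℕ)
  | tan (i : ℕ)

/-- The target of the cell inequality. -/
noncomputable def target (o : OuterData) (x S : ℝ) : ℝ :=
  val o.mu * x + (val o.L0 - val o.L1 * S) * x ^ 2 - val o.e0

/-- Corner test for an infeasible rectangle. -/
def infCorner (o : OuterData) (x S : ℕ) : Bool :=
  Nat.ble (mulU x x + mulU o.phiU (S - x)) o.F0

/-- Corner test for the isoperimetric bound. -/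
def isoCorner (o : OuterData) (s ψ x S : ℕ) : Bool :=
  Nat.ble (ψ + mulU (mulU s o.mu) x + mulU (mulU s o.L0) (mulU x x))
    (x + mulD s o.e0 + mulD (mulD s o.L1) (mulD S (mulD x x)))

/-- Corner test for the tangent bound. -/
def tanCorner (o : OuterData) (f0 f1 f2 tp tm τ ρ x S : ℕ) : Bool :=
  let BL := fone - mulU τ ρ
  let BU := fone - mulD τ ρ
  let AL := ρ + mulD τ BL
  Nat.ble (mulU BU f0 * o.Kc + mulU (mulU BU f1) S + mulU (mulU BU f2) (mulU x x) +
      mulU (mulU BU tp) x + mulU o.mu x + mulU o.L0 (mulU x x))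
    (mulD AL x + mulD (mulD BL f1) x + mulD (mulD BL f2) o.F0 + mulD (mulD BL tm) x +
      mulD (mulD o.L1 S) (mulD x x) + o.e0)

/-- All four corners. -/
def corners (c : ℕ → ℕ → Bool) (x1 x2 S1 S2 : ℕ) : Bool :=
  c x1 S1 && c x1 S2 && c x2 S1 && c x2 S2

section sound

variable (o : OuterData)

lemma sq_le_val_mulU (x : ℕ) : val x ^ 2 ≤ val (mulU x x) := by
  have := val_mulU x x
  nlinarith

lemma val_mulD_sq (x : ℕ) : val (mulD x x) ≤ val x ^ 2 := by
  have := val_mulD x x
  nlinarith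

lemma mulU_mono {a b : ℕ} {u v : ℝ} (h0 : 0 ≤ v) (hu : u ≤ val a) (hv : v ≤ val b) :
    u * v ≤ val (mulU a b) :=
  (mul_le_mul hu hv h0 (val_nonneg _)).trans (val_mulU a b)

lemma mulD_mono {a b : ℕ} {u v : ℝ} (h0 : 0 ≤ u) (hu : val a ≤ u) (hv : val b ≤ v) :
    val (mulD a b) ≤ u * v :=
  (val_mulD a b).trans (mul_le_mul hu hv (val_nonneg _) h0)

lemma infCorner_sound {x S : ℕ} (h : infCorner o x S = true) :
    0 ≤ val o.F0 - (val x ^ 2 + val o.phiU * (val S - val x)) := by
  simp only [infCorner, Nat.ble_eq] at h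
  have h1 := val_le_val h
  rw [val_add] at h1
  have h2 := sq_le_val_mulU x
  have h3 : val o.phiU * (val S - val x) ≤ val (mulU o.phiU (S - x)) := by
    rcases le_total x S with hxS | hxS
    · have := val_mulU o.phiU (S - x)
      rw [val_sub hxS] at this
      exact this
    · have h4 : val S ≤ val x := val_le_val hxS
      have h5 : val o.phiU * (val S - val x) ≤ 0 :=
        mul_nonpos_of_nonneg_of_nonpos (val_nonneg _) (by linarith)
      exact h5.trans (val_nonneg _)
  linarith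

lemma isoCorner_sound {s ψ x S : ℕ} (h : isoCorner o s ψ x S = true) :
    0 ≤ (val s * val o.e0 - val ψ) + (1 - val s * val o.mu) * val x + 0 * val S +
      (-(val s * val o.L0)) * val x ^ 2 + (val s * val o.L1) * val S * val x ^ 2 := by
  simp only [isoCorner, Nat.ble_eq] at h
  have h1 := val_le_val h
  simp only [val_add] at h1
  have hx0 := val_nonneg x
  have h2 : val s * val o.mu * val x ≤ val (mulU (mulU s o.mu) x) :=
    mulU_mono hx0 (val_mulU _ _) le_rfl
  have h3 : val s * val o.L0 * val x ^ 2 ≤ val (mulU (mulU s o.L0) (mulU x x)) :=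
    mulU_mono (sq_nonneg _) (val_mulU _ _) (sq_le_val_mulU x)
  have h4 := val_mulD s o.e0
  have h5 : val (mulD (mulD s o.L1) (mulD S (mulD x x))) ≤
      val s * val o.L1 * (val S * val x ^ 2) := by
    refine mulD_mono (mul_nonneg (val_nonneg _) (val_nonneg _)) (val_mulD _ _) ?_
    exact mulD_mono (val_nonneg _) le_rfl (val_mulD_sq x)
  nlinarith

lemma tanCorner_sound {f0 f1 f2 tp tm τ ρ x S : ℕ} {A B : ℝ}
    (hBL : val (fone - mulU τ ρ) ≤ B) (hBU : B ≤ val (fone - mulD τ ρ))
    (hA : val (ρ + mulD τ (fone - mulU τ ρ)) ≤ A) (hA0 : 0 ≤ A)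
    (h : tanCorner o f0 f1 f2 tp tm τ ρ x S = true) :
    0 ≤ (val o.e0 - B * val f0 * (o.Kc : ℝ) + B * val f2 * val o.F0) +
      (A + B * val f1 - B * (val tp - val tm) - val o.mu) * val x + (-(B * val f1)) * val S +
      (-(B * val f2) - val o.L0) * val x ^ 2 + val o.L1 * val S * val x ^ 2 := by
  simp only [tanCorner, Nat.ble_eq] at h
  have hB0 : 0 ≤ B := (val_nonneg _).trans hBL
  set BL := fone - mulU τ ρ with hBLd
  set BU := fone - mulD τ ρ with hBUd
  set AL := ρ + mulD τ BL with hALd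
  have h1 := val_le_val h
  simp only [val_add] at h1
  have hx0 := val_nonneg x
  have hS0 := val_nonneg S
  have hxx := sq_le_val_mulU x
  -- upper bounds
  have n1 : B * val f0 * (o.Kc : ℝ) ≤ val (mulU BU f0 * o.Kc) := by
    have h2 : B * val f0 ≤ val (mulU BU f0) := mulU_mono (val_nonneg _) hBU le_rfl
    have h3 : val (mulU BU f0 * o.Kc) = val (mulU BU f0) * (o.Kc : ℝ) := by
      unfold val; push_cast; ring
    rw [h3]
    exact mul_le_mul_of_nonneg_right h2 (Nat.cast_nonneg _)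
  have n2 : B * val f1 * val S ≤ val (mulU (mulU BU f1) S) :=
    mulU_mono hS0 (mulU_mono (val_nonneg _) hBU le_rfl) le_rfl
  have n3 : B * val f2 * val x ^ 2 ≤ val (mulU (mulU BU f2) (mulU x x)) :=
    mulU_mono (sq_nonneg _) (mulU_mono (val_nonneg _) hBU le_rfl) hxx
  have n4 : B * val tp * val x ≤ val (mulU (mulU BU tp) x) :=
    mulU_mono hx0 (mulU_mono (val_nonneg _) hBU le_rfl) le_rfl
  have n5 : val o.mu * val x ≤ val (mulU o.mu x) := val_mulU _ _
  have n6 : val o.L0 * val x ^ 2 ≤ val (mulU o.L0 (mulU x x)) :=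
    mulU_mono (sq_nonneg _) le_rfl hxx
  -- lower bounds
  have p1 : val (mulD AL x) ≤ A * val x := mulD_mono hA0 hA le_rfl
  have p2 : val (mulD (mulD BL f1) x) ≤ B * val f1 * val x :=
    mulD_mono (mul_nonneg hB0 (val_nonneg _)) (mulD_mono hB0 hBL le_rfl) le_rfl
  have p3 : val (mulD (mulD BL f2) o.F0) ≤ B * val f2 * val o.F0 :=
    mulD_mono (mul_nonneg hB0 (val_nonneg _)) (mulD_mono hB0 hBL le_rfl) le_rfl
  have p4 : val (mulD (mulD BL tm) x) ≤ B * val tm * val x :=
    mulD_mono (mul_nonneg hB0 (val_nonneg _)) (mulD_mono hB0 hBL le_rfl) le_rfl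
  have p5 : val (mulD (mulD o.L1 S) (mulD x x)) ≤ val o.L1 * val S * val x ^ 2 :=
    mulD_mono (mul_nonneg (val_nonneg _) hS0) (val_mulD _ _) (val_mulD_sq x)
  nlinarith

end sound

/-- The facts available about one cell. -/
structure CellHyp (K Kc Y x a S F M : ℝ) : Prop where
  hx0 : 0 ≤ x
  hSx : x ≤ S
  hFS : F ≤ x ^ 2 + phi0 * (S - x)
  iso : ∀ s, x ≤ s * a + psiHat s
  tan : ∀ τ ρ, 0 ≤ τ → ρ * phi τ ≤ Qf τ → τ ≤ ρ * (1 + τ ^ 2) → τ * ρ < 1 →
    (ρ + τ * (1 - τ * ρ)) * x - (1 - τ * ρ) * M ≤ a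
  pair : ∀ f0 f1 f2 tp tm, 0 ≤ f0 →
    (∀ y t, 0 ≤ y → y ≤ Y → 0 ≤ t → t ≤ 1 → PairProp K f0 f1 f2 tp tm x y t) →
    M ≤ Kc * f0 + f1 * (S - x) - f2 * (F - x ^ 2) + (tp - tm) * x

/-- Test for one rectangle. -/
def rectOK (o : OuterData) (hasPair : Bool) (f0 f1 f2 tp tm x1 x2 S1 S2 : ℕ) : RectKind → Bool
  | RectKind.inf => corners (infCorner o) x1 x2 S1 S2
  | RectKind.iso i =>
    match isoT[i]? with
    | some e => Nat.blt 0 e.1 && corners (isoCorner o e.1 e.2) x1 x2 S1 S2
    | none => false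
  | RectKind.tan i =>
    match tauT[i]? with
    | some e => hasPair && corners (tanCorner o f0 f1 f2 tp tm e.1 e.2) x1 x2 S1 S2
    | none => false

lemma corners_true {c : ℕ → ℕ → Bool} {x1 x2 S1 S2 : ℕ} (h : corners c x1 x2 S1 S2 = true) :
    c x1 S1 = true ∧ c x1 S2 = true ∧ c x2 S1 = true ∧ c x2 S2 = true := by
  simp only [corners, Bool.and_eq_true] at h
  tauto

/-- Soundness of the test for one rectangle. -/
theorem rectOK_sound {o : OuterData} {hasPair : Bool} {f0 f1 f2 tp tm x1 x2 S1 S2 : ℕ}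
    {k : RectKind} (h : rectOK o hasPair f0 f1 f2 tp tm x1 x2 S1 S2 k = true)
    {K Y x a S F M : ℝ} (hc : CellHyp K (o.Kc : ℝ) Y x a S F M) (hF : val o.F0 < F)
    (hx1 : val x1 ≤ x) (hx2 : x ≤ val x2) (hS1 : val S1 ≤ S) (hS2 : S ≤ val S2)
    (hL : val o.L1 * S ≤ val o.L0) (hφ : phi0 ≤ val o.phiU)
    (hp : hasPair = true → ∀ y t, 0 ≤ y → y ≤ Y → 0 ≤ t → t ≤ 1 →
      PairProp K (val f0) (val f1) (val f2) (val tp) (val tm) x y t) :
    target o x S ≤ a := by
  cases k with
  | inf =>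
    exfalso
    obtain ⟨h11, h12, h21, h22⟩ := corners_true h
    have e := fun {u v : ℕ} (huv : infCorner o u v = true) => infCorner_sound o huv
    have h0 := rect_nonneg (c0 := val o.F0) (c1 := val o.phiU) (c2 := -val o.phiU) (c3 := -1) (c4 := 0)
      hx1 hx2 hS1 hS2 (by simp) (by have := e h11; nlinarith) (by have := e h12; nlinarith)
      (by have := e h21; nlinarith) (by have := e h22; nlinarith)
    have h3 := hc.hFS
    have h4 : phi0 * (S - x) ≤ val o.phiU * (S - x) :=
      mul_le_mul_of_nonneg_right hφ (by linarith [hc.hSx])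
    nlinarith
  | iso i =>
    simp only [rectOK] at h
    cases hi : isoT[i]? with
    | none => rw [hi] at h; simp at h
    | some ee =>
    rw [hi] at h
    obtain ⟨s, ψ⟩ := ee
    simp only [Bool.and_eq_true, Nat.blt_eq] at h
    obtain ⟨hs, hcor⟩ := h
    obtain ⟨h11, h12, h21, h22⟩ := corners_true hcor
    have e := fun {u v : ℕ} (huv : isoCorner o s ψ u v = true) => isoCorner_sound o huv
    have hspos : 0 < val s := by
      unfold val
      have : (0 : ℝ) < s := by exact_mod_cast hs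
      positivity
    have h0 := rect_nonneg (c0 := val s * val o.e0 - val ψ) (c1 := 1 - val s * val o.mu) (c2 := 0)
      (c3 := -(val s * val o.L0)) (c4 := val s * val o.L1) hx1 hx2 hS1 hS2
      (by nlinarith) (e h11) (e h12) (e h21) (e h22)
    have hψ := isoT_valid _ (List.mem_of_getElem? hi)
    simp only at hψ
    have h3 := hc.iso (val s)
    unfold target
    have h4 : val s * (val o.mu * x + (val o.L0 - val o.L1 * S) * x ^ 2 - val o.e0) ≤ val s * a := by
      nlinarith
    exact le_of_mul_le_mul_left h4 hspos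
  | tan i =>
    simp only [rectOK] at h
    cases hi : tauT[i]? with
    | none => rw [hi] at h; simp at h
    | some ee =>
    rw [hi] at h
    obtain ⟨τ, ρ⟩ := ee
    simp only [Bool.and_eq_true] at h
    obtain ⟨hhas, hcor⟩ := h
    obtain ⟨h11, h12, h21, h22⟩ := corners_true hcor
    obtain ⟨hρ1, hρ2, hρ3⟩ := tauT_valid _ (List.mem_of_getElem? hi)
    simp only at hρ1 hρ2 hρ3
    have hτ0 := val_nonneg τ
    have hρ0 := val_nonneg ρ
    set B := 1 - val τ * val ρ with hB
    have hBpos : 0 < B := by rw [hB]; linarith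
    set A := val ρ + val τ * B with hA
    have hA0 : 0 ≤ A := by positivity
    have hBL : val (fone - mulU τ ρ) ≤ B := by
      by_cases hle : mulU τ ρ ≤ fone
      · rw [val_sub hle, val_fone, hB]
        have := val_mulU τ ρ
        linarith
      · have : fone - mulU τ ρ = 0 := by omega
        rw [this, val_zero]
        exact hBpos.le
    have hBU : B ≤ val (fone - mulD τ ρ) := by
      have h5 := val_mulD τ ρ
      have h6 : mulD τ ρ ≤ fone := by
        have h7 : val (mulD τ ρ) ≤ val fone := by rw [val_fone]; linarith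
        unfold val at h7
        have h8 : ((mulD τ ρ : ℕ) : ℝ) ≤ ((fone : ℕ) : ℝ) := by
          rwa [div_le_div_iff_of_pos_right (by positivity)] at h7
        exact_mod_cast h8
      rw [val_sub h6, val_fone, hB]
      linarith
    have hAL : val (ρ + mulD τ (fone - mulU τ ρ)) ≤ A := by
      rw [val_add, hA]
      have := mulD_mono (a := τ) (b := fone - mulU τ ρ) hτ0 le_rfl hBL
      linarith
    have e := fun {u v : ℕ} (huv : tanCorner o f0 f1 f2 tp tm τ ρ u v = true) =>
      tanCorner_sound o hBL hBU hAL hA0 huv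
    have hf20 := val_nonneg f2
    have hf0 := val_nonneg f0
    have hcc : (-(B * val f2) - val o.L0) + val o.L1 * S ≤ 0 := by
      have := mul_nonneg hBpos.le hf20
      linarith
    have h0 := rect_nonneg (c0 := val o.e0 - B * val f0 * (o.Kc : ℝ) + B * val f2 * val o.F0)
      (c1 := A + B * val f1 - B * (val tp - val tm) - val o.mu) (c2 := -(B * val f1))
      (c3 := -(B * val f2) - val o.L0) (c4 := val o.L1) hx1 hx2 hS1 hS2 hcc
      (e h11) (e h12) (e h21) (e h22)
    have hM := hc.pair (val f0) (val f1) (val f2) (val tp) (val tm) hf0 (hp hhas)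
    have hT := hc.tan (val τ) (val ρ) hτ0 hρ1 hρ2 hρ3
    rw [← hB, ← hA] at hT
    have h5 : B * (val f2 * (val o.F0 - x ^ 2)) ≤ B * (val f2 * (F - x ^ 2)) := by
      apply mul_le_mul_of_nonneg_left _ hBpos.le
      apply mul_le_mul_of_nonneg_left _ hf20
      linarith
    have h6 := mul_le_mul_of_nonneg_left hM hBpos.le
    unfold target
    nlinarith

/-- A vertical strip of rectangles. -/
structure Strip where
  x2 : ℕ
  f0 : ℕ
  f1 : ℕ
  f2 : ℕ
  tp : ℕ
  tm : ℕ
  fuel : ℕ
  hasPair : Bool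
  rects : List (ℕ × RectKind)

/-- A complete certificate. -/
structure Cert where
  o : OuterData
  K : ℕ
  cK : ℕ
  invK : ℕ
  Y : ℕ
  Smin : ℕ
  Smax : ℕ
  Xtop : ℕ
  Kmax : ℕ
  strips : List Strip

/-- Parameters of the pair test of a strip. -/
def pdOf (C : Cert) (st : Strip) : PairData :=
  { T := tanT, cK := C.cK, invK := C.invK, f0 := st.f0, f1 := st.f1, f2 := st.f2, tp := st.tp,
    tm := st.tm }

/-- The rectangles of a strip cover all the values of `S`. -/
def rectsOK (C : Cert) (st : Strip) (x1 : ℕ) : ℕ → List (ℕ × RectKind) → Bool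
  | S, [] => Nat.blt C.Smax S
  | S, r :: rs => rectOK C.o st.hasPair st.f0 st.f1 st.f2 st.tp st.tm x1 st.x2 S r.1 r.2 &&
      rectsOK C st x1 r.1 rs

/-- Test for one strip. -/
def stripOK (C : Cert) (x1 : ℕ) (st : Strip) : Bool :=
  (!st.hasPair || pairChk (pdOf C st) st.fuel x1 st.x2 0 C.Y 0 fone) && rectsOK C st x1 C.Smin st.rects

/-- The strips cover all values of `x`. -/
def stripsOK (C : Cert) : ℕ → List Strip → Bool
  | x, [] => Nat.blt C.Xtop x
  | x, st :: r => stripOK C x st && stripsOK C st.x2 r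

lemma val_lt_val {a b : ℕ} (h : a < b) : val a < val b := by
  unfold val
  have : (a : ℝ) < b := by exact_mod_cast h
  gcongr

lemma rectsOK_sound {C : Cert} {st : Strip} {x1 : ℕ} {K Y x a S F M : ℝ}
    (hc : CellHyp K (C.o.Kc : ℝ) Y x a S F M) (hF : val C.o.F0 < F)
    (hx1 : val x1 ≤ x) (hx2 : x ≤ val st.x2) (hS2 : S ≤ val C.Smax)
    (hL : val C.o.L1 * S ≤ val C.o.L0) (hφ : phi0 ≤ val C.o.phiU)
    (hp : st.hasPair = true → ∀ y t, 0 ≤ y → y ≤ Y → 0 ≤ t → t ≤ 1 →
      PairProp K (val st.f0) (val st.f1) (val st.f2) (val st.tp) (val st.tm) x y t) :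
    ∀ {S1 : ℕ} {l : List (ℕ × RectKind)}, rectsOK C st x1 S1 l = true → val S1 ≤ S →
    target C.o x S ≤ a := by
  intro S1 l
  induction l generalizing S1 with
  | nil =>
    intro h hS1
    simp only [rectsOK, Nat.blt_eq] at h
    exfalso
    have h1 := val_lt_val h
    linarith
  | cons r rs ih =>
    intro h hS1
    simp only [rectsOK, Bool.and_eq_true] at h
    rcases le_total S (val r.1) with hle | hle
    · exact rectOK_sound h.1 hc hF hx1 hx2 hS1 hle hL hφ hp
    · exact ih h.2 hle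

/-- Soundness of the strips. -/
theorem stripsOK_sound {C : Cert} {Kr : ℝ} (hKr : 0 < Kr)
    (hinv : 1 / Kr ≤ val C.invK) {x a S F M : ℝ}
    (hc : CellHyp Kr (C.o.Kc : ℝ) (val C.Y) x a S F M) (hF : val C.o.F0 < F)
    (hxtop : x ≤ val C.Xtop) (hS0 : val C.Smin ≤ S) (hS2 : S ≤ val C.Smax)
    (hL : val C.o.L1 * S ≤ val C.o.L0) (hφ : phi0 ≤ val C.o.phiU) :
    ∀ {x1 : ℕ} {l : List Strip}, stripsOK C x1 l = true → val x1 ≤ x →
    target C.o x S ≤ a := by
  intro x1 l
  induction l generalizing x1 with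
  | nil =>
    intro h hx1
    simp only [stripsOK, Nat.blt_eq] at h
    exfalso
    have h1 := val_lt_val h
    linarith
  | cons st rs ih =>
    intro h hx1
    simp only [stripsOK, Bool.and_eq_true] at h
    rcases le_total x (val st.x2) with hle | hle
    · have h1 := h.1
      simp only [stripOK, Bool.and_eq_true, Bool.or_eq_true, Bool.not_eq_true'] at h1
      refine rectsOK_sound hc hF hx1 hle hS2 hL hφ ?_ h1.2 hS0
      intro hhas y t hy0 hyY ht0 ht1
      have hpc : pairChk (pdOf C st) st.fuel x1 st.x2 0 C.Y 0 fone = true := by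
        rcases h1.1 with h2 | h2
        · rw [hhas] at h2; simp at h2
        · exact h2
      exact pairChk_sound hKr (pdOf C st) tanT_valid hinv st.fuel hpc hx1 hle
        (by rw [val_zero]; exact hy0) hyY (by rw [val_zero]; exact ht0)
        (by rw [val_fone]; exact ht1)
    · exact ih h.2 hle

end Vale.Agent.P226
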