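import Vale.Agent.P226.Resample

/-!
# Argmax partitions and existence of a fixed point maximiser
-/

open MeasureTheory ProbabilityTheory Set Filter Topology

namespace Vale.Agent.P226

variable {d k : ℕ}

/-- Cell of the argmax partition of `x ↦ <x, Z i>`, ties broken towards the smaller index. -/
def argCell (Z : Fin k → Euc d) (i : Fin k) : Set (Euc d) :=
  {x | ∀ j, inner ℝ x (Z j) ≤ inner ℝ x (Z i) ∧ (j < i → inner ℝ x (Z j) < inner ℝ x (Z i))}

lemma measurableSet_argCell (Z : Fin k → Euc d) (i : Fin k) : MeasurableSet (argCell Z i) := by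
  have : argCell Z i = ⋂ j, ({x | inner ℝ x (Z j) ≤ inner ℝ x (Z i)} ∩
      {x | j < i → inner ℝ x (Z j) < inner ℝ x (Z i)}) := by
    ext x; simp [argCell]
  rw [this]
  refine MeasurableSet.iInter fun j => MeasurableSet.inter ?_ ?_
  · exact measurableSet_le (by fun_prop) (by fun_prop)
  · by_cases h : j < i
    · simp only [h, true_imp_iff]
      exact measurableSet_lt (by fun_prop) (by fun_prop)
    · simp [h]

lemma isMeasPartition_argCell [NeZero k] (Z : Fin k → Euc d) : IsMeasPartition (argCell Z) where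
  measurable := measurableSet_argCell Z
  disjoint := by
    have key : ∀ i j : Fin k, j < i → Disjoint (argCell Z i) (argCell Z j) := by
      intro i j hji
      rw [Set.disjoint_left]
      intro x hi hj
      have h1 := (hi j).2 hji
      have h2 := (hj i).1
      linarith
    intro i j hij
    rcases lt_or_gt_of_ne hij with h | h
    · exact (key j i h).symm
    · exact key i j h
  cover := by
    ext x
    simp only [mem_iUnion, mem_univ, iff_true]
    obtain ⟨i0, -, hi0⟩ := Finset.exists_max_image (Finset.univ : Finset (Fin k))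
      (fun i => inner ℝ x (Z i)) ⟨0, Finset.mem_univ _⟩
    let S : Finset (Fin k) := Finset.univ.filter fun i => ∀ j, inner ℝ x (Z j) ≤ inner ℝ x (Z i)
    have hS : S.Nonempty := ⟨i0, by simp [S]; exact fun j => hi0 j (Finset.mem_univ _)⟩
    refine ⟨S.min' hS, ?_⟩
    have hm := S.min'_mem hS
    simp only [S, Finset.mem_filter, Finset.mem_univ, true_and] at hm
    intro j
    refine ⟨hm j, fun hj => ?_⟩
    by_contra hcon
    have hle : inner ℝ x (Z (S.min' hS)) ≤ inner ℝ x (Z j) := not_lt.1 hcon
    have : j ∈ S := by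
      simp only [S, Finset.mem_filter, Finset.mem_univ, true_and]
      exact fun l => (hm l).trans hle
    exact absurd (S.min'_le j this) (not_le.2 hj)

section moments

lemma inner_gaussMoment (A : Set (Euc d)) (w : Euc d) :
    inner ℝ (gaussMoment A) w = ∫ x in A, inner ℝ x w ∂(stdGaussian (Euc d)) := by
  unfold gaussMoment
  have h := integral_inner (𝕜 := ℝ) (μ := (stdGaussian (Euc d)).restrict A)
    (integrable_id_std (d := d)).restrict w
  rw [real_inner_comm, ← h]
  simp_rw [real_inner_comm]

lemma sum_setIntegral_partition {A : Fin k → Set (Euc d)} (hA : IsMeasPartition A)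
    {H : Euc d → ℝ} (hH : Integrable H (stdGaussian (Euc d))) :
    ∑ i, ∫ x in A i, H x ∂(stdGaussian (Euc d)) = ∫ x, H x ∂(stdGaussian (Euc d)) := by
  rw [← integral_iUnion_fintype hA.measurable hA.disjoint (fun i => hH.integrableOn), hA.cover]
  simp

lemma sum_gaussMoment_eq_zero {A : Fin k → Set (Euc d)} (hA : IsMeasPartition A) :
    ∑ i, gaussMoment (A i) = 0 := by
  unfold gaussMoment
  rw [← integral_iUnion_fintype hA.measurable hA.disjoint
    (fun i => (integrable_id_std (d := d)).integrableOn), hA.cover]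
  simp

lemma sum_measureReal_partition {A : Fin k → Set (Euc d)} (hA : IsMeasPartition A) :
    ∑ i, (stdGaussian (Euc d)).real (A i) = 1 := by
  have := sum_setIntegral_partition hA (H := fun _ => (1 : ℝ)) (integrable_const _)
  simpa using this

/-- The value of the argmax partition on `Z`. -/
noncomputable def fval (Z : Fin k → Euc d) : ℝ :=
  ∑ i, inner ℝ (gaussMoment (argCell Z i)) (Z i)

/-- The optimal integrand. -/
noncomputable def maxFun (Z : Fin k → Euc d) (x : Euc d) : ℝ :=
  ∑ i, (argCell Z i).indicator (fun x => inner ℝ x (Z i)) x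

lemma integrable_maxFun (Z : Fin k → Euc d) : Integrable (maxFun Z) (stdGaussian (Euc d)) := by
  unfold maxFun
  refine integrable_finsetSum _ fun i _ => ?_
  exact (integrable_inner (Z i)).indicator (measurableSet_argCell Z i)

lemma integral_maxFun (Z : Fin k → Euc d) :
    ∫ x, maxFun Z x ∂(stdGaussian (Euc d)) = fval Z := by
  unfold maxFun fval
  rw [integral_finsetSum _ (fun i _ =>
    (integrable_inner (Z i)).indicator (measurableSet_argCell Z i))]
  refine Finset.sum_congr rfl fun i _ => ?_
  rw [integral_indicator (measurableSet_argCell Z i), inner_gaussMoment]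

lemma le_maxFun [NeZero k] (Z : Fin k → Euc d) (x : Euc d) (j : Fin k) :
    inner ℝ x (Z j) ≤ maxFun Z x := by
  have hc := (isMeasPartition_argCell Z).cover
  have hx : x ∈ ⋃ i, argCell Z i := by rw [hc]; trivial
  obtain ⟨i, hi⟩ := mem_iUnion.1 hx
  have : maxFun Z x = inner ℝ x (Z i) := by
    unfold maxFun
    rw [Finset.sum_eq_single i]
    · exact indicator_of_mem hi _
    · intro b _ hb
      apply indicator_of_notMem
      intro hb2
      exact Set.disjoint_left.1 ((isMeasPartition_argCell Z).disjoint hb) hb2 hi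
    · simp
  rw [this]
  exact (hi j).1

/-- Any partition is beaten by the argmax partition. -/
theorem sum_inner_le_fval [NeZero k] {A : Fin k → Set (Euc d)} (hA : IsMeasPartition A)
    (Z : Fin k → Euc d) : ∑ i, inner ℝ (gaussMoment (A i)) (Z i) ≤ fval Z := by
  rw [← integral_maxFun, ← sum_setIntegral_partition hA (integrable_maxFun Z)]
  refine Finset.sum_le_sum fun i _ => ?_
  rw [inner_gaussMoment]
  refine setIntegral_mono_on (integrable_inner (Z i)).integrableOn
    (integrable_maxFun Z).integrableOn (hA.measurable i) ?_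
  intro x _
  exact le_maxFun Z x i

/-- The mean norm. -/
noncomputable def meanNorm (d : ℕ) : ℝ := ∫ x, ‖x‖ ∂(stdGaussian (Euc d))

lemma norm_gaussMoment_le (A : Set (Euc d)) : ‖gaussMoment A‖ ≤ meanNorm d := by
  unfold gaussMoment meanNorm
  refine (norm_integral_le_integral_norm _).trans ?_
  exact setIntegral_le_integral (integrable_id_std (d := d)).norm
    (Eventually.of_forall fun x => norm_nonneg x)

lemma meanNorm_nonneg : 0 ≤ meanNorm d := by
  unfold meanNorm
  exact integral_nonneg fun x => norm_nonneg x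

lemma fval_sub_le [NeZero k] (Z W : Fin k → Euc d) :
    fval Z - fval W ≤ meanNorm d * ∑ i, ‖Z i - W i‖ := by
  have h1 := sum_inner_le_fval (isMeasPartition_argCell Z) W
  have h2 : fval Z - ∑ i, inner ℝ (gaussMoment (argCell Z i)) (W i) =
      ∑ i, inner ℝ (gaussMoment (argCell Z i)) (Z i - W i) := by
    unfold fval
    rw [← Finset.sum_sub_distrib]
    refine Finset.sum_congr rfl fun i _ => ?_
    rw [inner_sub_right]
  have h3 : ∑ i, inner ℝ (gaussMoment (argCell Z i)) (Z i - W i) ≤
      meanNorm d * ∑ i, ‖Z i - W i‖ := by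
    rw [Finset.mul_sum]
    refine Finset.sum_le_sum fun i _ => ?_
    refine (real_inner_le_norm _ _).trans ?_
    exact mul_le_mul_of_nonneg_right (norm_gaussMoment_le _) (norm_nonneg _)
  linarith

lemma continuous_fval [NeZero k] : Continuous (fval (d := d) (k := k)) := by
  have hL : ∀ Z W : Fin k → Euc d, dist (fval Z) (fval W) ≤
      (meanNorm d * k) * dist Z W := by
    intro Z W
    have hsum : ∀ Z W : Fin k → Euc d, ∑ i, ‖Z i - W i‖ ≤ k * dist Z W := by
      intro Z W
      calc ∑ i, ‖Z i - W i‖ ≤ ∑ _i : Fin k, dist Z W := by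
            refine Finset.sum_le_sum fun i _ => ?_
            rw [← dist_eq_norm]
            exact dist_le_pi_dist Z W i
        _ = k * dist Z W := by simp
    have h1 := fval_sub_le Z W
    have h2 := fval_sub_le W Z
    have h3 := mul_le_mul_of_nonneg_left (hsum Z W) (meanNorm_nonneg (d := d))
    have h4 := mul_le_mul_of_nonneg_left (hsum W Z) (meanNorm_nonneg (d := d))
    rw [dist_comm W Z] at h4
    rw [Real.dist_eq, abs_le]
    constructor <;> nlinarith
  exact (LipschitzWith.of_dist_le_mul (K := ⟨meanNorm d * k,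
    mul_nonneg meanNorm_nonneg (Nat.cast_nonneg k)⟩) (fun Z W => hL Z W)).continuous

/-- The closed unit ball for the l2 sum norm. -/
def unitB (d k : ℕ) : Set (Fin k → Euc d) := {Z | ∑ i, ‖Z i‖ ^ 2 ≤ 1}

lemma isCompact_unitB : IsCompact (unitB d k) := by
  apply Metric.isCompact_of_isClosed_isBounded
  · exact isClosed_le (by fun_prop) continuous_const
  · refine (Metric.isBounded_closedBall (x := (0 : Fin k → Euc d)) (r := 1)).subset ?_
    intro Z hZ
    rw [mem_closedBall_zero_iff, pi_norm_le_iff_of_nonneg zero_le_one]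
    intro i
    have h1 : ‖Z i‖ ^ 2 ≤ ∑ i, ‖Z i‖ ^ 2 :=
      Finset.single_le_sum (f := fun i => ‖Z i‖ ^ 2) (fun i _ => by positivity) (Finset.mem_univ i)
    have h2 : ‖Z i‖ ^ 2 ≤ 1 := h1.trans hZ
    nlinarith [norm_nonneg (Z i)]

lemma sum_inner_le_sqrt (Y Z : Fin k → Euc d) :
    (∑ i, inner ℝ (Y i) (Z i)) ^ 2 ≤ (∑ i, ‖Y i‖ ^ 2) * ∑ i, ‖Z i‖ ^ 2 := by
  have h1 : ∑ i, inner ℝ (Y i) (Z i) ≤ ∑ i, ‖Y i‖ * ‖Z i‖ :=
    Finset.sum_le_sum fun i _ => real_inner_le_norm _ _
  have h1' : -(∑ i, ‖Y i‖ * ‖Z i‖) ≤ ∑ i, inner ℝ (Y i) (Z i) := by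
    rw [← Finset.sum_neg_distrib]
    refine Finset.sum_le_sum fun i _ => ?_
    have := abs_real_inner_le_norm (Y i) (Z i)
    linarith [neg_abs_le (inner ℝ (Y i) (Z i))]
  have h2 := Finset.sum_mul_sq_le_sq_mul_sq Finset.univ (fun i => ‖Y i‖) (fun i => ‖Z i‖)
  have h3 : 0 ≤ ∑ i, ‖Y i‖ * ‖Z i‖ :=
    Finset.sum_nonneg fun i _ => mul_nonneg (norm_nonneg _) (norm_nonneg _)
  have h4 : (∑ i, inner ℝ (Y i) (Z i)) ^ 2 ≤ (∑ i, ‖Y i‖ * ‖Z i‖) ^ 2 := by
    apply sq_le_sq'
    · linarith
    · exact h1
  exact h4.trans h2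

lemma argCell_smul (Z : Fin k → Euc d) {c : ℝ} (hc : 0 < c) :
    argCell (fun i => c • Z i) = argCell Z := by
  funext i
  ext x
  simp only [argCell, mem_ofPred_eq, inner_smul_right]
  constructor
  · intro h j
    refine ⟨?_, fun hj => ?_⟩
    · exact le_of_mul_le_mul_left (h j).1 hc
    · exact lt_of_mul_lt_mul_left ((h j).2 hj) hc.le
  · intro h j
    refine ⟨mul_le_mul_of_nonneg_left (h j).1 hc.le, fun hj => ?_⟩
    exact mul_lt_mul_of_pos_left ((h j).2 hj) hc

/-- **Existence of a fixed point maximiser.** -/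
theorem exists_fixedPoint [NeZero k] (d : ℕ) :
    ∃ Z : Fin k → Euc d, (∀ i, gaussMoment (argCell Z i) = Z i) ∧
      ∀ A : Fin k → Set (Euc d), IsMeasPartition A → propF A ≤ ∑ i, ‖Z i‖ ^ 2 := by
  have hne : (unitB d k).Nonempty := ⟨0, by simp [unitB]⟩
  obtain ⟨Zs, hZs, hmax⟩ := isCompact_unitB.exists_isMaxOn hne
    (continuous_fval (d := d) (k := k)).continuousOn
  set μ := fval Zs with hμ
  have hμ0 : 0 ≤ μ := by
    have h0 : (0 : Fin k → Euc d) ∈ unitB d k := by simp [unitB]
    have h1 : fval (0 : Fin k → Euc d) ≤ μ := hmax h0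
    have h2 : fval (0 : Fin k → Euc d) = 0 := by simp [fval]
    linarith
  -- bound for every partition
  have hbound : ∀ A : Fin k → Set (Euc d), IsMeasPartition A → propF A ≤ μ ^ 2 := by
    intro A hA
    set P := propF A with hP
    have hP0 : 0 ≤ P := Finset.sum_nonneg fun i _ => by positivity
    rcases hP0.eq_or_lt with h | h
    · rw [← h]; positivity
    · set ν := Real.sqrt P with hν
      have hνpos : 0 < ν := Real.sqrt_pos.2 h
      have hνsq : ν ^ 2 = P := Real.sq_sqrt hP0
      let Z' : Fin k → Euc d := fun i => ν⁻¹ • gaussMoment (A i)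
      have hZ' : Z' ∈ unitB d k := by
        simp only [unitB, mem_ofPred_eq, Z', norm_smul, mul_pow, norm_inv, Real.norm_eq_abs,
          abs_of_pos hνpos]
        rw [← Finset.mul_sum]
        change (ν⁻¹) ^ 2 * P ≤ 1
        rw [← hνsq]
        field_simp
        exact le_refl _
      have h1 := sum_inner_le_fval hA Z'
      have h2 : ∑ i, inner ℝ (gaussMoment (A i)) (Z' i) = ν := by
        simp only [Z', inner_smul_right, real_inner_self_eq_norm_sq]
        rw [← Finset.mul_sum]
        change ν⁻¹ * P = ν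
        rw [← hνsq]
        field_simp
      have h3 : fval Z' ≤ μ := hmax hZ'
      have : ν ≤ μ := by linarith
      rw [← hνsq]
      exact pow_le_pow_left₀ hνpos.le this 2
  rcases hμ0.eq_or_lt with h0 | hpos
  · -- degenerate case
    refine ⟨0, ?_, ?_⟩
    · intro i
      have hP := hbound _ (isMeasPartition_argCell (0 : Fin k → Euc d))
      rw [← h0] at hP
      have hle : ‖gaussMoment (argCell (0 : Fin k → Euc d) i)‖ ^ 2 ≤
          propF (argCell (0 : Fin k → Euc d)) :=
        Finset.single_le_sum (f := fun i => ‖gaussMoment (argCell (0 : Fin k → Euc d) i)‖ ^ 2)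
          (fun i _ => by positivity) (Finset.mem_univ i)
      have : ‖gaussMoment (argCell (0 : Fin k → Euc d) i)‖ ^ 2 ≤ 0 := by
        simpa using hle.trans hP
      have h2 : ‖gaussMoment (argCell (0 : Fin k → Euc d) i)‖ = 0 := by
        nlinarith [norm_nonneg (gaussMoment (argCell (0 : Fin k → Euc d) i))]
      simpa using norm_eq_zero.1 h2
    · intro A hA
      have := hbound A hA
      rw [← h0] at this
      simpa using this
  · -- main case
    let Y : Fin k → Euc d := fun i => gaussMoment (argCell Zs i)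
    have hYbound : ∑ i, ‖Y i‖ ^ 2 ≤ μ ^ 2 := hbound _ (isMeasPartition_argCell Zs)
    have hYZ : ∑ i, inner ℝ (Y i) (Zs i) = μ := rfl
    have hZs1 : ∑ i, ‖Zs i‖ ^ 2 ≤ 1 := hZs
    have hdiff : ∑ i, ‖Y i - μ • Zs i‖ ^ 2 ≤ 0 := by
      have : ∀ i, ‖Y i - μ • Zs i‖ ^ 2 =
          ‖Y i‖ ^ 2 - 2 * μ * inner ℝ (Y i) (Zs i) + μ ^ 2 * ‖Zs i‖ ^ 2 := by
        intro i
        rw [@norm_sub_sq_real, norm_smul, real_inner_smul_right, mul_pow, Real.norm_eq_abs,
          sq_abs]
        ring
      simp_rw [this]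
      rw [Finset.sum_add_distrib, Finset.sum_sub_distrib, ← Finset.mul_sum, ← Finset.mul_sum, hYZ]
      nlinarith [sq_nonneg μ]
    have hYeq : ∀ i, Y i = μ • Zs i := by
      intro i
      have hle : ‖Y i - μ • Zs i‖ ^ 2 ≤ ∑ i, ‖Y i - μ • Zs i‖ ^ 2 :=
        Finset.single_le_sum (f := fun i => ‖Y i - μ • Zs i‖ ^ 2)
          (fun i _ => by positivity) (Finset.mem_univ i)
      have h2 : ‖Y i - μ • Zs i‖ = 0 := by
        nlinarith [norm_nonneg (Y i - μ • Zs i)]
      exact sub_eq_zero.1 (norm_eq_zero.1 h2)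
    have hcell : argCell Y = argCell Zs := by
      have : Y = fun i => μ • Zs i := funext hYeq
      rw [this]
      exact argCell_smul Zs hpos
    refine ⟨Y, ?_, ?_⟩
    · intro i
      rw [hcell]
    · intro A hA
      refine (hbound A hA).trans ?_
      -- `μ = <Y,Zs> ≤ |Y| |Zs|`
      have hCS := sum_inner_le_sqrt Y Zs
      rw [hYZ] at hCS
      have hnn : 0 ≤ ∑ i, ‖Y i‖ ^ 2 := Finset.sum_nonneg fun i _ => by positivity
      nlinarith

end moments

/-- Merging two cells. -/
theorem merge_cells {n : ℕ} {A : Fin (n + 1) → Set (Euc d)} (hA : IsMeasPartition A)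
    {i j : Fin (n + 1)} (hij : i ≠ j) :
    ∃ B : Fin n → Set (Euc d), IsMeasPartition B ∧
      propF B = propF A + 2 * inner ℝ (gaussMoment (A i)) (gaussMoment (A j)) := by
  obtain ⟨l0, hl0⟩ := Fin.exists_succAbove_eq hij
  classical
  let B : Fin n → Set (Euc d) := fun l =>
    if l = l0 then A i ∪ A j else A (j.succAbove l)
  have hB0 : B l0 = A i ∪ A j := by simp [B]
  have hBne : ∀ l, l ≠ l0 → B l = A (j.succAbove l) := by
    intro l hl; simp [B, hl]
  have hinj := Fin.succAbove_right_injective (p := j)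
  refine ⟨B, ⟨?_, ?_, ?_⟩, ?_⟩
  · intro l
    by_cases hl : l = l0
    · subst hl; rw [hB0]; exact (hA.measurable i).union (hA.measurable j)
    · rw [hBne l hl]; exact hA.measurable _
  · have key : ∀ a b : Fin n, a = l0 → b ≠ l0 → Disjoint (B a) (B b) := by
      intro a b ha hb
      rw [ha, hB0, hBne b hb, Set.disjoint_union_left]
      constructor
      · apply hA.disjoint
        rw [← hl0]
        exact fun h => hb (hinj h).symm
      · apply hA.disjoint
        exact (Fin.succAbove_ne j b).symm
    intro a b hab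
    by_cases ha : a = l0
    · exact key a b ha (fun hb => hab (ha.trans hb.symm))
    · by_cases hb : b = l0
      · exact (key b a hb ha).symm
      · rw [hBne a ha, hBne b hb]
        exact hA.disjoint fun h => hab (hinj h)
  · ext x
    simp only [mem_iUnion, mem_univ, iff_true]
    have hx : x ∈ ⋃ m, A m := by rw [hA.cover]; trivial
    obtain ⟨m, hm⟩ := mem_iUnion.1 hx
    by_cases hmj : m = j
    · refine ⟨l0, ?_⟩
      rw [hB0]
      exact Or.inr (hmj ▸ hm)
    · obtain ⟨l, hl⟩ := Fin.exists_succAbove_eq hmj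
      by_cases hll : l = l0
      · refine ⟨l0, ?_⟩
        rw [hB0]
        left
        rw [← hl0, ← hll, hl]
        exact hm
      · refine ⟨l, ?_⟩
        rw [hBne l hll, hl]
        exact hm
  · -- the value
    have hunion : gaussMoment (A i ∪ A j) = gaussMoment (A i) + gaussMoment (A j) := by
      unfold gaussMoment
      exact setIntegral_union (hA.disjoint hij) (hA.measurable j)
        (integrable_id_std (d := d)).integrableOn (integrable_id_std (d := d)).integrableOn
    unfold propF
    rw [Fin.sum_univ_succAbove (fun m => ‖gaussMoment (A m)‖ ^ 2) j]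
    have hsplit : ∀ l, ‖gaussMoment (B l)‖ ^ 2 = ‖gaussMoment (A (j.succAbove l))‖ ^ 2 +
        (if l = l0 then ‖gaussMoment (A j)‖ ^ 2 +
          2 * inner ℝ (gaussMoment (A i)) (gaussMoment (A j)) else 0) := by
      intro l
      by_cases hl : l = l0
      · subst hl
        rw [hB0, hunion, hl0, if_pos rfl, @norm_add_sq_real]
        ring
      · rw [hBne l hl, if_neg hl]
        ring
    simp_rw [hsplit]
    rw [Finset.sum_add_distrib, Finset.sum_ite_eq' Finset.univ l0]
    simp only [Finset.mem_univ, if_true]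
    ring

end Vale.Agent.P226
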