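import Vale.Agent.P226.DensM

/-!
# Radial averages of `φ`, `t φ` and `Q` on `R^m`
-/

open MeasureTheory ProbabilityTheory Set Filter Topology
open scoped ENNReal

namespace Vale.Agent.P226

variable {m : ℕ}

/-- `E ‖y‖` on `Euc m`. -/
noncomputable def cm (m : ℕ) : ℝ := ∫ y, ‖y‖ ∂(stdGaussian (Euc m))

/-- `κ_m = φ(0) E ‖y‖`. -/
noncomputable def kap (m : ℕ) : ℝ := phi0 * cm m

/-- `W_n(τ) = ∫_τ^∞ (1+u²)^(-n/2) du`. -/
noncomputable def Wn (n : ℕ) (τ : ℝ) : ℝ := ∫ u in Ioi τ, (Real.sqrt (1 + u ^ 2))⁻¹ ^ n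

lemma integrable_norm_std (m : ℕ) : Integrable (fun y : Euc m => ‖y‖) (stdGaussian (Euc m)) :=
  (IsGaussian.integrable_id (μ := stdGaussian (Euc m))).norm

/-- The origin is a null set. -/
lemma ae_ne_zero_std (hm : 1 ≤ m) : ∀ᵐ y ∂(stdGaussian (Euc m)), y ≠ 0 := by
  have : Nonempty (Fin m) := ⟨⟨0, hm⟩⟩
  have h : (volume : Measure (Euc m)) {0} = 0 := measure_singleton 0
  have hac : stdGaussian (Euc m) ≪ (volume : Measure (Euc m)) := by
    rw [stdGaussian_eq_withDensity]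
    exact withDensity_absolutelyContinuous _ _
  rw [ae_iff]
  simpa using hac h

lemma cm_pos (hm : 1 ≤ m) : 0 < cm m := by
  unfold cm
  rw [integral_pos_iff_support_of_nonneg (fun y => norm_nonneg y) (integrable_norm_std m)]
  have h1 : (stdGaussian (Euc m)) (Function.support fun y : Euc m => ‖y‖) = 1 := by
    rw [← measure_univ (μ := stdGaussian (Euc m))]
    apply measure_congr
    filter_upwards [ae_ne_zero_std hm] with y hy
    simp only [eq_iff_iff]
    exact ⟨fun _ => trivial, fun _ => norm_ne_zero_iff.2 hy⟩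
  rw [h1]
  exact one_pos

/-- The Gaussian integral in terms of the density. -/
lemma integral_std (f : Euc m → ℝ) :
    ∫ y, f y ∂(stdGaussian (Euc m)) = ∫ y, gaussDens m y * f y := by
  rw [stdGaussian_eq_withDensity, integral_withDensity_eq_integral_toReal_smul
    (measurable_gaussDens m).ennreal_ofReal (by simp)]
  apply integral_congr_ae
  filter_upwards with y
  rw [ENNReal.toReal_ofReal (gaussDens_nonneg m y), smul_eq_mul]

lemma integral_gaussDens : ∫ y, gaussDens m y = 1 := by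
  have := integral_std (m := m) (fun _ => 1)
  simp only [mul_one] at this
  rw [← this]
  simp

lemma integral_norm_gaussDens : ∫ y, gaussDens m y * ‖y‖ = cm m := by
  unfold cm
  rw [integral_std]

/-- Scaling in `Euc m`. -/
lemma integral_scale (f : Euc m → ℝ) {R : ℝ} (hR : 0 < R) :
    ∫ y, f (R • y) = (R⁻¹) ^ m * ∫ y, f y := by
  rw [Measure.integral_comp_smul, finrank_euclideanSpace_fin, smul_eq_mul, inv_pow,
    abs_of_pos (by positivity)]

lemma sqrt_one_add_pos (τ : ℝ) : 0 < Real.sqrt (1 + τ ^ 2) := by positivity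

/-- The basic pointwise identity. -/
lemma dens_mul_phi (τ : ℝ) (y : Euc m) :
    gaussDens m y * phi (τ * ‖y‖) = phi0 * gaussDens m (Real.sqrt (1 + τ ^ 2) • y) := by
  unfold gaussDens phi phi0
  have h1 : ‖Real.sqrt (1 + τ ^ 2) • y‖ ^ 2 = (1 + τ ^ 2) * ‖y‖ ^ 2 := by
    rw [norm_smul, mul_pow, Real.norm_eq_abs, sq_abs, Real.sq_sqrt (by positivity)]
  rw [h1]
  have h2 : Real.exp (-((1 + τ ^ 2) * ‖y‖ ^ 2) / 2) =
      Real.exp (-‖y‖ ^ 2 / 2) * Real.exp (-(τ * ‖y‖) ^ 2 / 2) := by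
    rw [← Real.exp_add]
    congr 1
    ring
  rw [h2]
  ring

/-- `E φ(τ ‖y‖) = φ(0) (1+τ²)^(-m/2)`. -/
theorem radial_phi (m : ℕ) (τ : ℝ) :
    ∫ y : Euc m, phi (τ * ‖y‖) ∂(stdGaussian (Euc m)) =
      phi0 * (Real.sqrt (1 + τ ^ 2))⁻¹ ^ m := by
  rw [integral_std]
  simp_rw [dens_mul_phi]
  rw [integral_const_mul, integral_scale (gaussDens m) (sqrt_one_add_pos τ), integral_gaussDens,
    mul_one]

/-- `E ‖y‖ φ(τ ‖y‖) = κ_m (1+τ²)^(-(m+1)/2)`. -/
theorem radial_norm_phi (m : ℕ) (τ : ℝ) :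
    ∫ y : Euc m, ‖y‖ * phi (τ * ‖y‖) ∂(stdGaussian (Euc m)) =
      kap m * (Real.sqrt (1 + τ ^ 2))⁻¹ ^ (m + 1) := by
  set R := Real.sqrt (1 + τ ^ 2) with hR
  have hRpos : 0 < R := sqrt_one_add_pos τ
  rw [integral_std]
  have h1 : ∀ y : Euc m, gaussDens m y * (‖y‖ * phi (τ * ‖y‖)) =
      (phi0 * R⁻¹) * (fun z : Euc m => gaussDens m z * ‖z‖) (R • y) := by
    intro y
    have h2 := dens_mul_phi τ y
    rw [← hR] at h2
    simp only [norm_smul, Real.norm_eq_abs, abs_of_pos hRpos]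
    have h3 : gaussDens m y * (‖y‖ * phi (τ * ‖y‖)) = ‖y‖ * (gaussDens m y * phi (τ * ‖y‖)) := by
      ring
    rw [h3, h2]
    field_simp
  simp_rw [h1]
  rw [integral_const_mul, integral_scale (fun z : Euc m => gaussDens m z * ‖z‖) hRpos,
    integral_norm_gaussDens]
  unfold kap
  rw [pow_succ]
  ring

lemma integrableOn_sqrt_inv_pow (hm : 1 ≤ m) (τ : ℝ) :
    IntegrableOn (fun u : ℝ => (Real.sqrt (1 + u ^ 2))⁻¹ ^ (m + 1)) (Ioi τ) := by
  have h0 : Integrable (fun u : ℝ => (1 + u ^ 2)⁻¹) := integrable_inv_one_add_sq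
  refine Integrable.mono' h0.integrableOn (Continuous.aestronglyMeasurable ?_) ?_
  · apply Continuous.pow
    apply Continuous.inv₀ (by fun_prop)
    intro u
    exact (sqrt_one_add_pos u).ne'
  · filter_upwards with u
    have hpos := sqrt_one_add_pos u
    have h1 : 1 ≤ Real.sqrt (1 + u ^ 2) := by
      rw [Real.one_le_sqrt]
      nlinarith [sq_nonneg u]
    have h2 : (Real.sqrt (1 + u ^ 2))⁻¹ ≤ 1 := inv_le_one_of_one_le₀ h1
    have h3 : 0 ≤ (Real.sqrt (1 + u ^ 2))⁻¹ := by positivity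
    rw [Real.norm_eq_abs, abs_of_nonneg (by positivity)]
    have h4 : (Real.sqrt (1 + u ^ 2))⁻¹ ^ (m + 1) ≤ (Real.sqrt (1 + u ^ 2))⁻¹ ^ 2 :=
      pow_le_pow_of_le_one h3 h2 (by omega)
    have h5 : (Real.sqrt (1 + u ^ 2))⁻¹ ^ 2 = (1 + u ^ 2)⁻¹ := by
      rw [inv_pow, Real.sq_sqrt (by positivity)]
    linarith

lemma integrable_norm_mul_phi (m : ℕ) (u : ℝ) :
    Integrable (fun y : Euc m => ‖y‖ * phi (u * ‖y‖)) (stdGaussian (Euc m)) := by
  refine Integrable.mono' ((integrable_norm_std m).mul_const phi0)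
    (Continuous.aestronglyMeasurable ?_) ?_
  · have := continuous_phi
    fun_prop
  · filter_upwards with y
    have h1 := phi_pos (u * ‖y‖)
    have h2 := phi_le_phi0 (u * ‖y‖)
    rw [Real.norm_eq_abs, abs_of_nonneg (by positivity)]
    exact mul_le_mul_of_nonneg_left h2 (norm_nonneg y)

/-- `E Q(τ ‖y‖) = κ_m W_{m+1}(τ)` for `τ ≥ 0`, `m ≥ 1`. -/
theorem radial_Q (hm : 1 ≤ m) {τ : ℝ} (_hτ : 0 ≤ τ) :
    ∫ y : Euc m, Qf (τ * ‖y‖) ∂(stdGaussian (Euc m)) = kap m * Wn (m + 1) τ := by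
  have hpt : ∀ᵐ y ∂(stdGaussian (Euc m)), Qf (τ * ‖y‖) =
      ∫ u in Ioi τ, ‖y‖ * phi (u * ‖y‖) := by
    filter_upwards [ae_ne_zero_std hm] with y hy
    have hr : 0 < ‖y‖ := norm_pos_iff.2 hy
    rw [integral_const_mul, Qf_eq]
    have h2 : ∀ u : ℝ, phi (u * ‖y‖) = phi (‖y‖ * u) := fun u => by rw [mul_comm]
    simp_rw [h2]
    rw [integral_comp_mul_left_Ioi phi τ hr, smul_eq_mul, ← mul_assoc, mul_inv_cancel₀ hr.ne',
      one_mul, mul_comm ‖y‖ τ]
  rw [integral_congr_ae hpt]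
  have hmeas : Measurable (Function.uncurry fun (y : Euc m) (u : ℝ) => ‖y‖ * phi (u * ‖y‖)) := by
    have := measurable_phi
    unfold Function.uncurry
    fun_prop
  have hint : Integrable (Function.uncurry fun (y : Euc m) (u : ℝ) => ‖y‖ * phi (u * ‖y‖))
      ((stdGaussian (Euc m)).prod (volume.restrict (Ioi τ))) := by
    rw [integrable_prod_iff' hmeas.aestronglyMeasurable]
    constructor
    · filter_upwards with u
      exact integrable_norm_mul_phi m u
    · have h3 : ∀ u : ℝ, ∫ y : Euc m, ‖Function.uncurry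
          (fun (y : Euc m) (u : ℝ) => ‖y‖ * phi (u * ‖y‖)) (y, u)‖ ∂(stdGaussian (Euc m)) =
          kap m * (Real.sqrt (1 + u ^ 2))⁻¹ ^ (m + 1) := by
        intro u
        rw [← radial_norm_phi]
        apply integral_congr_ae
        filter_upwards with y
        simp only [Function.uncurry]
        have := phi_pos (u * ‖y‖)
        rw [Real.norm_eq_abs, abs_of_nonneg (by positivity)]
      simp_rw [h3]
      exact (integrableOn_sqrt_inv_pow hm τ).const_mul _
  rw [integral_integral_swap hint]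
  unfold Wn
  rw [← integral_const_mul]
  apply integral_congr_ae
  filter_upwards with u
  rw [radial_norm_phi]

/-- In particular `κ_m W_{m+1}(0) = 1/2`. -/
theorem kap_mul_Wn_zero (hm : 1 ≤ m) : kap m * Wn (m + 1) 0 = 1 / 2 := by
  have h := radial_Q (m := m) hm (le_refl (0 : ℝ))
  simp only [zero_mul, Qf_zero] at h
  rw [← h]
  simp

end Vale.Agent.P226
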