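import Vale.Agent.P226.Chain

/-!
# The induction on the number of cells, for a general threshold
-/

open MeasureTheory ProbabilityTheory Set Filter Topology

namespace Vale.Agent.P226

/-- Induction step: passing from `n` to `n + 1` cells, given the bound for obtuse fixed points
with `n + 1` cells. -/
theorem step_cells_of {n : ℕ} {C : ℝ} (hC : 9 / (8 * Real.pi) ≤ C)
    (hob : ∀ (d : ℕ) (Z : Fin (n + 1) → Euc d), ObtuseFP Z → ∑ i, ‖Z i‖ ^ 2 ≤ 9 / (8 * Real.pi))
    (hyp : ∀ (d : ℕ) (A : Fin n → Set (Euc d)), IsMeasPartition A → propF A ≤ C)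
    (d : ℕ) (A : Fin (n + 1) → Set (Euc d)) (hA : IsMeasPartition A) : propF A ≤ C := by
  obtain ⟨Z, hfp, hmax⟩ := exists_fixedPoint (k := n + 1) d
  refine (hmax A hA).trans ?_
  by_cases hneg : ∀ i j, i ≠ j → inner ℝ (Z i) (Z j) < 0
  · exact (hob d Z ⟨hfp, hneg⟩).trans hC
  · push Not at hneg
    obtain ⟨i, j, hij, hpos⟩ := hneg
    obtain ⟨B, hB, hval⟩ := merge_cells (isMeasPartition_argCell Z) hij
    have h1 := hyp d B hB
    rw [hval] at h1
    simp only [hfp] at h1
    have h2 : propF (argCell Z) = ∑ i, ‖Z i‖ ^ 2 := by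
      unfold propF
      simp only [hfp]
    rw [h2] at h1
    linarith

/-- **Finite reduction** with threshold `K`, from the bound for obtuse fixed points with more
than `K` cells. -/
theorem finite_reduction_of {K : ℕ} {C : ℝ} (hC : 9 / (8 * Real.pi) ≤ C)
    (hob : ∀ (k d : ℕ) (Z : Fin k → Euc d), K < k → ObtuseFP Z →
      ∑ i, ‖Z i‖ ^ 2 ≤ 9 / (8 * Real.pi))
    (hyp : ∀ (d : ℕ) (A : Fin K → Set (Euc d)), IsMeasPartition A → propF A ≤ C)
    (d k : ℕ) (A : Fin k → Set (Euc d)) (hA : IsMeasPartition A) : propF A ≤ C := by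
  have hup : ∀ m, K ≤ m → ∀ (d : ℕ) (A : Fin m → Set (Euc d)), IsMeasPartition A →
      propF A ≤ C := by
    intro m hm
    induction m, hm using Nat.le_induction with
    | base => exact hyp
    | succ n hn ih =>
      exact step_cells_of hC (fun d Z hZ => hob (n + 1) d Z (by omega) hZ) ih
  have hdown : ∀ j k, k + j = K → ∀ (A : Fin k → Set (Euc d)), IsMeasPartition A →
      propF A ≤ C := by
    intro j
    induction j with
    | zero =>
      intro k hk
      simp only [add_zero] at hk
      subst hk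
      exact hyp d
    | succ j ih =>
      intro k hk A hA
      exact drop_cell d (fun A' hA' => ih (k + 1) (by omega) A' hA') A hA
  by_cases hk : K ≤ k
  · exact hup k hk d A hA
  · exact hdown (K - k) k (by omega) A hA

end Vale.Agent.P226
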