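import Vale.Agent.P226.PairChk

/-!
# Series bounds for the Gaussian tail and validity of the numerical tables
-/

open MeasureTheory ProbabilityTheory Set Filter Topology

namespace Vale.Agent.P226

/-- Coefficients of the even series `∑ t^(2n) / (2^n n!)`. -/
def ea : ℕ → ℚ
  | 0 => 1
  | n + 1 => ea n / (2 * (n + 1))

/-- Coefficients of the odd series `∑ t^(2n+1) / (2n+1)!!`. -/
def oa : ℕ → ℚ
  | 0 => 1
  | n + 1 => oa n / (2 * n + 3)

/-- Partial sums of the even series. -/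
noncomputable def sumE : ℕ → ℝ → ℝ
  | 0, _ => 1
  | n + 1, t => sumE n t + (ea (n + 1) : ℝ) * t ^ (2 * (n + 1))

/-- Partial sums of the odd series. -/
noncomputable def sumO : ℕ → ℝ → ℝ
  | 0, t => t
  | n + 1, t => sumO n t + (oa (n + 1) : ℝ) * t ^ (2 * (n + 1) + 1)

lemma ea_pos (n : ℕ) : 0 < ea n := by
  induction n with
  | zero => simp [ea]
  | succ n ih =>
    rw [ea]
    positivity

lemma oa_pos (n : ℕ) : 0 < oa n := by
  induction n with
  | zero => simp [oa]
  | succ n ih =>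
    rw [oa]
    positivity

lemma ea_succ_cast (n : ℕ) : ((ea (n + 1) : ℚ) : ℝ) * (2 * ((n : ℝ) + 1)) = (ea n : ℝ) := by
  rw [ea]
  push_cast
  field_simp

lemma oa_succ_cast (n : ℕ) : ((oa (n + 1) : ℚ) : ℝ) * (2 * (n : ℝ) + 3) = (oa n : ℝ) := by
  rw [oa]
  push_cast
  field_simp

/-- Derivative of the even partial sum. -/
lemma hasDerivAt_sumE (n : ℕ) (t : ℝ) : HasDerivAt (sumE (n + 1)) (t * sumE n t) t := by
  induction n with
  | zero =>
    have h : sumE 1 = fun t => 1 + (ea 1 : ℝ) * t ^ 2 := by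
      funext u
      simp [sumE]
    rw [h]
    have h1 := ((hasDerivAt_pow 2 t).const_mul (ea 1 : ℝ)).const_add 1
    refine h1.congr_deriv ?_
    have h2 := ea_succ_cast 0
    simp only [sumE]
    simp at h2 ⊢
    have h3 : (ea 0 : ℝ) = 1 := by simp [ea]
    rw [h3] at h2
    linear_combination t * h2
  | succ n ih =>
    have h : sumE (n + 1 + 1) = fun u => sumE (n + 1) u + (ea (n + 1 + 1) : ℝ) * u ^ (2 * (n + 1 + 1)) := by
      funext u
      simp only [sumE]
    rw [h]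
    have h1 := ih.add ((hasDerivAt_pow (2 * (n + 1 + 1)) t).const_mul (ea (n + 1 + 1) : ℝ))
    refine h1.congr_deriv ?_
    have h2 := ea_succ_cast (n + 1)
    simp only [sumE]
    push_cast at h2 ⊢
    have h3 : (2 * (n + 1 + 1) - 1 : ℕ) = 2 * (n + 1) + 1 := by omega
    rw [h3, pow_succ t (2 * (n + 1))]
    rw [← h2]
    ring

/-- Derivative of the odd partial sum. -/
lemma hasDerivAt_sumO_zero (t : ℝ) : HasDerivAt (sumO 0) 1 t := by
  have h : sumO 0 = fun t => t := by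
    funext u
    simp [sumO]
  rw [h]
  exact hasDerivAt_id t

lemma hasDerivAt_sumO (n : ℕ) (t : ℝ) : HasDerivAt (sumO (n + 1)) (1 + t * sumO n t) t := by
  induction n with
  | zero =>
    have h : sumO 1 = fun t => t + (oa 1 : ℝ) * t ^ 3 := by
      funext u
      simp [sumO]
    rw [h]
    have h1 := (hasDerivAt_id t).add ((hasDerivAt_pow 3 t).const_mul (oa 1 : ℝ))
    refine h1.congr_deriv ?_
    have h2 := oa_succ_cast 0
    simp only [sumO]
    simp at h2 ⊢
    have h3 : (oa 0 : ℝ) = 1 := by simp [oa]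
    rw [h3] at h2
    nlinarith
  | succ n ih =>
    have h : sumO (n + 1 + 1) = fun u => sumO (n + 1) u + (oa (n + 1 + 1) : ℝ) * u ^ (2 * (n + 1 + 1) + 1) := by
      funext u
      simp only [sumO]
    rw [h]
    have h1 := ih.add ((hasDerivAt_pow (2 * (n + 1 + 1) + 1) t).const_mul (oa (n + 1 + 1) : ℝ))
    refine h1.congr_deriv ?_
    have h2 := oa_succ_cast (n + 1)
    simp only [sumO]
    push_cast at h2 ⊢
    have h3 : t ^ (2 * (n + 1 + 1)) = t ^ (2 * (n + 1) + 1) * t := by ring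
    rw [h3, ← h2]
    ring

/-- `E_N(t) φ(t) ≤ φ(0)` for `t ≥ 0`. -/
lemma sumE_mul_phi_le (N : ℕ) {t : ℝ} (ht : 0 ≤ t) : sumE (N + 1) t * phi t ≤ phi0 := by
  let g : ℝ → ℝ := fun u => sumE (N + 1) u * phi u
  have hg : ∀ u, HasDerivAt g (-(u * ((ea (N + 1) : ℝ) * u ^ (2 * (N + 1))) * phi u)) u := by
    intro u
    have h := (hasDerivAt_sumE N u).mul (hasDerivAt_phi u)
    refine h.congr_deriv ?_
    simp only [sumE]
    ring
  have hanti : AntitoneOn g (Ici 0) := by
    apply antitoneOn_of_deriv_nonpos (convex_Ici 0)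
    · exact fun u _ => (hg u).continuousAt.continuousWithinAt
    · exact fun u _ => (hg u).differentiableAt.differentiableWithinAt
    · intro u hu
      rw [interior_Ici] at hu
      rw [(hg u).deriv]
      have h0 : (0 : ℝ) < u := hu
      have h1 : (0 : ℝ) < (ea (N + 1) : ℝ) := by exact_mod_cast ea_pos (N + 1)
      have := phi_pos u
      have h2 : 0 ≤ u * ((ea (N + 1) : ℝ) * u ^ (2 * (N + 1))) * phi u := by positivity
      linarith
  have h := hanti (mem_Ici.2 le_rfl) (mem_Ici.2 ht) ht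
  have h0 : g 0 = phi0 := by
    simp only [g, phi_zero]
    have : sumE (N + 1) 0 = 1 := by
      clear h hanti hg
      induction N with
      | zero => simp [sumE]
      | succ n ih => rw [sumE, ih]; simp
    rw [this, one_mul]
  rw [h0] at h
  exact h

/-- The series lower bound for the Gaussian tail. -/
theorem Qf_ge_series (N : ℕ) {c t : ℝ} (hc : c ≤ Real.sqrt (Real.pi / 2)) (ht : 0 ≤ t)
    (hT : (oa (N + 1) : ℝ) * t ≤ c * (ea (N + 1) : ℝ)) :
    (c * sumE (N + 1) t - sumO (N + 1) t) * phi t ≤ Qf t := by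
  let r : ℝ → ℝ := fun u => c * sumE (N + 1) u - sumO (N + 1) u
  let g : ℝ → ℝ := fun u => Qf u - r u * phi u
  have hr : ∀ u, HasDerivAt r (c * (u * sumE N u) - (1 + u * sumO N u)) u := fun u =>
    ((hasDerivAt_sumE N u).const_mul c).sub (hasDerivAt_sumO N u)
  have hg : ∀ u, HasDerivAt g (phi u * (u ^ (2 * (N + 1) + 1) *
      (c * (ea (N + 1) : ℝ) - (oa (N + 1) : ℝ) * u))) u := by
    intro u
    have h := (hasDerivAt_Qf u).sub ((hr u).mul (hasDerivAt_phi u))
    refine h.congr_deriv ?_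
    simp only [r, sumE, sumO]
    ring
  have hmono : MonotoneOn g (Icc 0 t) := by
    apply monotoneOn_of_deriv_nonneg (convex_Icc 0 t)
    · exact fun u _ => (hg u).continuousAt.continuousWithinAt
    · exact fun u _ => (hg u).differentiableAt.differentiableWithinAt
    · intro u hu
      rw [interior_Icc] at hu
      rw [(hg u).deriv]
      have h0 : 0 < u := hu.1
      have h1 : 0 < (oa (N + 1) : ℝ) := by exact_mod_cast oa_pos (N + 1)
      have h2 : (oa (N + 1) : ℝ) * u ≤ (oa (N + 1) : ℝ) * t :=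
        mul_le_mul_of_nonneg_left hu.2.le h1.le
      have h3 : 0 ≤ c * (ea (N + 1) : ℝ) - (oa (N + 1) : ℝ) * u := by linarith
      have := phi_pos u
      positivity
  have h := hmono (left_mem_Icc.2 ht) (right_mem_Icc.2 ht) ht
  have h0 : 0 ≤ g 0 := by
    have e1 : sumE (N + 1) 0 = 1 := by
      clear h hmono hg hr hT
      induction N with
      | zero => simp [sumE]
      | succ n ih => rw [sumE, ih]; simp
    have e2 : sumO (N + 1) 0 = 0 := by
      clear h hmono hg hr hT e1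
      induction N with
      | zero => simp [sumO]
      | succ n ih => rw [sumO, ih]; simp
    simp only [g, r, e1, e2, phi_zero, Qf_zero, mul_one, sub_zero]
    have h2 := sqrt_mul_phi0
    have := mul_le_mul_of_nonneg_right hc phi0_pos.le
    linarith
  have h1 := h0.trans h
  simp only [g, r] at h1
  linarith

/-- One pass evaluation of the partial sums: term of the even series, term of the odd series
(without the factor `t`), even sum, odd sum (without the factor `t`). -/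
def sumsQ (t2 : ℚ) : ℕ → ℚ × ℚ × ℚ × ℚ
  | 0 => (1, 1, 1, 1)
  | n + 1 =>
    let p := sumsQ t2 n
    let e := p.1 * t2 / (2 * (n + 1))
    let o := p.2.1 * t2 / (2 * n + 3)
    (e, o, p.2.2.1 + e, p.2.2.2 + o)

lemma sumsQ_e (t2 : ℚ) (n : ℕ) : (sumsQ t2 n).1 = ea n * t2 ^ n := by
  induction n with
  | zero => simp [sumsQ, ea]
  | succ n ih =>
    simp only [sumsQ, ih, ea]
    have : (2 * ((n : ℚ) + 1)) ≠ 0 := by positivity
    field_simp
    ring

lemma sumsQ_o (t2 : ℚ) (n : ℕ) : (sumsQ t2 n).2.1 = oa n * t2 ^ n := by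
  induction n with
  | zero => simp [sumsQ, oa]
  | succ n ih =>
    simp only [sumsQ, ih, oa]
    have : (2 * (n : ℚ) + 3) ≠ 0 := by positivity
    field_simp
    ring

lemma sumsQ_E (q : ℚ) (n : ℕ) : (((sumsQ (q * q) n).2.2.1 : ℚ) : ℝ) = sumE n (q : ℝ) := by
  induction n with
  | zero => simp [sumsQ, sumE]
  | succ n ih =>
    simp only [sumsQ]
    rw [Rat.cast_add, ih, sumE, sumsQ_e]
    congr 1
    have h : ((ea n * (q * q) ^ n * (q * q) / (2 * ((n : ℚ) + 1)) : ℚ)) =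
        ea (n + 1) * q ^ (2 * (n + 1)) := by
      rw [ea]
      have : (2 * ((n : ℚ) + 1)) ≠ 0 := by positivity
      field_simp
      ring
    rw [h]
    push_cast
    ring

lemma sumsQ_O (q : ℚ) (n : ℕ) : (q : ℝ) * (((sumsQ (q * q) n).2.2.2 : ℚ) : ℝ) = sumO n (q : ℝ) := by
  induction n with
  | zero => simp [sumsQ, sumO]
  | succ n ih =>
    simp only [sumsQ]
    rw [Rat.cast_add, mul_add, ih, sumO, sumsQ_o]
    congr 1
    have h : ((oa n * (q * q) ^ n * (q * q) / (2 * (n : ℚ) + 3) : ℚ)) =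
        oa (n + 1) * q ^ (2 * (n + 1)) := by
      rw [oa]
      have : (2 * (n : ℚ) + 3) ≠ 0 := by positivity
      field_simp
      ring
    rw [h]
    push_cast
    ring

/-- A rational lower bound for `π`. -/
def piLow : ℚ := 314159265358979323846 / 100000000000000000000

/-- A rational lower bound for `√(π/2)`. -/
def cLow : ℚ := 125331413731550 / 100000000000000

/-- Rational upper bound for `φ(0)`. -/
def phi0Up : ℚ := 398942280402 / 1000000000000

lemma piLow_le : (piLow : ℝ) ≤ Real.pi := by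
  have := Real.pi_gt_d20
  simp only [piLow]
  push_cast
  linarith

lemma cLow_le : (cLow : ℝ) ≤ Real.sqrt (Real.pi / 2) := by
  apply Real.le_sqrt_of_sq_le
  have h := piLow_le
  have h2 : ((cLow : ℝ)) ^ 2 ≤ (piLow : ℝ) / 2 := by
    norm_num [cLow, piLow]
  linarith

lemma phi0_sq : phi0 ^ 2 = 1 / (2 * Real.pi) := by
  unfold phi0
  rw [inv_pow, Real.sq_sqrt (by positivity), one_div]

lemma phi0_le_up : phi0 ≤ (phi0Up : ℝ) := by
  have h0 : 0 ≤ (phi0Up : ℝ) := by norm_num [phi0Up]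
  refine abs_le_of_sq_le_sq' ?_ h0 |>.2
  rw [phi0_sq]
  have h := piLow_le
  have hpos : (0 : ℝ) < piLow := by norm_num [piLow]
  have h2 : 1 / (2 * Real.pi) ≤ 1 / (2 * (piLow : ℝ)) :=
    one_div_le_one_div_of_le (by positivity) (by linarith)
  refine h2.trans ?_
  norm_num [phi0Up, piLow]

/-- The number of terms used. -/
def NS : ℕ := 60

/-- Lower bound for the ratio `Q/φ` at `q`. -/
def rQ (q : ℚ) : ℚ :=
  let p := sumsQ (q * q) (NS + 1)
  cLow * p.2.2.1 - q * p.2.2.2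

/-- Even sum at `q`. -/
def eQ (q : ℚ) : ℚ := (sumsQ (q * q) (NS + 1)).2.2.1

lemma oa_le_check {q : ℚ} (h : oa (NS + 1) * q ≤ cLow * ea (NS + 1)) :
    ((oa (NS + 1) : ℚ) : ℝ) * (q : ℝ) ≤ (cLow : ℝ) * ((ea (NS + 1) : ℚ) : ℝ) := by
  exact_mod_cast h

/-- The series bound at a rational point. -/
lemma rQ_bound {q : ℚ} (hq : 0 ≤ q) (h : oa (NS + 1) * q ≤ cLow * ea (NS + 1)) :
    ((rQ q : ℚ) : ℝ) * phi q ≤ Qf q := by
  have hq' : (0 : ℝ) ≤ q := by exact_mod_cast hq
  have h1 := Qf_ge_series NS cLow_le hq' (oa_le_check h)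
  have h2 : ((rQ q : ℚ) : ℝ) = (cLow : ℝ) * sumE (NS + 1) q - sumO (NS + 1) q := by
    simp only [rQ]
    rw [Rat.cast_sub, Rat.cast_mul, Rat.cast_mul, sumsQ_E, sumsQ_O]
  rw [h2]
  exact h1

lemma eQ_bound {q : ℚ} (hq : 0 ≤ q) : ((eQ q : ℚ) : ℝ) * phi q ≤ phi0 := by
  have hq' : (0 : ℝ) ≤ q := by exact_mod_cast hq
  have h1 := sumE_mul_phi_le NS hq'
  simp only [eQ]
  rw [sumsQ_E]
  exact h1

/-- Bound for `ψ̂` at a rational point. -/
lemma psiHat_bound {q : ℚ} (hq : 0 ≤ q) (h : oa (NS + 1) * q ≤ cLow * ea (NS + 1))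
    (h1 : q * rQ q ≤ 1) : ((eQ q : ℚ) : ℝ) * psiHat q ≤ phi0 * (1 - q * rQ q) := by
  have hq' : (0 : ℝ) ≤ q := by exact_mod_cast hq
  have h1' : (q : ℝ) * (rQ q : ℝ) ≤ 1 := by exact_mod_cast h1
  have hr := rQ_bound hq h
  have he := eQ_bound hq
  have hpos := phi_pos (q : ℝ)
  have hEpos : (0 : ℝ) ≤ (eQ q : ℝ) := by
    simp only [eQ]
    rw [sumsQ_E]
    clear hr he h1 h1' h
    have : ∀ n, 1 ≤ sumE n (q : ℝ) := by
      intro n
      induction n with
      | zero => simp [sumE]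
      | succ n ih =>
        rw [sumE]
        have h0 : (0 : ℝ) < (ea (n + 1) : ℝ) := by exact_mod_cast ea_pos (n + 1)
        have : 0 ≤ (ea (n + 1) : ℝ) * (q : ℝ) ^ (2 * (n + 1)) := by positivity
        linarith
    linarith [this (NS + 1)]
  unfold psiHat
  have h2 : (q : ℝ) * ((rQ q : ℝ) * phi q) ≤ (q : ℝ) * Qf q :=
    mul_le_mul_of_nonneg_left hr hq'
  have h3 : phi q - (q : ℝ) * Qf q ≤ phi q * (1 - (q : ℝ) * (rQ q : ℝ)) := by nlinarith
  have h4 : 0 ≤ 1 - (q : ℝ) * (rQ q : ℝ) := by linarith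
  calc (eQ q : ℝ) * (phi q - (q : ℝ) * Qf q) ≤ (eQ q : ℝ) * (phi q * (1 - (q : ℝ) * (rQ q : ℝ))) :=
        mul_le_mul_of_nonneg_left h3 hEpos
    _ = ((eQ q : ℝ) * phi q) * (1 - (q : ℝ) * (rQ q : ℝ)) := by ring
    _ ≤ phi0 * (1 - (q : ℝ) * (rQ q : ℝ)) := mul_le_mul_of_nonneg_right he h4

/-- A natural number as a rational in fixed point. -/
def fq (n : ℕ) : ℚ := (n : ℚ) / 4294967296

lemma fq_cast (n : ℕ) : ((fq n : ℚ) : ℝ) = val n := by
  unfold fq val
  push_cast
  norm_num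

lemma fq_nonneg (n : ℕ) : 0 ≤ fq n := by
  unfold fq; positivity

/-- Check of an entry `(s, b)` of the table of tangents: `φ(0) ψ̂(s) ≤ b`. -/
def tanCheck (e : ℕ × ℕ) : Bool :=
  let q := fq e.1
  let p := sumsQ (q * q) (NS + 1)
  let r := cLow * p.2.2.1 - q * p.2.2.2
  decide (oa (NS + 1) * q ≤ cLow * ea (NS + 1)) && decide (q * r ≤ 1) &&
    decide ((1 - q * r) ≤ fq e.2 * p.2.2.1 * (2 * piLow))

/-- Soundness of `tanCheck`. -/
lemma tanCheck_sound {e : ℕ × ℕ} (h : tanCheck e = true) :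
    phi0 * psiHat (val e.1) ≤ val e.2 := by
  simp only [tanCheck, Bool.and_eq_true, decide_eq_true_eq] at h
  obtain ⟨⟨h1, h2⟩, h3⟩ := h
  have hq := fq_nonneg e.1
  have hb := psiHat_bound hq h1 h2
  rw [fq_cast] at hb
  have h3' : (1 : ℝ) - (fq e.1 : ℝ) * (rQ (fq e.1) : ℝ) ≤
      (fq e.2 : ℝ) * (eQ (fq e.1) : ℝ) * (2 * (piLow : ℝ)) := by
    exact_mod_cast h3
  rw [fq_cast, fq_cast] at h3'
  have hEpos : (0 : ℝ) < (eQ (fq e.1) : ℝ) := by
    simp only [eQ]
    rw [sumsQ_E]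
    have : ∀ n, 1 ≤ sumE n (fq e.1 : ℝ) := by
      intro n
      induction n with
      | zero => simp [sumE]
      | succ n ih =>
        rw [sumE]
        have h0 : (0 : ℝ) < (ea (n + 1) : ℝ) := by exact_mod_cast ea_pos (n + 1)
        have : 0 ≤ (ea (n + 1) : ℝ) * (fq e.1 : ℝ) ^ (2 * (n + 1)) := by
          have := fq_nonneg e.1
          have : (0 : ℝ) ≤ (fq e.1 : ℝ) := by exact_mod_cast this
          positivity
        linarith
    linarith [this (NS + 1)]
  set E := (eQ (fq e.1) : ℝ) with hE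
  set R := 1 - val e.1 * (rQ (fq e.1) : ℝ) with hR
  have hp0 := phi0_pos
  have hpi : (0 : ℝ) < piLow := by norm_num [piLow]
  have h5 : phi0 ^ 2 * (2 * (piLow : ℝ)) ≤ 1 := by
    rw [phi0_sq]
    have := piLow_le
    have h6 : (0 : ℝ) < Real.pi := Real.pi_pos
    rw [div_mul_eq_mul_div, one_mul, div_le_one (by positivity)]
    linarith
  -- `E ψ ≤ φ0 R`, `R ≤ b E (2π)`, so `φ0 ψ ≤ φ0² R / E ≤ b`.
  have h7 : E * (phi0 * psiHat (val e.1)) ≤ phi0 ^ 2 * R := by
    have := mul_le_mul_of_nonneg_left hb hp0.le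
    nlinarith
  have h8 : phi0 ^ 2 * R ≤ phi0 ^ 2 * (val e.2 * E * (2 * (piLow : ℝ))) :=
    mul_le_mul_of_nonneg_left h3' (by positivity)
  have h9 : phi0 ^ 2 * (val e.2 * E * (2 * (piLow : ℝ))) ≤ val e.2 * E := by
    have h10 : 0 ≤ val e.2 * E := mul_nonneg (val_nonneg _) hEpos.le
    nlinarith
  have h11 : E * (phi0 * psiHat (val e.1)) ≤ E * val e.2 := by linarith
  exact le_of_mul_le_mul_left h11 hEpos

/-- Validity of a table of tangents from the checks. -/
lemma tanValid_of_all {T : List (ℕ × ℕ)} (h : T.all tanCheck = true) : TanValid T := by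
  intro e he
  exact tanCheck_sound (List.all_eq_true.1 h e he)

/-- Check of a tangent point `(τ, ρ)` for the Mills ratio. -/
def tauCheck (e : ℕ × ℕ) : Bool :=
  let q := fq e.1
  let p := sumsQ (q * q) (NS + 1)
  let r := cLow * p.2.2.1 - q * p.2.2.2
  let ρ := fq e.2
  decide (oa (NS + 1) * q ≤ cLow * ea (NS + 1)) && decide (ρ ≤ r) &&
    decide (q ≤ ρ * (1 + q ^ 2)) && decide (q * ρ < 1)

/-- Soundness of `tauCheck`. -/
lemma tauCheck_sound {e : ℕ × ℕ} (h : tauCheck e = true) :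
    val e.2 * phi (val e.1) ≤ Qf (val e.1) ∧ val e.1 ≤ val e.2 * (1 + val e.1 ^ 2) ∧
      val e.1 * val e.2 < 1 := by
  simp only [tauCheck, Bool.and_eq_true, decide_eq_true_eq] at h
  obtain ⟨⟨⟨h1, h2⟩, h3⟩, h4⟩ := h
  have hq := fq_nonneg e.1
  have hb := rQ_bound hq h1
  rw [fq_cast] at hb
  have h2' : val e.2 ≤ (rQ (fq e.1) : ℝ) := by
    rw [← fq_cast]
    exact_mod_cast h2
  have h3' : val e.1 ≤ val e.2 * (1 + val e.1 ^ 2) := by
    rw [← fq_cast, ← fq_cast]
    exact_mod_cast h3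
  have h4' : val e.1 * val e.2 < 1 := by
    rw [← fq_cast, ← fq_cast]
    exact_mod_cast h4
  refine ⟨?_, h3', h4'⟩
  exact (mul_le_mul_of_nonneg_right h2' (phi_pos _).le).trans hb

/-- Check of an entry `(s, ψ)` for the isoperimetric bound: `ψ̂(s) ≤ ψ`. -/
def isoCheck (e : ℕ × ℕ) : Bool :=
  let q := fq e.1
  let p := sumsQ (q * q) (NS + 1)
  let r := cLow * p.2.2.1 - q * p.2.2.2
  decide (oa (NS + 1) * q ≤ cLow * ea (NS + 1)) && decide (q * r ≤ 1) &&
    decide (phi0Up * (1 - q * r) ≤ fq e.2 * p.2.2.1)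

/-- Soundness of `isoCheck`. -/
lemma isoCheck_sound {e : ℕ × ℕ} (h : isoCheck e = true) : psiHat (val e.1) ≤ val e.2 := by
  simp only [isoCheck, Bool.and_eq_true, decide_eq_true_eq] at h
  obtain ⟨⟨h1, h2⟩, h3⟩ := h
  have hq := fq_nonneg e.1
  have hb := psiHat_bound hq h1 h2
  rw [fq_cast] at hb
  have h3' : (phi0Up : ℝ) * ((1 : ℝ) - (fq e.1 : ℝ) * (rQ (fq e.1) : ℝ)) ≤
      (fq e.2 : ℝ) * (eQ (fq e.1) : ℝ) := by
    exact_mod_cast h3
  rw [fq_cast, fq_cast] at h3'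
  have hEpos : (0 : ℝ) < (eQ (fq e.1) : ℝ) := by
    simp only [eQ]
    rw [sumsQ_E]
    have : ∀ n, 1 ≤ sumE n (fq e.1 : ℝ) := by
      intro n
      induction n with
      | zero => simp [sumE]
      | succ n ih =>
        rw [sumE]
        have h0 : (0 : ℝ) < (ea (n + 1) : ℝ) := by exact_mod_cast ea_pos (n + 1)
        have : 0 ≤ (ea (n + 1) : ℝ) * (fq e.1 : ℝ) ^ (2 * (n + 1)) := by
          have := fq_nonneg e.1
          have : (0 : ℝ) ≤ (fq e.1 : ℝ) := by exact_mod_cast this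
          positivity
        linarith
    linarith [this (NS + 1)]
  have h2' : (fq e.1 : ℝ) * (rQ (fq e.1) : ℝ) ≤ 1 := by exact_mod_cast h2
  rw [fq_cast] at h2'
  have hR : 0 ≤ (1 : ℝ) - val e.1 * (rQ (fq e.1) : ℝ) := by linarith
  have h5 := mul_le_mul_of_nonneg_right phi0_le_up hR
  have h6 : (eQ (fq e.1) : ℝ) * psiHat (val e.1) ≤ (eQ (fq e.1) : ℝ) * val e.2 := by
    calc _ ≤ _ := hb
      _ ≤ _ := h5
      _ ≤ _ := h3'
      _ = _ := by ring
  exact le_of_mul_le_mul_left h6 hEpos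

end Vale.Agent.P226
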