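import Vale.Agent.P226.FacetZ

/-!
# Obtuse fixed points with two or three cells

For two cells, the bound follows from `‖Z i‖ ≤ φ(0)`.  For three cells the two other vectors
`v_j` of a cell are antiparallel, the regions of the height function are two half spaces
up to a null set, and the balance identity then determines all the mutual distances of the
vectors `Z i`: they equal `3 φ(0) / 2`.
-/

open MeasureTheory ProbabilityTheory Set Filter Topology

namespace Vale.Agent.P226

variable {d : ℕ}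

lemma phi_mul_phi_scale (c s : ℝ) :
    phi s * phi (c * s) = phi0 * phi (Real.sqrt (1 + c ^ 2) * s) := by
  unfold phi phi0
  have h1 : (Real.sqrt (1 + c ^ 2) * s) ^ 2 = (1 + c ^ 2) * s ^ 2 := by
    rw [mul_pow, Real.sq_sqrt (by positivity)]
  rw [h1]
  have h2 : Real.exp (-s ^ 2 / 2) * Real.exp (-(c * s) ^ 2 / 2) =
      Real.exp (-((1 + c ^ 2) * s ^ 2) / 2) := by
    rw [← Real.exp_add]
    congr 1
    ring
  rw [← h2]
  ring

/-- The one dimensional integral. -/
lemma integral_half_phi (c : ℝ) :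
    ∫ s in Ioi (0 : ℝ), phi (c * s) ∂(gaussianReal 0 1) =
      phi0 * (Real.sqrt (1 + c ^ 2))⁻¹ / 2 := by
  rw [setIntegral_g1 _ measurableSet_Ioi]
  simp_rw [phi_mul_phi_scale]
  rw [integral_const_mul]
  have hq : 0 < Real.sqrt (1 + c ^ 2) := Real.sqrt_pos.2 (by positivity)
  rw [integral_comp_mul_left_Ioi (fun t => phi t) 0 hq]
  simp only [mul_zero, smul_eq_mul]
  rw [← Qf_eq, Qf_zero]
  ring

/-- The integral over a half space. -/
lemma integral_halfspace {e : Euc d} (he : ‖e‖ = 1) (c : ℝ) :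
    ∫ x in {x : Euc d | 0 < inner ℝ x e}, phi (c * inner ℝ x e) ∂(stdGaussian (Euc d)) =
      phi0 * (Real.sqrt (1 + c ^ 2))⁻¹ / 2 := by
  have hm : Measurable (fun x : Euc d => inner ℝ x e) := by fun_prop
  rw [← integral_half_phi c, ← law_inner e he, setIntegral_map measurableSet_Ioi
    (Measurable.aestronglyMeasurable (by
      have := measurable_phi
      fun_prop)) hm.aemeasurable]
  rfl

/-- A hyperplane through the origin is a null set. -/
lemma null_hyperplane {e : Euc d} (he : ‖e‖ = 1) :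
    stdGaussian (Euc d) {x : Euc d | inner ℝ x e = 0} = 0 := by
  have hm : Measurable (fun x : Euc d => inner ℝ x e) := by fun_prop
  have h1 : {x : Euc d | inner ℝ x e = 0} = (fun x : Euc d => inner ℝ x e) ⁻¹' {0} := rfl
  rw [h1, ← Measure.map_apply hm (measurableSet_singleton _), law_inner e he]
  have := nullSingletonClass_gaussianReal (μ := 0) (v := 1) (by norm_num)
  exact measure_singleton _

section three
variable {Z : Fin 3 → Euc d} {i l m : Fin 3}

lemma erase_three (hl : l ≠ i) (hm : m ≠ i) (hlm : l ≠ m) {j : Fin 3} (hj : j ≠ i) :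
    j = l ∨ j = m := by
  revert i l m j
  decide

/-- The two remaining vectors are antiparallel. -/
lemma cv_antiparallel (hZ : ObtuseFP Z) (hl : l ≠ i) (hm : m ≠ i) (hlm : l ≠ m) :
    cb Z i l • cv Z i l + cb Z i m • cv Z i m = 0 := by
  have h1 := sum_cb_smul_cv hZ hl
  have h2 : Finset.univ.erase i = {l, m} := by
    clear h1 hZ
    revert i l m
    decide
  rw [h2, Finset.sum_pair hlm] at h1
  exact h1

lemma cv_ne_zero (hZ : ObtuseFP Z) (hl : l ≠ i) (hm : m ≠ i) (hlm : l ≠ m) :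
    cv Z i l ≠ 0 := by
  intro h0
  have h1 := cv_antiparallel hZ hl hm hlm
  rw [h0, smul_zero, zero_add] at h1
  have h2 : cv Z i m = 0 := by
    rcases smul_eq_zero.1 h1 with h | h
    · exact absurd h (cb_pos hZ hm).ne'
    · exact h
  have h3 := cb_smul_cv hZ hl
  have h4 := cb_smul_cv hZ hm
  rw [h0, smul_zero] at h3
  rw [h2, smul_zero] at h4
  have h5 : Z l = inner ℝ (Z l) (cu Z i) • cu Z i := (sub_eq_zero.1 h3.symm)
  have h6 : Z m = inner ℝ (Z m) (cu Z i) • cu Z i := (sub_eq_zero.1 h4.symm)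
  have h7 := hZ.neg l m hlm
  rw [h5, h6, real_inner_smul_left, real_inner_smul_right, inner_cu_self hZ hl] at h7
  have h8 := inner_other_cu_neg hZ hl
  have h9 := inner_other_cu_neg hZ hm
  nlinarith [mul_pos_of_neg_of_neg h8 h9]

/-- The facet mass of the three cell case. -/
lemma facetP_three (hZ : ObtuseFP Z) (hne : (Finset.univ.erase i).Nonempty)
    (hl : l ≠ i) (hm : m ≠ i) (hlm : l ≠ m) :
    facetP Z i hne l = phi0 * (Real.sqrt (1 + ‖cv Z i l‖ ^ 2))⁻¹ / 2 := by
  set v := cv Z i l with hv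
  have hv0 : v ≠ 0 := cv_ne_zero hZ hl hm hlm
  have hb : 0 < ‖v‖ := norm_pos_iff.2 hv0
  set e := (‖v‖)⁻¹ • v with he
  have hen : ‖e‖ = 1 := by
    rw [he, norm_smul, norm_inv, norm_norm]
    field_simp
  have hve : ∀ x : Euc d, inner ℝ x v = ‖v‖ * inner ℝ x e := by
    intro x
    rw [he, real_inner_smul_right]
    field_simp
  have hbl := cb_pos hZ hl
  have hbm := cb_pos hZ hm
  -- relation between the two inner products
  have hrel : ∀ x : Euc d, inner ℝ x (cv Z i m) = -(cb Z i l / cb Z i m) * inner ℝ x v := by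
    intro x
    have h1 := congrArg (fun w => inner ℝ x w) (cv_antiparallel hZ hl hm hlm)
    simp only [inner_add_right, real_inner_smul_right, inner_zero_right] at h1
    rw [← hv] at h1
    field_simp
    linarith
  have hr : 0 < cb Z i l / cb Z i m := div_pos hbl hbm
  -- positive side
  have hpos : ∀ x : Euc d, 0 < inner ℝ x v → zeta Z i hne x = inner ℝ x v := by
    intro x hx
    obtain ⟨j, hj, hjz⟩ := exists_zeta_eq (Z := Z) hne x
    rcases erase_three hl hm hlm hj with rfl | rfl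
    · exact hjz
    · have h1 := le_zeta (Z := Z) hne x hl
      rw [hjz, hrel x, ← hv] at h1
      nlinarith
  have hposm : ∀ x : Euc d, 0 < inner ℝ x v → x ∈ regionR Z i hne l := by
    intro x hx
    refine ⟨hl, by rw [hpos x hx], fun j hj _ => ?_⟩
    rcases erase_three hl hm hlm hj with rfl | rfl
    · rw [hpos x hx]
      omega
    · rw [hpos x hx, hrel x]
      nlinarith
  have hneg : ∀ x : Euc d, inner ℝ x v < 0 → x ∉ regionR Z i hne l := by
    intro x hx hmem
    have h1 := hmem.2.1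
    have h2 := le_zeta (Z := Z) hne x hm
    rw [← h1, hrel x, ← hv] at h2
    nlinarith
  have hae : regionR Z i hne l =ᵐ[stdGaussian (Euc d)] {x : Euc d | 0 < inner ℝ x e} := by
    have hnull := null_hyperplane (d := d) hen
    have : ∀ᵐ x ∂(stdGaussian (Euc d)), inner ℝ x e ≠ 0 := by
      rw [ae_iff]
      simpa using hnull
    filter_upwards [this] with x hx
    apply propext
    change x ∈ regionR Z i hne l ↔ 0 < inner ℝ x e
    constructor
    · intro hmem
      by_contra hneg2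
      have h3 : inner ℝ x e < 0 := lt_of_le_of_ne (not_lt.1 hneg2) hx
      refine hneg x ?_ hmem
      rw [hve x]
      exact mul_neg_of_pos_of_neg hb h3
    · intro h3
      apply hposm
      rw [hve x]
      exact mul_pos hb h3
  unfold facetP
  rw [setIntegral_congr_set hae, ← integral_halfspace hen ‖v‖]
  refine setIntegral_congr_fun ?_ fun x hx => ?_
  · exact measurableSet_lt measurable_const (by fun_prop)
  · have hx2 : 0 < inner ℝ x e := hx
    have hx3 : 0 < inner ℝ x v := by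
      rw [hve x]
      exact mul_pos hb hx2
    rw [hpos x hx3, hve x]

/-- All the mutual distances are equal. -/
lemma norm_sub_three (hZ : ObtuseFP Z) (hl : l ≠ i) (hm : m ≠ i) (hlm : l ≠ m) :
    ‖Z i - Z l‖ ^ 2 = (3 * phi0 / 2) ^ 2 := by
  have hne : (Finset.univ.erase i).Nonempty := ⟨l, Finset.mem_erase.2 ⟨hl, Finset.mem_univ _⟩⟩
  have h1 := facetP_three hZ hne hl hm hlm
  rw [facetP_eq hZ hne hl] at h1
  set β := cb Z i l with hβ
  set v := cv Z i l with hv
  have hβpos : 0 < β := cb_pos hZ hl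
  set r := Real.sqrt (1 + ‖v‖ ^ 2) with hr
  have hrpos : 0 < r := Real.sqrt_pos.2 (by positivity)
  have hr2 : r ^ 2 = 1 + ‖v‖ ^ 2 := Real.sq_sqrt (by positivity)
  have h2 : β * r = 3 * phi0 / 2 := by
    have h3 : ((3 : ℕ) : ℝ) = 3 := by norm_num
    rw [h3] at h1
    field_simp at h1
    linarith
  have h4 : Z i - Z l = β • (cu Z i - v) := by
    have h5 : cu Z i - v = β⁻¹ • (Z i - Z l) := by
      rw [hv]
      unfold cv
      rw [sub_sub_cancel]
    rw [h5, smul_smul, mul_inv_cancel₀ hβpos.ne', one_smul]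
  have h6 : ‖cu Z i - v‖ ^ 2 = 1 + ‖v‖ ^ 2 := by
    rw [@norm_sub_sq_real, norm_cu hZ hl, real_inner_comm, hv, inner_cv_cu hZ hl]
    ring
  rw [h4, norm_smul, Real.norm_eq_abs, abs_of_pos hβpos, mul_pow, h6, ← hr2, ← h2]
  ring

/-- For three cells, the value of the functional is exactly `9 / (8 π)`. -/
theorem obtuse_K3_eq (hZ : ObtuseFP Z) : ∑ i, ‖Z i‖ ^ 2 = 9 / (8 * Real.pi) := by
  have h01 := norm_sub_three hZ (i := 0) (l := 1) (m := 2) (by decide) (by decide) (by decide)
  have h02 := norm_sub_three hZ (i := 0) (l := 2) (m := 1) (by decide) (by decide) (by decide)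
  have h12 := norm_sub_three hZ (i := 1) (l := 2) (m := 0) (by decide) (by decide) (by decide)
  have hsum := sum_Z_eq_zero hZ
  rw [Fin.sum_univ_three] at hsum
  have h0 : inner ℝ (Z 0 + Z 1 + Z 2) (Z 0) = 0 := by rw [hsum, inner_zero_left]
  have h1 : inner ℝ (Z 0 + Z 1 + Z 2) (Z 1) = 0 := by rw [hsum, inner_zero_left]
  have h2 : inner ℝ (Z 0 + Z 1 + Z 2) (Z 2) = 0 := by rw [hsum, inner_zero_left]
  simp only [inner_add_left, real_inner_self_eq_norm_sq] at h0 h1 h2
  rw [@norm_sub_sq_real] at h01 h02 h12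
  rw [Fin.sum_univ_three]
  rw [real_inner_comm (Z 0) (Z 1), real_inner_comm (Z 0) (Z 2)] at h0
  rw [real_inner_comm (Z 1) (Z 2)] at h1
  have h3 : ‖Z 0‖ ^ 2 + ‖Z 1‖ ^ 2 + ‖Z 2‖ ^ 2 = (3 * phi0 / 2) ^ 2 := by
    linarith
  rw [h3, div_pow, mul_pow, phi0_sq]
  have := Real.pi_pos
  field_simp
  norm_num

end three

/-- **Three cells.** -/
theorem obtuse_K3 {Z : Fin 3 → Euc d} (hZ : ObtuseFP Z) :
    ∑ i, ‖Z i‖ ^ 2 ≤ 9 / (8 * Real.pi) :=
  (obtuse_K3_eq hZ).le

/-- **Two cells.** -/
theorem obtuse_K2 {Z : Fin 2 → Euc d} (hZ : ObtuseFP Z) :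
    ∑ i, ‖Z i‖ ^ 2 ≤ 9 / (8 * Real.pi) := by
  have hne : (Finset.univ.erase (0 : Fin 2)).Nonempty := ⟨1, by decide⟩
  have h1 := norm_le_phi0 hZ hne
  have hsum := sum_Z_eq_zero hZ
  rw [Fin.sum_univ_two] at hsum
  have h2 : Z 1 = -Z 0 := (neg_eq_of_add_eq_zero_right hsum).symm
  rw [Fin.sum_univ_two, h2, norm_neg]
  have h3 : ‖Z 0‖ ^ 2 ≤ phi0 ^ 2 := pow_le_pow_left₀ (norm_nonneg _) h1 2
  rw [phi0_sq] at h3
  have hpi := Real.pi_pos
  have h4 : 1 / (2 * Real.pi) = (4 / 9) * (9 / (8 * Real.pi)) := by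
    field_simp
    norm_num
  have h5 : 0 < 9 / (8 * Real.pi) := by positivity
  nlinarith

end Vale.Agent.P226
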