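import Vale.Agent.P226.Facet

/-!
# Pointwise one dimensional inequalities and the cell bounds they give
-/

open MeasureTheory ProbabilityTheory Set Filter Topology

namespace Vale.Agent.P226

variable {d k : ℕ}

/-- The function `φ - s Q` is maximal at `s`. -/
lemma phi_sub_mul_Qf_le (s t : ℝ) : phi t - s * Qf t ≤ psiHat s := by
  let g : ℝ → ℝ := fun u => phi u - s * Qf u
  have hg : ∀ u, HasDerivAt g ((s - u) * phi u) u := by
    intro u
    have h := (hasDerivAt_phi u).sub ((hasDerivAt_Qf u).const_mul s)
    refine h.congr_deriv ?_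
    ring
  have hcont : Continuous g := continuous_iff_continuousAt.2 fun u => (hg u).continuousAt
  change g t ≤ g s
  rcases le_total t s with h | h
  · have hmono : MonotoneOn g (Iic s) := by
      apply monotoneOn_of_deriv_nonneg (convex_Iic s) hcont.continuousOn
      · exact fun u _ => (hg u).differentiableAt.differentiableWithinAt
      · intro u hu
        rw [interior_Iic] at hu
        rw [(hg u).deriv]
        exact mul_nonneg (by linarith [mem_Iio.1 hu]) (phi_pos u).le
    exact hmono h (mem_Iic.2 le_rfl) h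
  · have hanti : AntitoneOn g (Ici s) := by
      apply antitoneOn_of_deriv_nonpos (convex_Ici s) hcont.continuousOn
      · exact fun u _ => (hg u).differentiableAt.differentiableWithinAt
      · intro u hu
        rw [interior_Ici] at hu
        rw [(hg u).deriv]
        exact mul_nonpos_of_nonpos_of_nonneg (by linarith [mem_Ioi.1 hu]) (phi_pos u).le
    exact hanti (mem_Ici.2 le_rfl) h h

/-- Tangent inequality for the Mills ratio. -/
lemma Qf_tangent {τ ρ : ℝ} (hτ : 0 ≤ τ) (hρ : ρ * phi τ ≤ Qf τ) (hρ2 : τ ≤ ρ * (1 + τ ^ 2))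
    (hB : τ * ρ < 1) {t : ℝ} (ht : 0 ≤ t) :
    (ρ + τ * (1 - τ * ρ) - (1 - τ * ρ) * t) * phi t ≤ Qf t := by
  set B := 1 - τ * ρ with hBdef
  have hBpos : 0 < B := by rw [hBdef]; linarith
  set A := ρ + τ * B with hA
  let g : ℝ → ℝ := fun u => Qf u - (A - B * u) * phi u
  have hg : ∀ u, HasDerivAt g (-(phi u * ((u - τ) * (B * u - ρ)))) u := by
    intro u
    have h1 : HasDerivAt (fun u : ℝ => A - B * u) (-B) u := by
      have := ((hasDerivAt_id u).const_mul B).const_sub A
      simpa using this
    have h2 := h1.mul (hasDerivAt_phi u)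
    have h3 := (hasDerivAt_Qf u).sub h2
    refine h3.congr_deriv ?_
    have e : B = 1 - τ * ρ := hBdef
    rw [hA, e]
    ring
  have hcont : Continuous g := continuous_iff_continuousAt.2 fun u => (hg u).continuousAt
  have hdiff : ∀ (s : Set ℝ), DifferentiableOn ℝ g s :=
    fun s u _ => (hg u).differentiableAt.differentiableWithinAt
  have hρB : τ * B ≤ ρ := by
    rw [hBdef]; nlinarith
  have hρ0 : 0 ≤ ρ := by
    by_contra hneg
    push Not at hneg
    have : ρ * (1 + τ ^ 2) < 0 := mul_neg_of_neg_of_pos hneg (by positivity)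
    linarith
  have hτ1 : τ ≤ ρ / B := by rw [le_div_iff₀ hBpos]; linarith
  have hA2 : ρ / B ≤ A / B := by
    apply div_le_div_of_nonneg_right _ hBpos.le
    rw [hA]; nlinarith
  have hgτ : 0 ≤ g τ := by
    simp only [g]
    have : A - B * τ = ρ := by rw [hA]; ring
    rw [this]; linarith
  suffices h : 0 ≤ g t by
    simp only [g] at h
    linarith
  by_cases h1 : t ≤ τ
  · have hanti : AntitoneOn g (Icc 0 τ) := by
      apply antitoneOn_of_deriv_nonpos (convex_Icc 0 τ) hcont.continuousOn (hdiff _)
      intro u hu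
      rw [interior_Icc] at hu
      rw [(hg u).deriv]
      have h2 : u - τ ≤ 0 := by linarith [hu.2]
      have h3 : B * u - ρ ≤ 0 := by nlinarith [hu.2]
      have h4 := mul_nonneg_of_nonpos_of_nonpos h2 h3
      have := phi_pos u
      have := mul_nonneg this.le h4
      linarith
    exact hgτ.trans (hanti ⟨ht, h1⟩ (right_mem_Icc.2 hτ) h1)
  push Not at h1
  by_cases h2 : t ≤ ρ / B
  · have hmono : MonotoneOn g (Icc τ (ρ / B)) := by
      apply monotoneOn_of_deriv_nonneg (convex_Icc _ _) hcont.continuousOn (hdiff _)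
      intro u hu
      rw [interior_Icc] at hu
      rw [(hg u).deriv]
      have h3 : 0 ≤ u - τ := by linarith [hu.1]
      have h4 : B * u - ρ ≤ 0 := by
        have := (lt_div_iff₀ hBpos).1 hu.2
        linarith
      have h5 := mul_nonpos_of_nonneg_of_nonpos h3 h4
      have := phi_pos u
      have := mul_nonneg this.le (neg_nonneg.2 h5)
      linarith
    exact hgτ.trans (hmono (left_mem_Icc.2 hτ1) ⟨h1.le, h2⟩ h1.le)
  push Not at h2
  by_cases h3 : t ≤ A / B
  · have hanti : AntitoneOn g (Icc (ρ / B) (A / B)) := by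
      apply antitoneOn_of_deriv_nonpos (convex_Icc _ _) hcont.continuousOn (hdiff _)
      intro u hu
      rw [interior_Icc] at hu
      rw [(hg u).deriv]
      have h5 : 0 ≤ B * u - ρ := by
        have := (div_lt_iff₀ hBpos).1 hu.1
        linarith
      have h4 : 0 ≤ u - τ := by linarith [hu.1]
      have h6 := mul_nonneg h4 h5
      have := phi_pos u
      have := mul_nonneg this.le h6
      linarith
    have h7 : g (A / B) ≤ g t := hanti ⟨h2.le, h3⟩ (right_mem_Icc.2 hA2) h3
    have h8 : 0 ≤ g (A / B) := by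
      simp only [g]
      have : A - B * (A / B) = 0 := by field_simp; ring
      rw [this, zero_mul, sub_zero]
      exact Qf_nonneg _
    exact h8.trans h7
  · push Not at h3
    simp only [g]
    have h4 : A - B * t ≤ 0 := by
      have := (div_lt_iff₀ hBpos).1 h3
      linarith
    have h5 := mul_nonneg (neg_nonneg.2 h4) (phi_pos t).le
    have := Qf_nonneg t
    nlinarith

section
variable {Z : Fin k → Euc d} {i : Fin k} (hZ : ObtuseFP Z) (hne : (Finset.univ.erase i).Nonempty)
include hZ

include hne in
/-- Isoperimetric type bound. -/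
theorem cell_iso (s : ℝ) :
    ‖Z i‖ ≤ s * (stdGaussian (Euc d)).real (argCell Z i) + psiHat s := by
  rw [cell_mass hZ hne, cell_first hZ hne]
  have h1 : ∫ x, phi (zeta Z i hne x) ∂(stdGaussian (Euc d)) ≤
      ∫ x, (s * Qf (zeta Z i hne x) + psiHat s) ∂(stdGaussian (Euc d)) := by
    refine integral_mono (integrable_phi_zeta hne)
      (((integrable_Qf_zeta hne).const_mul s).add (integrable_const _)) fun x => ?_
    have := phi_sub_mul_Qf_le s (zeta Z i hne x)
    simp only
    linarith
  rw [integral_add ((integrable_Qf_zeta hne).const_mul s) (integrable_const _),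
    integral_const_mul] at h1
  simpa using h1

/-- Tangent bound for the mass of a cell. -/
theorem cell_tangent [NeZero k] {τ ρ : ℝ} (hτ : 0 ≤ τ) (hρ : ρ * phi τ ≤ Qf τ)
    (hρ2 : τ ≤ ρ * (1 + τ ^ 2)) (hB : τ * ρ < 1) :
    (ρ + τ * (1 - τ * ρ)) * ‖Z i‖ - (1 - τ * ρ) * cellM Z i hne ≤
      (stdGaussian (Euc d)).real (argCell Z i) := by
  rw [cell_mass hZ hne, cell_first hZ hne, cellM, ← integral_const_mul, ← integral_const_mul,
    ← integral_sub ((integrable_phi_zeta hne).const_mul _)
      ((integrable_mul_phi_zeta hne).const_mul _)]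
  refine integral_mono (((integrable_phi_zeta hne).const_mul _).sub
      ((integrable_mul_phi_zeta hne).const_mul _)) (integrable_Qf_zeta hne) fun x => ?_
  have := Qf_tangent hτ hρ hρ2 hB (zeta_nonneg hZ hne x)
  simp only
  refine le_trans (le_of_eq ?_) this
  ring

/-- The moment is at most the sum of the facet bounds. -/
theorem cellM_le_facets [NeZero k] (s : Fin k → ℝ) :
    cellM Z i hne ≤ ∑ l ∈ Finset.univ.erase i,
      (s l * (‖cv Z i l‖ * (Real.sqrt (1 + ‖cv Z i l‖ ^ 2))⁻¹) * (cb Z i l / k) +
        phi0 * (‖cv Z i l‖ * ((Real.sqrt (1 + ‖cv Z i l‖ ^ 2))⁻¹) ^ 2) * psiHat (s l)) := by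
  rw [cellM_eq_sum hZ hne, ← Finset.add_sum_erase _ _ (Finset.mem_univ i)]
  have hself : regionR Z i hne i = ∅ := by
    ext x; simp [regionR]
  rw [hself]
  simp only [Measure.restrict_empty, integral_zero_measure, zero_add]
  exact Finset.sum_le_sum fun l hl => facet_bound hZ hne (Finset.mem_erase.1 hl).1 (s l)

end

end Vale.Agent.P226
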