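import Vale.Agent.P226.RadialM

/-!
# Explicit values of `W_n`, and lines below the radial Mills function
-/

open MeasureTheory ProbabilityTheory Set Filter Topology

namespace Vale.Agent.P226

/-- The weight `w(u) = (1+u²)^(-1/2)`. -/
private noncomputable def wW (u : ℝ) : ℝ := (Real.sqrt (1 + u ^ 2))⁻¹

private lemma one_add_sq_pos (u : ℝ) : 0 < 1 + u ^ 2 := by positivity

private lemma sqrt_pos' (u : ℝ) : 0 < Real.sqrt (1 + u ^ 2) := Real.sqrt_pos.2 (one_add_sq_pos u)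

private lemma wW_pos (u : ℝ) : 0 < wW u := inv_pos.2 (sqrt_pos' u)

private lemma wW_sq (u : ℝ) : wW u ^ 2 * (1 + u ^ 2) = 1 := by
  unfold wW
  rw [inv_pow, Real.sq_sqrt (one_add_sq_pos u).le]
  exact inv_mul_cancel₀ (one_add_sq_pos u).ne'

private lemma wW_sq' (u : ℝ) : wW u ^ 2 = (1 + u ^ 2)⁻¹ := by
  unfold wW
  rw [inv_pow, Real.sq_sqrt (one_add_sq_pos u).le]

private lemma wW_le_one (u : ℝ) : wW u ≤ 1 := by
  unfold wW
  apply inv_le_one_of_one_le₀
  rw [Real.one_le_sqrt]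
  nlinarith [sq_nonneg u]

private lemma continuous_wW : Continuous wW := by
  unfold wW
  refine Continuous.inv₀ (by fun_prop) fun u => (sqrt_pos' u).ne'

private lemma hasDerivAt_wW (u : ℝ) : HasDerivAt wW (-u * wW u ^ 3) u := by
  have h0 : HasDerivAt (fun u : ℝ => 1 + u ^ 2) (2 * u) u := by
    have := (hasDerivAt_pow 2 u).const_add 1
    simpa using this
  have h1 := h0.sqrt (one_add_sq_pos u).ne'
  have h2 := h1.inv (sqrt_pos' u).ne'
  refine h2.congr_deriv ?_
  have e := sqrt_pos' u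
  change _ = -u * ((Real.sqrt (1 + u ^ 2))⁻¹) ^ 3
  field_simp

private lemma hasDerivAt_sS (u : ℝ) : HasDerivAt (fun u => u * wW u) (wW u ^ 3) u := by
  have h := (hasDerivAt_id u).mul (hasDerivAt_wW u)
  refine h.congr_deriv ?_
  have e := wW_sq u
  have e3 : wW u ^ 2 * u ^ 2 = 1 - wW u ^ 2 := by nlinarith
  simp only [id]
  have : 1 * wW u + u * (-u * wW u ^ 3) = wW u - wW u * (wW u ^ 2 * u ^ 2) := by ring
  rw [this, e3]
  ring

private lemma sS_mono : Monotone (fun u => u * wW u) := by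
  apply monotone_of_deriv_nonneg
  · exact fun u => (hasDerivAt_sS u).differentiableAt
  · intro u
    rw [(hasDerivAt_sS u).deriv]
    have := wW_pos u
    positivity

private lemma sS_sq (u : ℝ) : (u * wW u) ^ 2 = 1 - wW u ^ 2 := by
  have e := wW_sq u
  nlinarith

private lemma abs_sS_le (u : ℝ) : |u * wW u| ≤ 1 := by
  rw [abs_le_one_iff_mul_self_le_one]
  have := sS_sq u
  have := wW_pos u
  nlinarith [sq_nonneg (wW u)]

private lemma tendsto_sqrt_atTop : Tendsto (fun u : ℝ => Real.sqrt (1 + u ^ 2)) atTop atTop := by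
  apply Real.tendsto_sqrt_atTop.comp
  exact tendsto_atTop_add_const_left _ _ (tendsto_pow_atTop (by norm_num))

private lemma tendsto_wW : Tendsto wW atTop (𝓝 0) :=
  tendsto_inv_atTop_zero.comp tendsto_sqrt_atTop

private lemma tendsto_sS : Tendsto (fun u => u * wW u) atTop (𝓝 1) := by
  have h1 : Tendsto (fun u : ℝ => 1 - wW u ^ 2) atTop (𝓝 1) := by
    have := (tendsto_wW.pow 2).const_sub 1
    simpa using this
  have h2 : Tendsto (fun u : ℝ => Real.sqrt (1 - wW u ^ 2)) atTop (𝓝 1) := by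
    have := h1.sqrt
    simpa using this
  refine h2.congr' ?_
  filter_upwards [eventually_ge_atTop (0 : ℝ)] with u hu
  rw [← sS_sq, Real.sqrt_sq (mul_nonneg hu (wW_pos u).le)]

private lemma wW_pow_continuous (n : ℕ) : Continuous fun u : ℝ => wW u ^ n :=
  continuous_wW.pow n

private lemma integrable_wW {n : ℕ} (hn : 2 ≤ n) : Integrable fun u : ℝ => wW u ^ n := by
  refine Integrable.mono' integrable_inv_one_add_sq (wW_pow_continuous n).aestronglyMeasurable ?_
  filter_upwards with u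
  rw [Real.norm_of_nonneg (pow_nonneg (wW_pos u).le n), ← wW_sq']
  exact pow_le_pow_of_le_one (wW_pos u).le (wW_le_one u) hn

private lemma Wn_eq (n : ℕ) (τ : ℝ) : Wn n τ = ∫ u in Ioi τ, wW u ^ n := rfl

/-- Integrability of the integrand of `W_n`, `n ≥ 2`. -/
lemma integrableOn_Wn {n : ℕ} (hn : 2 ≤ n) (τ : ℝ) :
    IntegrableOn (fun u : ℝ => (Real.sqrt (1 + u ^ 2))⁻¹ ^ n) (Ioi τ) :=
  (integrable_wW hn).integrableOn

private lemma Wn_sub {n : ℕ} (hn : 2 ≤ n) (a b : ℝ) :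
    Wn n a - Wn n b = ∫ u in a..b, wW u ^ n := by
  rw [Wn_eq, Wn_eq, intervalIntegral.integral_Ioi_sub_Ioi' (integrable_wW hn).integrableOn
    (integrable_wW hn).integrableOn]

private lemma hasDerivAt_Wn {n : ℕ} (hn : 2 ≤ n) (u : ℝ) :
    HasDerivAt (Wn n) (-wW u ^ n) u := by
  have h1 : (Wn n) = fun x => Wn n 0 - ∫ v in (0 : ℝ)..x, wW v ^ n := by
    funext x
    rw [← Wn_sub hn 0 x]
    ring
  rw [h1]
  have h2 : HasDerivAt (fun x => ∫ v in (0 : ℝ)..x, wW v ^ n) (wW u ^ n) u :=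
    intervalIntegral.integral_hasDerivAt_right
      ((wW_pow_continuous n).intervalIntegrable _ _)
      ((wW_pow_continuous n).stronglyMeasurableAtFilter _ _) ((wW_pow_continuous n).continuousAt)
  exact h2.const_sub _

private lemma tendsto_Wn {n : ℕ} (hn : 2 ≤ n) : Tendsto (Wn n) atTop (𝓝 0) := by
  have h1 : Tendsto (fun x : ℝ => ∫ v in (0 : ℝ)..x, wW v ^ n) atTop (𝓝 (Wn n 0)) :=
    intervalIntegral_tendsto_integral_Ioi 0 (integrable_wW hn).integrableOn tendsto_id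
  have h2 : Tendsto (fun x : ℝ => Wn n 0 - ∫ v in (0 : ℝ)..x, wW v ^ n) atTop (𝓝 (Wn n 0 - Wn n 0)) :=
    h1.const_sub _
  rw [sub_self] at h2
  refine h2.congr fun x => ?_
  rw [← Wn_sub hn 0 x]
  ring

lemma Wn_two (τ : ℝ) : Wn 2 τ = Real.pi / 2 - Real.arctan τ := by
  have h : ∫ u in Ioi τ, wW u ^ 2 = Real.pi / 2 - Real.arctan τ := by
    refine integral_Ioi_of_hasDerivAt_of_tendsto (f := Real.arctan)
      Real.continuous_arctan.continuousAt.continuousWithinAt (fun x _ => ?_)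
      (integrable_wW le_rfl).integrableOn
      (Real.tendsto_arctan_atTop.mono_right nhdsWithin_le_nhds)
    have := Real.hasDerivAt_arctan x
    refine this.congr_deriv ?_
    rw [wW_sq']
    simp
  exact h

lemma Wn_three (τ : ℝ) : Wn 3 τ = 1 - τ * (Real.sqrt (1 + τ ^ 2))⁻¹ := by
  have h : ∫ u in Ioi τ, wW u ^ 3 = 1 - τ * wW τ :=
    integral_Ioi_of_hasDerivAt_of_tendsto (f := fun u => u * wW u)
      (hasDerivAt_sS τ).continuousAt.continuousWithinAt (fun x _ => hasDerivAt_sS x)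
      (integrable_wW (by norm_num)).integrableOn tendsto_sS
  exact h

/-- Reduction formula for `W_n`. -/
lemma Wn_succ_succ {n : ℕ} (hn : 2 ≤ n) (τ : ℝ) :
    (n : ℝ) * Wn (n + 2) τ = ((n : ℝ) - 1) * Wn n τ - τ * (Real.sqrt (1 + τ ^ 2))⁻¹ ^ n := by
  have hd : ∀ u : ℝ, HasDerivAt (fun u => u * wW u ^ n)
      ((n : ℝ) * wW u ^ (n + 2) - ((n : ℝ) - 1) * wW u ^ n) u := by
    intro u
    have h1 := (hasDerivAt_wW u).pow n
    have h2 := (hasDerivAt_id u).mul h1
    refine h2.congr_deriv ?_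
    obtain ⟨k, rfl⟩ : ∃ k, n = k + 1 := ⟨n - 1, by omega⟩
    have e := wW_sq u
    simp only [id, Nat.add_sub_cancel, Pi.pow_apply]
    have e2 : u * ((k + 1 : ℕ) * wW u ^ k * (-u * wW u ^ 3))
        = -((k + 1 : ℕ) * wW u ^ (k + 1) * (wW u ^ 2 * u ^ 2)) := by ring
    rw [e2]
    have e3 : wW u ^ 2 * u ^ 2 = 1 - wW u ^ 2 := by nlinarith
    rw [e3]
    push_cast
    ring
  have hint : IntegrableOn (fun u => (n : ℝ) * wW u ^ (n + 2) - ((n : ℝ) - 1) * wW u ^ n) (Ioi τ) :=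
    (((integrable_wW (by omega)).const_mul _).sub ((integrable_wW hn).const_mul _)).integrableOn
  have hlim : Tendsto (fun u => u * wW u ^ n) atTop (𝓝 0) := by
    obtain ⟨k, rfl⟩ : ∃ k, n = k + 1 := ⟨n - 1, by omega⟩
    have h1 : Tendsto (fun u => (u * wW u) * wW u ^ k) atTop (𝓝 (1 * 0)) := by
      refine tendsto_sS.mul ?_
      have := tendsto_wW.pow k
      obtain ⟨j, rfl⟩ : ∃ j, k = j + 1 := ⟨k - 1, by omega⟩
      simpa using this
    rw [mul_zero] at h1
    refine h1.congr fun u => ?_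
    ring
  have key := integral_Ioi_of_hasDerivAt_of_tendsto (f := fun u => u * wW u ^ n)
    (hd τ).continuousAt.continuousWithinAt (fun x _ => hd x) hint hlim
  rw [integral_sub ((integrable_wW (by omega)).const_mul _).integrableOn
    ((integrable_wW hn).const_mul _).integrableOn,
    integral_const_mul, integral_const_mul] at key
  change (n : ℝ) * Wn (n + 2) τ - ((n : ℝ) - 1) * Wn n τ = 0 - τ * wW τ ^ n at key
  change (n : ℝ) * Wn (n + 2) τ = ((n : ℝ) - 1) * Wn n τ - τ * wW τ ^ n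
  linarith

lemma Wn_nonneg (n : ℕ) (τ : ℝ) : 0 ≤ Wn n τ :=
  setIntegral_nonneg measurableSet_Ioi fun _ _ => by positivity

/-- The derivative of the alternating partial sum. -/
private lemma hasDerivAt_series (N : ℕ) (t : ℝ) :
    HasDerivAt (fun t : ℝ => ∑ j ∈ Finset.range N, (-1 : ℝ) ^ j * t ^ (2 * j + 1) / (2 * j + 1))
      (∑ j ∈ Finset.range N, (-t ^ 2) ^ j) t := by
  have := HasDerivAt.fun_sum (u := Finset.range N)
    (A := fun j (t : ℝ) => (-1 : ℝ) ^ j * t ^ (2 * j + 1) / (2 * j + 1))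
    (A' := fun j => (-t ^ 2) ^ j) (x := t) (fun j _ => ?_)
  · exact this
  · have h := ((hasDerivAt_pow (2 * j + 1) t).const_mul ((-1 : ℝ) ^ j)).div_const ((2 * j : ℝ) + 1)
    refine h.congr_deriv ?_
    have : ((2 * j : ℝ) + 1) ≠ 0 := by positivity
    rw [show (-t ^ 2) = (-1 : ℝ) * t ^ 2 by ring, mul_pow, ← pow_mul]
    simp only [Nat.add_sub_cancel]
    push_cast
    field_simp

private lemma geom_series_mul (N : ℕ) (t : ℝ) :
    (∑ j ∈ Finset.range N, (-t ^ 2) ^ j) * (1 + t ^ 2) = 1 - (-t ^ 2) ^ N := by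
  have := geom_sum_mul (-t ^ 2) N
  nlinarith

/-- Alternating series bound for the arctangent, from above. -/
lemma arctan_le_series (n : ℕ) {t : ℝ} (h0 : 0 ≤ t) :
    Real.arctan t ≤ ∑ j ∈ Finset.range (2 * n + 1), (-1 : ℝ) ^ j * t ^ (2 * j + 1) / (2 * j + 1) := by
  let G : ℝ → ℝ := fun t =>
    (∑ j ∈ Finset.range (2 * n + 1), (-1 : ℝ) ^ j * t ^ (2 * j + 1) / (2 * j + 1)) - Real.arctan t
  have hG : ∀ u, HasDerivAt G ((∑ j ∈ Finset.range (2 * n + 1), (-u ^ 2) ^ j) - 1 / (1 + u ^ 2)) u :=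
    fun u => (hasDerivAt_series _ u).sub (Real.hasDerivAt_arctan u)
  have hmono : MonotoneOn G (Ici 0) := by
    apply monotoneOn_of_deriv_nonneg (convex_Ici 0)
    · exact fun u _ => (hG u).continuousAt.continuousWithinAt
    · exact fun u _ => (hG u).differentiableAt.differentiableWithinAt
    · intro u _
      rw [(hG u).deriv]
      have hp := one_add_sq_pos u
      have e := geom_series_mul (2 * n + 1) u
      have e2 : (-u ^ 2) ^ (2 * n + 1) = -(u ^ 2) ^ (2 * n + 1) := by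
        rw [neg_pow, pow_succ, pow_mul]; simp
      rw [e2] at e
      have h3 : 0 ≤ (u ^ 2) ^ (2 * n + 1) := by positivity
      have : (∑ j ∈ Finset.range (2 * n + 1), (-u ^ 2) ^ j) - 1 / (1 + u ^ 2) =
          (u ^ 2) ^ (2 * n + 1) / (1 + u ^ 2) := by
        field_simp
        linarith
      rw [this]
      positivity
  have h := hmono (mem_Ici.2 le_rfl) (mem_Ici.2 h0) h0
  have h00 : G 0 = 0 := by
    simp [G]
  simp only [G] at h00 h
  linarith

/-- Alternating series bound for the arctangent, from below. -/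
lemma series_le_arctan (n : ℕ) {t : ℝ} (h0 : 0 ≤ t) :
    ∑ j ∈ Finset.range (2 * n), (-1 : ℝ) ^ j * t ^ (2 * j + 1) / (2 * j + 1) ≤ Real.arctan t := by
  let G : ℝ → ℝ := fun t =>
    Real.arctan t - (∑ j ∈ Finset.range (2 * n), (-1 : ℝ) ^ j * t ^ (2 * j + 1) / (2 * j + 1))
  have hG : ∀ u, HasDerivAt G (1 / (1 + u ^ 2) - (∑ j ∈ Finset.range (2 * n), (-u ^ 2) ^ j)) u :=
    fun u => (Real.hasDerivAt_arctan u).sub (hasDerivAt_series _ u)
  have hmono : MonotoneOn G (Ici 0) := by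
    apply monotoneOn_of_deriv_nonneg (convex_Ici 0)
    · exact fun u _ => (hG u).continuousAt.continuousWithinAt
    · exact fun u _ => (hG u).differentiableAt.differentiableWithinAt
    · intro u _
      rw [(hG u).deriv]
      have hp := one_add_sq_pos u
      have e := geom_series_mul (2 * n) u
      have e2 : (-u ^ 2) ^ (2 * n) = (u ^ 2) ^ (2 * n) := by
        rw [neg_pow, pow_mul]; simp
      rw [e2] at e
      have h3 : 0 ≤ (u ^ 2) ^ (2 * n) := by positivity
      have : 1 / (1 + u ^ 2) - (∑ j ∈ Finset.range (2 * n), (-u ^ 2) ^ j) =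
          (u ^ 2) ^ (2 * n) / (1 + u ^ 2) := by
        field_simp
        linarith
      rw [this]
      positivity
  have h := hmono (mem_Ici.2 le_rfl) (mem_Ici.2 h0) h0
  have h00 : G 0 = 0 := by
    simp [G]
  simp only [G] at h00 h
  linarith

/-- The line `A - B s` lies below the radial Mills function of dimension `m`, shifted by `Λ`. -/
def LineValid (m : ℕ) (Λ A B : ℝ) : Prop :=
  ∀ τ : ℝ, 0 ≤ τ → (Real.sqrt (1 + τ ^ 2))⁻¹ ^ m * (A - B * (τ * (Real.sqrt (1 + τ ^ 2))⁻¹)) ≤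
    kap m * Wn (m + 1) τ + Λ

/-- Tangent lines. Here `s₀ = τ₀ (1+τ₀²)^(-1/2)`; the number `R₀` is a lower bound of the radial
Mills function at `s₀`, and `B`, `A` are the slope and intercept of the line through
`(s₀, R₀)` with the tangency condition at `s₀`. -/
theorem lineValid_of_tangent {m : ℕ} (hm : 1 ≤ m) {Λ τ₀ R₀ : ℝ} (hΛ : 0 ≤ Λ) (hτ₀ : 0 ≤ τ₀)
    (hR : (Real.sqrt (1 + τ₀ ^ 2))⁻¹ ^ m * R₀ ≤ kap m * Wn (m + 1) τ₀ + Λ)
    {B : ℝ} (hB0 : 0 ≤ B)
    (hB : B * (1 - (τ₀ * (Real.sqrt (1 + τ₀ ^ 2))⁻¹) ^ 2) =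
      kap m - m * R₀ * (τ₀ * (Real.sqrt (1 + τ₀ ^ 2))⁻¹))
    (hB2 : B * (1 + (m + 1) * (τ₀ * (Real.sqrt (1 + τ₀ ^ 2))⁻¹) ^ 2) ≤ kap m) :
    LineValid m Λ (R₀ + B * (τ₀ * (Real.sqrt (1 + τ₀ ^ 2))⁻¹)) B := by
  set κ := kap m with hκ
  change wW τ₀ ^ m * R₀ ≤ κ * Wn (m + 1) τ₀ + Λ at hR
  change B * (1 - (τ₀ * wW τ₀) ^ 2) = κ - m * R₀ * (τ₀ * wW τ₀) at hB
  change B * (1 + (m + 1) * (τ₀ * wW τ₀) ^ 2) ≤ κ at hB2
  change ∀ τ : ℝ, 0 ≤ τ → wW τ ^ m * ((R₀ + B * (τ₀ * wW τ₀)) - B * (τ * wW τ)) ≤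
    κ * Wn (m + 1) τ + Λ
  set s₀ := τ₀ * wW τ₀ with hs₀
  set A := R₀ + B * s₀ with hA
  have hn : 2 ≤ m + 1 := by omega
  let g : ℝ → ℝ := fun u => κ * Wn (m + 1) u + Λ - wW u ^ m * (A - B * (u * wW u))
  have hq : ∀ s : ℝ, -((m : ℝ) + 1) * B * s ^ 2 + m * A * s + B - κ =
      (s - s₀) * (m * A - ((m : ℝ) + 1) * B * (s + s₀)) := by
    intro s
    have e : κ = B * (1 - s₀ ^ 2) + m * R₀ * s₀ := by linarith
    rw [e, hA]
    ring
  have hg : ∀ u, HasDerivAt g (wW u ^ (m + 1) *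
      ((u * wW u - s₀) * (m * A - ((m : ℝ) + 1) * B * (u * wW u + s₀)))) u := by
    intro u
    have h1 := ((hasDerivAt_Wn hn u).const_mul κ).add_const Λ
    have h2 := (hasDerivAt_wW u).pow m
    have h3 := (hasDerivAt_sS u).const_mul B
    have h4 := h3.const_sub A
    have h5 := h1.sub (h2.mul h4)
    refine h5.congr_deriv ?_
    rw [← hq]
    obtain ⟨k, rfl⟩ : ∃ k, m = k + 1 := ⟨m - 1, by omega⟩
    have hw2 : wW u ^ 2 = 1 - (u * wW u) ^ 2 := by rw [sS_sq]; ring
    simp only [Nat.add_sub_cancel, Pi.pow_apply]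
    push_cast
    have e1 : κ * -wW u ^ (k + 1 + 1) -
        ((↑k + 1) * wW u ^ k * (-u * wW u ^ 3) * (A - B * (u * wW u)) +
          wW u ^ (k + 1) * -(B * wW u ^ 3)) =
        wW u ^ (k + 1 + 1) * (-κ + (↑k + 1) * (u * wW u) * (A - B * (u * wW u)) + B * wW u ^ 2) := by
      ring
    rw [e1, hw2]
    ring
  have hcont : Continuous g := continuous_iff_continuousAt.2 fun u => (hg u).continuousAt
  have hdiff : ∀ (S : Set ℝ), DifferentiableOn ℝ g S :=
    fun S u _ => (hg u).differentiableAt.differentiableWithinAt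
  have hgτ₀ : 0 ≤ g τ₀ := by
    simp only [g]
    have : A - B * (τ₀ * wW τ₀) = R₀ := by rw [hA, ← hs₀]; ring
    rw [this]
    linarith
  have hmono := sS_mono
  have hm1 : (0 : ℝ) < (m : ℝ) + 1 := by positivity
  intro τ hτ
  suffices h : 0 ≤ g τ by
    simp only [g] at h
    linarith
  by_cases h1 : τ ≤ τ₀
  · rcases h1.eq_or_lt with rfl | h1'
    · exact hgτ₀
    have hτ₀pos : 0 < τ₀ := by linarith
    have hs₀pos : 0 < s₀ := mul_pos hτ₀pos (wW_pos _)
    have hC : 0 ≤ m * A - ((m : ℝ) + 1) * B * (s₀ + s₀) := by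
      have e : s₀ * (m * A - ((m : ℝ) + 1) * B * (s₀ + s₀)) =
          κ - B * (1 + (m + 1) * s₀ ^ 2) := by
        have e' : κ = B * (1 - s₀ ^ 2) + m * R₀ * s₀ := by linarith
        rw [e', hA]
        ring
      have h3 : 0 ≤ s₀ * (m * A - ((m : ℝ) + 1) * B * (s₀ + s₀)) := by
        rw [e]; linarith
      exact nonneg_of_mul_nonneg_right h3 hs₀pos
    have hanti : AntitoneOn g (Icc τ τ₀) := by
      apply antitoneOn_of_deriv_nonpos (convex_Icc _ _) hcont.continuousOn (hdiff _)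
      intro u hu
      rw [interior_Icc] at hu
      rw [(hg u).deriv]
      have h2 : u * wW u ≤ s₀ := hmono hu.2.le
      have h4 : 0 ≤ m * A - ((m : ℝ) + 1) * B * (u * wW u + s₀) := by
        have : ((m : ℝ) + 1) * B * (u * wW u + s₀) ≤ ((m : ℝ) + 1) * B * (s₀ + s₀) := by
          apply mul_le_mul_of_nonneg_left _ (by positivity)
          linarith
        linarith
      have h5 : (u * wW u - s₀) * (m * A - ((m : ℝ) + 1) * B * (u * wW u + s₀)) ≤ 0 :=
        mul_nonpos_of_nonpos_of_nonneg (by linarith) h4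
      exact mul_nonpos_of_nonneg_of_nonpos (pow_nonneg (wW_pos u).le _) h5
    exact hgτ₀.trans (hanti (left_mem_Icc.2 h1) (right_mem_Icc.2 h1) h1)
  push Not at h1
  by_cases h2 : 0 ≤ m * A - ((m : ℝ) + 1) * B * (τ * wW τ + s₀)
  · have hm2 : MonotoneOn g (Icc τ₀ τ) := by
      apply monotoneOn_of_deriv_nonneg (convex_Icc _ _) hcont.continuousOn (hdiff _)
      intro u hu
      rw [interior_Icc] at hu
      rw [(hg u).deriv]
      have h3 : s₀ ≤ u * wW u := hmono hu.1.le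
      have h3' : u * wW u ≤ τ * wW τ := hmono hu.2.le
      have h4 : 0 ≤ m * A - ((m : ℝ) + 1) * B * (u * wW u + s₀) := by
        have : ((m : ℝ) + 1) * B * (u * wW u + s₀) ≤ ((m : ℝ) + 1) * B * (τ * wW τ + s₀) := by
          apply mul_le_mul_of_nonneg_left _ (by positivity)
          linarith
        linarith
      exact mul_nonneg (pow_nonneg (wW_pos u).le _) (mul_nonneg (by linarith) h4)
    exact hgτ₀.trans (hm2 (left_mem_Icc.2 h1.le) (right_mem_Icc.2 h1.le) h1.le)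
  push Not at h2
  have hanti : AntitoneOn g (Ici τ) := by
    apply antitoneOn_of_deriv_nonpos (convex_Ici _) hcont.continuousOn (hdiff _)
    intro u hu
    rw [interior_Ici] at hu
    rw [(hg u).deriv]
    have hu' : τ < u := hu
    have h3 : s₀ ≤ u * wW u := hmono (h1.le.trans hu'.le)
    have h3' : τ * wW τ ≤ u * wW u := hmono hu'.le
    have h4 : m * A - ((m : ℝ) + 1) * B * (u * wW u + s₀) ≤ 0 := by
      have : ((m : ℝ) + 1) * B * (τ * wW τ + s₀) ≤ ((m : ℝ) + 1) * B * (u * wW u + s₀) := by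
        apply mul_le_mul_of_nonneg_left _ (by positivity)
        linarith
      linarith
    exact mul_nonpos_of_nonneg_of_nonpos (pow_nonneg (wW_pos u).le _)
      (mul_nonpos_of_nonneg_of_nonpos (by linarith) h4)
  have hlim : Tendsto g atTop (𝓝 (κ * 0 + Λ - 0 * (A - B * 1))) := by
    refine Tendsto.sub (((tendsto_Wn hn).const_mul κ).add_const Λ) (Tendsto.mul ?_ ?_)
    · have := tendsto_wW.pow m
      obtain ⟨k, rfl⟩ : ∃ k, m = k + 1 := ⟨m - 1, by omega⟩
      simpa using this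
    · exact (tendsto_sS.const_mul B).const_sub A
  have h3 : Λ ≤ g τ := by
    have e : κ * 0 + Λ - 0 * (A - B * 1) = Λ := by ring
    rw [e] at hlim
    refine le_of_tendsto hlim ?_
    filter_upwards [eventually_ge_atTop τ] with u hu
    exact hanti (mem_Ici.2 le_rfl) (mem_Ici.2 hu) hu
  linarith

/-- Lowering the intercept and raising the slope keeps a line valid. -/
lemma LineValid.mono {m : ℕ} {Λ A B A' B' : ℝ} (h : LineValid m Λ A B) (hA : A' ≤ A) (hB : B ≤ B') :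
    LineValid m Λ A' B' := by
  intro τ hτ
  refine le_trans ?_ (h τ hτ)
  apply mul_le_mul_of_nonneg_left _ (by positivity)
  have : 0 ≤ τ * (Real.sqrt (1 + τ ^ 2))⁻¹ := by positivity
  nlinarith

end Vale.Agent.P226
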