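import Vale.Agent.P226.Cell

/-!
# The height function of a cell and the formulas for its moments
-/

open MeasureTheory ProbabilityTheory Set Filter Topology

namespace Vale.Agent.P226

variable {d k : ℕ}

/-- The height function `ζ(x) = max_{j ≠ i} <x, v_j>`. -/
noncomputable def zeta (Z : Fin k → Euc d) (i : Fin k) (hne : (Finset.univ.erase i).Nonempty)
    (x : Euc d) : ℝ :=
  (Finset.univ.erase i).sup' hne (fun j => inner ℝ x (cv Z i j))

section
variable {Z : Fin k → Euc d} {i : Fin k} (hZ : ObtuseFP Z) (hne : (Finset.univ.erase i).Nonempty)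

omit hZ in
include hne in
lemma exists_ne : ∃ j, j ≠ i := by
  obtain ⟨j, hj⟩ := hne
  exact ⟨j, (Finset.mem_erase.1 hj).1⟩

include hZ

omit hZ in
lemma le_zeta (x : Euc d) {j : Fin k} (hj : j ≠ i) : inner ℝ x (cv Z i j) ≤ zeta Z i hne x :=
  Finset.le_sup' (fun j => inner ℝ x (cv Z i j)) (Finset.mem_erase.2 ⟨hj, Finset.mem_univ j⟩)

omit hZ in
lemma exists_zeta_eq (x : Euc d) : ∃ j, j ≠ i ∧ zeta Z i hne x = inner ℝ x (cv Z i j) := by
  obtain ⟨j, hj, h⟩ := Finset.exists_mem_eq_sup' hne (fun j => inner ℝ x (cv Z i j))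
  exact ⟨j, (Finset.mem_erase.1 hj).1, h⟩

omit hZ in
lemma measurable_zeta : Measurable (zeta Z i hne) := by
  have : zeta Z i hne = (Finset.univ.erase i).sup' hne (fun j x => inner ℝ x (cv Z i j)) := by
    funext x
    simp [zeta, Finset.sup'_apply]
  rw [this]
  exact Finset.measurable_sup' hne (fun j _ => by fun_prop)

lemma zeta_shift (x : Euc d) (s : ℝ) : zeta Z i hne (x + s • cu Z i) = zeta Z i hne x := by
  unfold zeta
  refine Finset.sup'_congr hne rfl fun j hj => ?_
  have hj' : j ≠ i := (Finset.mem_erase.1 hj).1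
  have h0 : inner ℝ (cu Z i) (cv Z i j) = 0 := by
    rw [real_inner_comm]; exact inner_cv_cu hZ hj'
  rw [inner_add_left, real_inner_smul_left, h0]
  simp

lemma zeta_nonneg [NeZero k] (x : Euc d) : 0 ≤ zeta Z i hne x := by
  obtain ⟨j0, hj0⟩ := exists_ne hne
  by_contra hcon
  push Not at hcon
  have h1 : inner ℝ x (∑ j ∈ Finset.univ.erase i, cb Z i j • cv Z i j) = 0 := by
    rw [sum_cb_smul_cv hZ hj0]; simp
  rw [inner_sum] at h1
  simp_rw [real_inner_smul_right] at h1
  have h2 : ∑ j ∈ Finset.univ.erase i, cb Z i j * inner ℝ x (cv Z i j) < 0 := by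
    apply Finset.sum_neg _ hne
    intro j hj
    have hj' : j ≠ i := (Finset.mem_erase.1 hj).1
    exact mul_neg_of_pos_of_neg (cb_pos hZ hj') ((le_zeta hne x hj').trans_lt hcon)
  linarith

/-- Comparing against `Z j` amounts to comparing the heights. -/
lemma inner_sub_eq (x : Euc d) {j : Fin k} (hj : j ≠ i) :
    inner ℝ x (Z i) - inner ℝ x (Z j) =
      cb Z i j * (inner ℝ x (cu Z i) - inner ℝ x (cv Z i j)) := by
  have h : cu Z i - cv Z i j = (cb Z i j)⁻¹ • (Z i - Z j) := by
    unfold cv; abel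
  have h2 : inner ℝ x (cu Z i) - inner ℝ x (cv Z i j) =
      (cb Z i j)⁻¹ * (inner ℝ x (Z i) - inner ℝ x (Z j)) := by
    rw [← inner_sub_right, h, real_inner_smul_right, inner_sub_right]
  rw [h2, ← mul_assoc, mul_inv_cancel₀ (cb_pos hZ hj).ne', one_mul]

lemma mem_cell_of_lt (x : Euc d) (h : zeta Z i hne x < inner ℝ x (cu Z i)) : x ∈ argCell Z i := by
  intro j
  by_cases hj : j = i
  · subst hj; exact ⟨le_refl _, fun h => absurd h (lt_irrefl _)⟩
  · have h1 := (le_zeta hne x hj).trans_lt h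
    have h2 := inner_sub_eq hZ x hj
    have h3 : 0 < cb Z i j * (inner ℝ x (cu Z i) - inner ℝ x (cv Z i j)) :=
      mul_pos (cb_pos hZ hj) (by linarith)
    have h4 : inner ℝ x (Z j) < inner ℝ x (Z i) := by linarith
    exact ⟨h4.le, fun _ => h4⟩

lemma le_of_mem_cell (x : Euc d) (h : x ∈ argCell Z i) : zeta Z i hne x ≤ inner ℝ x (cu Z i) := by
  apply Finset.sup'_le
  intro j hj
  have hj' : j ≠ i := (Finset.mem_erase.1 hj).1
  have h1 := (h j).1
  have h2 := inner_sub_eq hZ x hj'
  have h3 : 0 ≤ cb Z i j * (inner ℝ x (cu Z i) - inner ℝ x (cv Z i j)) := by linarith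
  have h4 := (mul_nonneg_iff_of_pos_left (cb_pos hZ hj')).1 h3
  linarith

/-- Integrals over the cell reduce to half-line integrals. -/
lemma cell_formula {H : Euc d → ℝ} (hH : Integrable H (stdGaussian (Euc d))) :
    ∫ x in argCell Z i, H x ∂(stdGaussian (Euc d)) =
      ∫ x, ∫ s in Ioi (zeta Z i hne x), H (x - (inner ℝ x (cu Z i)) • cu Z i + s • cu Z i)
        ∂(gaussianReal 0 1) ∂(stdGaussian (Euc d)) := by
  obtain ⟨j0, hj0⟩ := exists_ne hne
  exact cell_integral (cu Z i) (norm_cu hZ hj0) (zeta Z i hne) (zeta_shift hZ hne) _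
    (measurableSet_argCell Z i) (mem_cell_of_lt hZ hne) (le_of_mem_cell hZ hne) hH

/-- Mass of the cell. -/
theorem cell_mass : (stdGaussian (Euc d)).real (argCell Z i) =
    ∫ x, Qf (zeta Z i hne x) ∂(stdGaussian (Euc d)) := by
  have := cell_formula hZ hne (H := fun _ => (1 : ℝ)) (integrable_const _)
  simpa [Qf] using this

omit hZ in
lemma inner_line (hu : ‖cu Z i‖ = 1) (x : Euc d) (s : ℝ) :
    inner ℝ (x - (inner ℝ x (cu Z i)) • cu Z i + s • cu Z i) (cu Z i) = s := by
  simp [inner_add_left, inner_sub_left, inner_smul_left, hu]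

/-- First moment of the cell in direction `u`. -/
theorem cell_first : ‖Z i‖ = ∫ x, phi (zeta Z i hne x) ∂(stdGaussian (Euc d)) := by
  obtain ⟨j0, hj0⟩ := exists_ne hne
  have hu := norm_cu hZ hj0
  have h1 := cell_formula hZ hne (H := fun x => inner ℝ x (cu Z i)) (integrable_inner _)
  rw [← inner_gaussMoment, hZ.fp, inner_Z_cu hZ hj0] at h1
  simp_rw [inner_line hu, int_Ioi_id] at h1
  exact h1

/-- Second moment of the cell in direction `u`. -/
theorem cell_second : ∫ x in argCell Z i, (inner ℝ x (cu Z i)) ^ 2 ∂(stdGaussian (Euc d)) =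
    ∫ x, (zeta Z i hne x * phi (zeta Z i hne x) + Qf (zeta Z i hne x)) ∂(stdGaussian (Euc d)) := by
  obtain ⟨j0, hj0⟩ := exists_ne hne
  have hu := norm_cu hZ hj0
  have h1 := cell_formula hZ hne (H := fun x => (inner ℝ x (cu Z i)) ^ 2) (integrable_inner_sq _ hu)
  simp_rw [inner_line hu, int_Ioi_sq] at h1
  exact h1

/-- Moments orthogonal to `u`. -/
theorem cell_ortho (e : Euc d) (he : inner ℝ e (cu Z i) = 0) :
    ∫ x, inner ℝ x e * Qf (zeta Z i hne x) ∂(stdGaussian (Euc d)) = 0 := by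
  obtain ⟨j0, hj0⟩ := exists_ne hne
  have hu := norm_cu hZ hj0
  have h1 := cell_formula hZ hne (H := fun x => inner ℝ x e) (integrable_inner _)
  rw [← inner_gaussMoment, hZ.fp, Z_eq_smul_cu hZ hj0, real_inner_smul_left,
    real_inner_comm, he, mul_zero] at h1
  have h2 : ∀ (x : Euc d) (s : ℝ),
      inner ℝ (x - (inner ℝ x (cu Z i)) • cu Z i + s • cu Z i) e = inner ℝ x e := by
    intro x s
    simp only [inner_add_left, inner_sub_left, real_inner_smul_left]
    rw [real_inner_comm e (cu Z i), he]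
    ring
  simp_rw [h2] at h1
  rw [h1]
  congr 1
  funext x
  rw [setIntegral_const]
  simp [Qf, mul_comm]

end

lemma abs_mul_phi_le (t : ℝ) : |t * phi t| ≤ phi0 := by
  rw [abs_mul, abs_of_pos (phi_pos t)]
  unfold phi phi0
  have h : |t| * Real.exp (-t ^ 2 / 2) ≤ 1 := by
    have h1 : Real.exp (-t ^ 2 / 2) = (Real.exp (t ^ 2 / 2))⁻¹ := by
      rw [← Real.exp_neg]; congr 1; ring
    rw [h1, ← div_eq_mul_inv, div_le_one (Real.exp_pos _)]
    have h2 := Real.add_one_le_exp (t ^ 2 / 2)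
    nlinarith [sq_abs t, sq_nonneg (|t| - 1)]
  have h2 : 0 < (Real.sqrt (2 * Real.pi))⁻¹ := by positivity
  calc |t| * ((Real.sqrt (2 * Real.pi))⁻¹ * Real.exp (-t ^ 2 / 2))
      = (Real.sqrt (2 * Real.pi))⁻¹ * (|t| * Real.exp (-t ^ 2 / 2)) := by ring
    _ ≤ (Real.sqrt (2 * Real.pi))⁻¹ * 1 := mul_le_mul_of_nonneg_left h h2.le
    _ = _ := mul_one _

section
variable {Z : Fin k → Euc d} {i : Fin k} (hZ : ObtuseFP Z) (hne : (Finset.univ.erase i).Nonempty)

/-- The moment `M_i`. -/
noncomputable def cellM (Z : Fin k → Euc d) (i : Fin k) (hne : (Finset.univ.erase i).Nonempty) : ℝ :=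
  ∫ x, zeta Z i hne x * phi (zeta Z i hne x) ∂(stdGaussian (Euc d))

omit hZ in
lemma integrable_phi_zeta : Integrable (fun x => phi (zeta Z i hne x)) (stdGaussian (Euc d)) := by
  refine Integrable.of_bound (measurable_phi.comp (measurable_zeta hne)).aestronglyMeasurable phi0 ?_
  filter_upwards with x
  rw [Real.norm_eq_abs, abs_of_pos (phi_pos _)]
  exact phi_le_phi0 _

omit hZ in
lemma integrable_Qf_zeta : Integrable (fun x => Qf (zeta Z i hne x)) (stdGaussian (Euc d)) := by
  refine Integrable.of_bound (measurable_Qf.comp (measurable_zeta hne)).aestronglyMeasurable 1 ?_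
  filter_upwards with x
  rw [Real.norm_eq_abs, abs_of_nonneg (Qf_nonneg _)]
  exact Qf_le_one _

omit hZ in
lemma integrable_mul_phi_zeta :
    Integrable (fun x => zeta Z i hne x * phi (zeta Z i hne x)) (stdGaussian (Euc d)) := by
  have hm := measurable_zeta (Z := Z) hne
  refine Integrable.of_bound (hm.mul (measurable_phi.comp hm)).aestronglyMeasurable phi0 ?_
  filter_upwards with x
  rw [Real.norm_eq_abs]
  exact abs_mul_phi_le _

include hZ

lemma cellM_nonneg [NeZero k] : 0 ≤ cellM Z i hne := by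
  refine integral_nonneg fun x => ?_
  exact mul_nonneg (zeta_nonneg hZ hne x) (phi_pos _).le

include hne in
/-- `|z_i| ≤ φ(0)`. -/
lemma norm_le_phi0 : ‖Z i‖ ≤ phi0 := by
  rw [cell_first hZ hne]
  have : ∫ x, phi (zeta Z i hne x) ∂(stdGaussian (Euc d)) ≤ ∫ _x : Euc d, phi0 ∂(stdGaussian (Euc d)) :=
    integral_mono (integrable_phi_zeta hne) (integrable_const _) fun x => phi_le_phi0 _
  simpa using this

/-- Pointwise Mills tangent, integrated. -/
theorem cell_lower [NeZero k] : Real.sqrt (Real.pi / 2) * ‖Z i‖ ≤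
    (stdGaussian (Euc d)).real (argCell Z i) + cellM Z i hne := by
  rw [cell_mass hZ hne, cellM, cell_first hZ hne, ← integral_const_mul,
    ← integral_add (integrable_Qf_zeta hne) (integrable_mul_phi_zeta hne)]
  refine integral_mono ((integrable_phi_zeta hne).const_mul _)
    ((integrable_Qf_zeta hne).add (integrable_mul_phi_zeta hne)) fun x => ?_
  have := Qf_lower (zeta_nonneg hZ hne x)
  simp only
  nlinarith

/-- Cauchy-Schwarz for the cell. -/
theorem cell_CS [NeZero k] : ‖Z i‖ ^ 2 ≤ (stdGaussian (Euc d)).real (argCell Z i) *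
    ((stdGaussian (Euc d)).real (argCell Z i) + cellM Z i hne) := by
  obtain ⟨j0, hj0⟩ := exists_ne hne
  have hu := norm_cu hZ hj0
  set a := (stdGaussian (Euc d)).real (argCell Z i) with ha
  set S := ∫ x in argCell Z i, (inner ℝ x (cu Z i)) ^ 2 ∂(stdGaussian (Euc d)) with hS
  have hSeq : S = a + cellM Z i hne := by
    rw [hS, cell_second hZ hne, integral_add (integrable_mul_phi_zeta hne) (integrable_Qf_zeta hne),
      ha, cell_mass hZ hne, cellM]
    ring
  rw [← hSeq]
  have hx : ‖Z i‖ = ∫ x in argCell Z i, inner ℝ x (cu Z i) ∂(stdGaussian (Euc d)) := by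
    rw [← inner_gaussMoment, hZ.fp, inner_Z_cu hZ hj0]
  have ha0 : 0 ≤ a := measureReal_nonneg
  rcases ha0.eq_or_lt with h0 | hpos
  · -- null cell
    have hnull : (stdGaussian (Euc d)) (argCell Z i) = 0 := by
      have h00 := h0.symm
      rw [ha, measureReal_def] at h00
      exact ((ENNReal.toReal_eq_zero_iff _).1 h00).resolve_right (measure_ne_top _ _)
    rw [hx, setIntegral_measure_zero _ hnull, ← h0]
    simp
  · have hquad : ∀ t : ℝ, 0 ≤ S - 2 * t * ‖Z i‖ + t ^ 2 * a := by
      intro t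
      have h1 : 0 ≤ ∫ x in argCell Z i, (inner ℝ x (cu Z i) - t) ^ 2 ∂(stdGaussian (Euc d)) :=
        integral_nonneg fun x => sq_nonneg _
      have h2 : ∀ x : Euc d, (inner ℝ x (cu Z i) - t) ^ 2 =
          (inner ℝ x (cu Z i)) ^ 2 - 2 * t * inner ℝ x (cu Z i) + t ^ 2 := by
        intro x; ring
      simp_rw [h2] at h1
      have i1 : IntegrableOn (fun x : Euc d => (inner ℝ x (cu Z i)) ^ 2) (argCell Z i)
          (stdGaussian (Euc d)) := (integrable_inner_sq _ hu).integrableOn
      have i2 : IntegrableOn (fun x : Euc d => 2 * t * inner ℝ x (cu Z i)) (argCell Z i)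
          (stdGaussian (Euc d)) := ((integrable_inner _).const_mul _).integrableOn
      have i3 : IntegrableOn (fun x : Euc d => (inner ℝ x (cu Z i)) ^ 2 -
          2 * t * inner ℝ x (cu Z i)) (argCell Z i) (stdGaussian (Euc d)) := i1.sub i2
      rw [integral_add i3 (integrable_const _).integrableOn, integral_sub i1 i2,
        integral_const_mul, ← hx, setIntegral_const] at h1
      simpa [smul_eq_mul, mul_comm] using h1
    have := hquad (‖Z i‖ / a)
    have h3 : S - 2 * (‖Z i‖ / a) * ‖Z i‖ + (‖Z i‖ / a) ^ 2 * a = S - ‖Z i‖ ^ 2 / a := by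
      field_simp
      ring
    rw [h3] at this
    have h4 : ‖Z i‖ ^ 2 / a ≤ S := by linarith
    rwa [div_le_iff₀ hpos, mul_comm] at h4

end

end Vale.Agent.P226
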